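import Vale.Agent.P200.L.Defs
import Vale.Agent.P200.G.BaseChange

/-! Extension of scalars for the number of cycles. -/

namespace Vale.Agent.P200.L

open MvPolynomial Module
open Vale.Agent.P200.B Vale.Agent.P200.G

variable {K L : Type*} [Field K] [Field L] [Algebra K L] {n : ℕ}

/-- entrywise extension of scalars commutes with the Koszul differential -/
theorem kd_X_map (c : Finset (Fin n) → MvPolynomial (Fin n) K) (t : Finset (Fin n)) :
    kd X (fun s => MvPolynomial.map (algebraMap K L) (c s)) t =
      MvPolynomial.map (algebraMap K L) (kd X c t) := by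
  rw [kd_map (MvPolynomial.map (σ := Fin n) (algebraMap K L)) X c t]
  simp only [MvPolynomial.map_X]

/-- coordinates of cycles -/
theorem kd_X_bcc (φ : L →ₗ[K] K) (c : Finset (Fin n) → MvPolynomial (Fin n) L)
    (t : Finset (Fin n)) :
    kd X (fun s => bcc φ (c s)) t = bcc φ (kd X c t) := by
  rw [kd_apply, kd_apply, bcc_sum]
  refine Finset.sum_congr rfl fun i _ => ?_
  have h1 : ((-1 : MvPolynomial (Fin n) L) ^ (t.filter fun k => k < i).card) *
      (X i * c (insert i t)) =
      MvPolynomial.map (algebraMap K L)
        ((-1 : MvPolynomial (Fin n) K) ^ (t.filter fun k => k < i).card * X i) *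
        c (insert i t) := by
    rw [map_mul, map_pow, map_neg, map_one, MvPolynomial.map_X, mul_assoc]
  rw [h1, bcc_map_mul, mul_assoc]

/-- `K`-linearly independent families stay `L`-linearly independent -/
theorem linearIndependent_map_fam {ι : Type*} [Fintype ι]
    (u : ι → Finset (Fin n) → MvPolynomial (Fin n) K) (hu : LinearIndependent K u) :
    LinearIndependent L (fun i => fun s => MvPolynomial.map (algebraMap K L) (u i s)) := by
  rw [Fintype.linearIndependent_iff]
  intro c hc i
  have h1 : ∀ φ : L →ₗ[K] K, φ (c i) = 0 := by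
    intro φ
    have h3 : ∑ i, φ (c i) • u i = 0 := by
      funext s
      have h2 := congrArg (bcc φ) (congrFun hc s)
      rw [Finset.sum_apply, Pi.zero_apply, bcc_sum, bcc_zero] at h2
      rw [Finset.sum_apply, Pi.zero_apply, ← h2]
      refine Finset.sum_congr rfl fun i _ => ?_
      rw [Pi.smul_apply, Pi.smul_apply, bcc_smul_map]
    exact Fintype.linearIndependent_iff.1 hu _ h3 i
  have B := Module.Basis.ofVectorSpace K L
  apply B.ext_elem
  intro α
  rw [map_zero, Finsupp.zero_apply]
  exact h1 (B.coord α)

theorem finrank_rc_le_baseChange (U : Submodule K (MvPolynomial (Fin n) K))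
    (U' : Submodule L (MvPolynomial (Fin n) L))
    (hU : ∀ g ∈ U, MvPolynomial.map (algebraMap K L) g ∈ U') (d p : ℕ) :
    finrank K (rc X U (homogeneousSubmodule (Fin n) K d) p) ≤
      finrank L (rc X U' (homogeneousSubmodule (Fin n) L d) p) := by
  classical
  set V := rc X U (homogeneousSubmodule (Fin n) K d) p with hV
  let u := Module.finBasis K V
  let w : Fin (finrank K V) → Finset (Fin n) → MvPolynomial (Fin n) L := fun i s =>
    MvPolynomial.map (algebraMap K L) ((u i : Finset (Fin n) → MvPolynomial (Fin n) K) s)
  have hu : LinearIndependent K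
      (fun i => (u i : Finset (Fin n) → MvPolynomial (Fin n) K)) :=
    u.linearIndependent.map' V.subtype V.ker_subtype
  have hw : LinearIndependent L w := linearIndependent_map_fam _ hu
  have hle : Submodule.span L (Set.range w) ≤
      rc X U' (homogeneousSubmodule (Fin n) L d) p := by
    rw [Submodule.span_le]
    rintro _ ⟨i, rfl⟩
    have h := mem_rc.1 (u i).2
    refine ⟨⟨fun s hs => ?_, fun s => ?_⟩, fun t => ?_⟩
    · show MvPolynomial.map (algebraMap K L)
        ((u i : Finset (Fin n) → MvPolynomial (Fin n) K) s) = 0
      rw [h.1.1 s hs, map_zero]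
    · exact IsHomogeneous.map (h.1.2 s) _
    · have h1 := kd_X_map (L := L) (u i : Finset (Fin n) → MvPolynomial (Fin n) K) t
      show kd X (fun s => MvPolynomial.map (algebraMap K L)
        ((u i : Finset (Fin n) → MvPolynomial (Fin n) K) s)) t ∈ U'
      rw [h1]
      exact hU _ (h.2 t)
  have h1 := Submodule.finrank_mono hle
  rw [finrank_span_eq_card hw, Fintype.card_fin] at h1
  exact h1

theorem mem_restrictSupport_iff {R : Type*} [CommSemiring R] {S : Set (Fin n →₀ ℕ)}
    {g : MvPolynomial (Fin n) R} :
    g ∈ restrictSupport R S ↔ ∀ m, coeff m g ≠ 0 → m ∈ S := by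
  constructor
  · intro h m hm
    exact h (MvPolynomial.mem_support_iff.2 hm)
  · intro h m hm
    exact h m (MvPolynomial.mem_support_iff.1 hm)

theorem finrank_rc_restrictSupport (S : Set (Fin n →₀ ℕ)) (d p : ℕ) :
    finrank L (rc X (restrictSupport L S) (homogeneousSubmodule (Fin n) L d) p) ≤
      finrank K (rc X (restrictSupport K S) (homogeneousSubmodule (Fin n) K d) p) := by
  classical
  set V := rc X (restrictSupport K S) (homogeneousSubmodule (Fin n) K d) p with hV
  let u := Module.finBasis K V
  let w : Fin (finrank K V) → Finset (Fin n) → MvPolynomial (Fin n) L := fun i s =>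
    MvPolynomial.map (algebraMap K L) ((u i : Finset (Fin n) → MvPolynomial (Fin n) K) s)
  have hle : rc X (restrictSupport L S) (homogeneousSubmodule (Fin n) L d) p ≤
      Submodule.span L (Set.range w) := by
    intro c hc
    rw [mem_rc, mem_chW] at hc
    let B := Module.Basis.ofVectorSpace K L
    -- coordinates of `c` are cycles
    have h1 : ∀ φ : L →ₗ[K] K, (fun s => bcc φ (c s)) ∈ V := by
      intro φ
      rw [hV, mem_rc, mem_chW]
      refine ⟨⟨fun s hs => ?_, fun s => ?_⟩, fun t => ?_⟩
      · show bcc φ (c s) = 0
        rw [hc.1.1 s hs, bcc_zero]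
      · exact bcc_isHomogeneous _ (hc.1.2 s)
      · rw [kd_X_bcc, mem_restrictSupport_iff]
        intro m hm
        rw [coeff_bcc] at hm
        refine (mem_restrictSupport_iff.1 (hc.2 t)) m fun h0 => hm ?_
        rw [h0, map_zero]
    -- a common finite set of basis elements
    have h2 : ∃ T : Finset _, ∀ s, c s =
        ∑ α ∈ T, B α • MvPolynomial.map (algebraMap K L) (bcc (B.coord α) (c s)) := by
      have h3 : ∀ s, ∃ T : Finset _, ∀ T' : Finset _, T ⊆ T' → c s =
          ∑ α ∈ T', B α • MvPolynomial.map (algebraMap K L) (bcc (B.coord α) (c s)) := by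
        intro s
        refine ⟨(c s).support.biUnion fun m => (B.repr (coeff m (c s))).support, ?_⟩
        intro T' hT'
        ext m
        rw [coeff_sum]
        have h4 : ∀ α, coeff m (B α • MvPolynomial.map (algebraMap K L)
            (bcc (B.coord α) (c s))) = (B.repr (coeff m (c s)) α) • B α := by
          intro α
          rw [coeff_smul, coeff_map, coeff_bcc, smul_eq_mul, mul_comm, ← Algebra.smul_def,
            Module.Basis.coord_apply]
        rw [Finset.sum_congr rfl fun α _ => h4 α]
        by_cases hm : m ∈ (c s).support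
        · conv_lhs => rw [← B.linearCombination_repr (coeff m (c s)),
            Finsupp.linearCombination_apply, Finsupp.sum]
          refine Finset.sum_subset ((Finset.subset_biUnion_of_mem
            (fun m => (B.repr (coeff m (c s))).support) hm).trans hT') fun α _ hα => ?_
          rw [Finsupp.notMem_support_iff.1 hα, zero_smul]
        · rw [MvPolynomial.notMem_support_iff.1 hm, map_zero]
          simp
      choose T hT using h3
      exact ⟨Finset.univ.biUnion T, fun s =>
        hT s _ (Finset.subset_biUnion_of_mem T (Finset.mem_univ s))⟩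
    obtain ⟨T, hT⟩ := h2
    have h3 : c = ∑ α ∈ T, B α • (fun s =>
        MvPolynomial.map (algebraMap K L) (bcc (B.coord α) (c s))) := by
      funext s
      rw [Finset.sum_apply]
      exact hT s
    rw [h3]
    refine Submodule.sum_mem _ fun α _ => Submodule.smul_mem _ _ ?_
    have h4 := congrArg V.subtype (u.sum_repr ⟨_, h1 (B.coord α)⟩)
    rw [map_sum] at h4
    have h5 : (fun s => MvPolynomial.map (algebraMap K L) (bcc (B.coord α) (c s))) =
        ∑ i, (algebraMap K L (u.repr ⟨_, h1 (B.coord α)⟩ i)) • w i := by
      funext s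
      have h6 := congrFun h4 s
      rw [Finset.sum_apply] at h6
      have h7 : bcc (B.coord α) (c s) = ∑ i, (u.repr ⟨_, h1 (B.coord α)⟩ i) •
          ((u i : Finset (Fin n) → MvPolynomial (Fin n) K) s) := h6.symm
      rw [h7, map_sum, Finset.sum_apply]
      refine Finset.sum_congr rfl fun i _ => ?_
      rw [Pi.smul_apply, smul_eq_C_mul, map_mul, map_C, C_mul']
    rw [h5]
    exact Submodule.sum_mem _ fun i _ => Submodule.smul_mem _ _
      (Submodule.subset_span ⟨i, rfl⟩)
  have h1 : finrank L (rc X (restrictSupport L S) (homogeneousSubmodule (Fin n) L d) p) ≤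
      finrank L (Submodule.span L (Set.range w)) := by
    have : Module.Finite L (Submodule.span L (Set.range w)) :=
      FiniteDimensional.span_of_finite L (Set.finite_range w)
    exact Submodule.finrank_mono hle
  refine h1.trans ?_
  have h2 := finrank_range_le_card (R := L) w
  rw [Fintype.card_fin] at h2
  exact h2

end Vale.Agent.P200.L
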