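import Vale.Agent.P200.L.Step
import Vale.Agent.P200.L.BC
import Vale.Agent.P200.B.Final

/-! The lex-plus-powers inequalities from the case of as many forms as variables. -/

namespace Vale.Agent.P200.L

open MvPolynomial Module
open Vale.Agent.P200.B Vale.Agent.P200.G

variable {K : Type*} [Field K] {n c : ℕ}

/-- all numbers of variables, from `n = c` (for one `p`, and a class `C` of forms which is closed
under general linear sections) -/
theorem zle_all [Infinite K] (a : Fin c → ℕ) (hpos : ∀ i, 1 ≤ a i) (p : ℕ)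
    (C : ∀ n : ℕ, (Fin c → MvPolynomial (Fin n) K) → Prop)
    (hC : ∀ (n : ℕ) (f : Fin c → MvPolynomial (Fin (n + 1)) K), C (n + 1) f →
      ∀ cc : Fin n → K, C n fun i => rho cc (f i))
    (hE : ∀ (n : ℕ) (h : c ≤ n) (f : Fin c → MvPolynomial (Fin n) K),
      (∀ i, (f i).IsHomogeneous (a i)) → IsRegularSeq f → C n f → EGHfor h a f)
    (base : ∀ f : Fin c → MvPolynomial (Fin c) K,
      (∀ i, (f i).IsHomogeneous (a i)) → IsRegularSeq f → C c f → ZLE K le_rfl a p f) :
    ∀ (n : ℕ) (h : c ≤ n) (f : Fin c → MvPolynomial (Fin n) K),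
      (∀ i, (f i).IsHomogeneous (a i)) → IsRegularSeq f → C n f → ZLE K h a p f := by
  intro n h
  induction n, h using Nat.le_induction with
  | base => exact base
  | succ n h ih =>
    intro f hf hreg hCf
    cases p with
    | zero => exact zle_zero _ a f
    | succ p =>
      exact zle_succ h (Nat.le_succ_of_le h) a hpos f hf hreg p
        (fun cc hcc => hE n h _ (fun i => rho_isHomogeneous cc (hf i)) hcc (hC n f hCf cc))
        (fun cc hcc => ih _ (fun i => rho_isHomogeneous cc (hf i)) hcc (hC n f hCf cc))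

/-- descent along an extension of the field -/
theorem zle_of_baseChange {L : Type*} [Field L] [Algebra K L] (h : c ≤ n) (a : Fin c → ℕ)
    (p : ℕ) (f : Fin c → MvPolynomial (Fin n) K) (hf : ∀ i, (f i).IsHomogeneous (a i))
    (hZ : ZLE L h a p fun i => MvPolynomial.map (algebraMap K L) (f i)) : ZLE K h a p f := by
  intro d V hV1 hV2
  obtain ⟨I, hI, hfI, hID, -⟩ := piece_span_space f a hf V hV1 hV2
  set IL : Ideal (MvPolynomial (Fin n) L) := I.map (MvPolynomial.map (σ := Fin n) (algebraMap K L))
    with hIL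
  have h1 : Ideal.span (Set.range fun i => MvPolynomial.map (algebraMap K L) (f i)) ≤ IL := by
    rw [Ideal.span_le]
    rintro _ ⟨i, rfl⟩
    exact Ideal.mem_map_of_mem _ (hfI i)
  have h2 := hZ d (piece IL (d + 1)) (piece_mono h1 _) (G.piece_le IL _)
  have h3 : finrank L (piece IL (d + 1)) = finrank K V := by
    have h4 := finrank_piece_add_hilb IL (d + 1)
    have h5 := finrank_piece_add_hilb I (d + 1)
    rw [hilb_baseChange I hI] at h4
    rw [hID] at h5
    have h6 : finrank L (homogeneousSubmodule (Fin n) L (d + 1)) =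
        finrank K (homogeneousSubmodule (Fin n) K (d + 1)) := by
      rw [finrank_homogeneousSubmodule, finrank_homogeneousSubmodule]
    omega
  rw [h3] at h2
  have h7 : ∀ g ∈ V, MvPolynomial.map (algebraMap K L) g ∈ piece IL (d + 1) := by
    intro g hg
    rw [← hID] at hg
    exact ⟨Ideal.mem_map_of_mem _ hg.1, ((mem_homogeneousSubmodule _ _).1 hg.2).map _⟩
  exact (finrank_rc_le_baseChange V (piece IL (d + 1)) h7 d p).trans
    (h2.trans (finrank_rc_restrictSupport _ d p))

/-- one Betti number from two cycle inequalities -/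
theorem betti_le_of_zle (h : c ≤ n) (a : Fin c → ℕ) (hpos : ∀ i, 1 ≤ a i)
    (f : Fin c → MvPolynomial (Fin n) K) (hf : ∀ i, (f i).IsHomogeneous (a i))
    (hreg : IsRegularSeq f) (p : ℕ) (hZ : ZLE K h a p f) (hZ' : ZLE K h a (p + 1) f)
    (I : Ideal (MvPolynomial (Fin n) K)) (hI : HomIdeal I)
    (hfI : ∀ i, f i ∈ I) (J : Ideal (MvPolynomial (Fin n) K))
    (hJ : J.restrictScalars K = lexPlusPowers h a I) (j : ℕ) :
    betti I p j ≤ betti J p j := by
  obtain ⟨hJ1, hJ2, hJ3⟩ := lexPlusPowers_spec h a hpos f hf hreg I hI hfI J hJ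
  have hfI' : Ideal.span (Set.range f) ≤ I := by
    rw [Ideal.span_le]
    rintro _ ⟨i, rfl⟩
    exact hfI i
  have key : ∀ p, ZLE K h a p f → ∀ d,
      finrank K (rc X (piece I (d + 1)) (homogeneousSubmodule (Fin n) K d) p) ≤
        finrank K (rc X (piece J (d + 1)) (homogeneousSubmodule (Fin n) K d) p) := by
    intro p hp d
    have h1 := hp d (piece I (d + 1)) (piece_mono hfI' _) (G.piece_le I _)
    rwa [← lexPart_eq_lx, ← hJ2] at h1
  rcases lt_or_ge j p with hj | hj
  · rw [betti_of_lt I (Or.inr hj)]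
    exact Nat.zero_le _
  obtain ⟨e, rfl⟩ := Nat.exists_eq_add_of_le hj
  rcases e with _ | d
  · have h1 := betti_rc_zero I hI p
    have h2 := betti_rc_zero J hJ1 p
    have h3 := key p hZ 0
    rw [hJ3 0] at h2
    rw [zero_add] at h3
    rw [add_zero]
    omega
  · have h1 := betti_rc I hI p d
    have h2 := betti_rc J hJ1 p d
    have h3 := key p hZ (d + 1)
    have h4 := key (p + 1) hZ' d
    rw [hJ3 (d + 1)] at h2
    have h5 : d + 1 + 1 = d + 2 := rfl
    rw [h5] at h3
    omega

end Vale.Agent.P200.L
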