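import Vale.Agent.P200.L.Poly

/-! The model `B[z]`, with arbitrary coefficient spaces. -/

namespace Vale.Agent.P200.L

open MvPolynomial Module
open Vale.Agent.P200.B Vale.Agent.P200.G

variable {K : Type*} [Field K] {n : ℕ}

theorem grs_Bd (e : ℕ) : grs (Bd K n e) = Gd K n e := rfl

theorem lay_Gd (e i : ℕ) : lay (Gd K n e) i = Bd K n e i := by
  rw [← grs_Bd, lay_grs]

theorem lay_grs' (V : ℕ → Submodule K (MvPolynomial (Fin n) K)) : lay (grs V) = V :=
  funext (lay_grs V)

theorem lay_Gd' (e : ℕ) : lay (Gd K n e) = Bd K n e := funext (lay_Gd e)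

/-- the layers of positive degree of a space of pairs -/
def qs (U U' V V' : Submodule K (MvPolynomial (Fin n) K)) (p : ℕ) :
    Submodule K ((Finset (Fin n) → MvPolynomial (Fin n) K) ×
      (Finset (Fin n) → MvPolynomial (Fin n) K)) where
  carrier := {q | q.1 ∈ chW n (p + 1) V' ∧ q.2 ∈ chW n p V ∧ (∀ t, kd X q.2 t ∈ U) ∧
    ∀ t, kd X q.1 t + q.2 t ∈ U'}
  add_mem' := by
    rintro a b ⟨ha1, ha2, ha3, ha4⟩ ⟨hb1, hb2, hb3, hb4⟩
    refine ⟨Submodule.add_mem _ ha1 hb1, Submodule.add_mem _ ha2 hb2, fun t => ?_, fun t => ?_⟩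
    · rw [Prod.snd_add, kd_add]
      exact U.add_mem (ha3 t) (hb3 t)
    · have h := U'.add_mem (ha4 t) (hb4 t)
      rw [Prod.snd_add, Prod.fst_add, kd_add, Pi.add_apply, Pi.add_apply]
      convert h using 1
      ring
  zero_mem' := by
    have h : kd X (0 : Finset (Fin n) → MvPolynomial (Fin n) K) = 0 :=
      (kdL K (X : Fin n → MvPolynomial (Fin n) K)).map_zero
    refine ⟨Submodule.zero_mem _, Submodule.zero_mem _, fun t => ?_, fun t => ?_⟩
    · rw [Prod.snd_zero, h]
      exact U.zero_mem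
    · rw [Prod.snd_zero, Prod.fst_zero, h]
      simp
  smul_mem' := by
    rintro k a ⟨ha1, ha2, ha3, ha4⟩
    have h : ∀ c : Finset (Fin n) → MvPolynomial (Fin n) K, kd X (k • c) = k • kd X c :=
      fun c => (kdL K (X : Fin n → MvPolynomial (Fin n) K)).map_smul k c
    refine ⟨Submodule.smul_mem _ _ ha1, Submodule.smul_mem _ _ ha2, fun t => ?_, fun t => ?_⟩
    · rw [Prod.smul_snd, h]
      exact U.smul_mem _ (ha3 t)
    · rw [Prod.smul_snd, Prod.smul_fst, h, Pi.smul_apply, Pi.smul_apply, ← smul_add]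
      exact U'.smul_mem _ (ha4 t)

/-- the layers of a space of pairs -/
noncomputable def qc (U V : ℕ → Submodule K (MvPolynomial (Fin n) K)) (p : ℕ) :
    ℕ → Submodule K ((Finset (Fin n) → MvPolynomial (Fin n) K) ×
      (Finset (Fin n) → MvPolynomial (Fin n) K))
  | 0 => (rc X (U 0) (V 0) (p + 1)).prod ⊥
  | i + 1 => qs (U i) (U (i + 1)) (V i) (V (i + 1)) p

theorem mem_qc_zero {U V : ℕ → Submodule K (MvPolynomial (Fin n) K)} {p : ℕ}
    {q : (Finset (Fin n) → MvPolynomial (Fin n) K) × (Finset (Fin n) → MvPolynomial (Fin n) K)} :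
    q ∈ qc U V p 0 ↔ q.1 ∈ rc X (U 0) (V 0) (p + 1) ∧ q.2 = 0 := Iff.rfl

theorem mem_qc_succ {U V : ℕ → Submodule K (MvPolynomial (Fin n) K)} {p i : ℕ}
    {q : (Finset (Fin n) → MvPolynomial (Fin n) K) × (Finset (Fin n) → MvPolynomial (Fin n) K)} :
    q ∈ qc U V p (i + 1) ↔ q.1 ∈ chW n (p + 1) (V (i + 1)) ∧ q.2 ∈ chW n p (V i) ∧
      (∀ t, kd X q.2 t ∈ U i) ∧ ∀ t, kd X q.1 t + q.2 t ∈ U (i + 1) := Iff.rfl

/-- the number of pairs of families, from the layers -/
noncomputable def zq (U V : ℕ → Submodule K (MvPolynomial (Fin n) K)) (p N : ℕ) : ℕ :=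
  ∑ i ∈ Finset.range (N + 1), finrank K (qc U V p i)

theorem finite_pc_le (x : Fin n → Polynomial (MvPolynomial (Fin n) K))
    (z : Polynomial (MvPolynomial (Fin n) K))
    (U V : Submodule K (Polynomial (MvPolynomial (Fin n) K))) (e p : ℕ) (hV : V ≤ Gd K n e) :
    Module.Finite K (pc x z U V p) :=
  Submodule.finiteDimensional_of_le (S₂ := pc x z U (Gd K n e) p) fun _ hq =>
    ⟨⟨hq.1.1, fun s => hV (hq.1.2 s)⟩, ⟨hq.2.1.1, fun s => hV (hq.2.1.2 s)⟩, hq.2.2.1, hq.2.2.2⟩

theorem finite_qc {e : ℕ} (U V : ℕ → Submodule K (MvPolynomial (Fin n) K))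
    (hV : ∀ i, V i ≤ Bd K n e i) (p i : ℕ) : Module.Finite K (qc U V p i) := by
  have hf : ∀ j, Module.Finite K (V j) := fun j => Submodule.finiteDimensional_of_le (hV j)
  have hc : ∀ j q, (chW n q (V j)).FG := fun j q => by
    have := hf j
    exact Module.Finite.iff_fg.1 inferInstance
  cases i with
  | zero =>
    have h3 : Module.Finite K ((chW n (p + 1) (V 0)).prod
        (⊥ : Submodule K (Finset (Fin n) → MvPolynomial (Fin n) K))) :=
      Module.Finite.iff_fg.2 ((hc _ _).prod Submodule.fg_bot)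
    exact Submodule.finiteDimensional_of_le (S₂ := (chW n (p + 1) (V 0)).prod
        (⊥ : Submodule K (Finset (Fin n) → MvPolynomial (Fin n) K)))
        fun q hq => ⟨hq.1.1, hq.2⟩
  | succ i =>
    have h3 : Module.Finite K ((chW n (p + 1) (V (i + 1))).prod (chW n p (V i))) :=
      Module.Finite.iff_fg.2 ((hc _ _).prod (hc _ _))
    exact Submodule.finiteDimensional_of_le
      (S₂ := (chW n (p + 1) (V (i + 1))).prod (chW n p (V i))) fun q hq => ⟨hq.1, hq.2.1⟩

theorem map_cut_le_qc {p : ℕ} (U V : Submodule K (Polynomial (MvPolynomial (Fin n) K)))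
    (i : ℕ) :
    (cut (pc (xB K n) Polynomial.X U V p) (lpi K n) i).map (lpi K n i) ≤
      qc (lay U) (lay V) p i := by
  rintro _ ⟨⟨α, γ⟩, ⟨⟨h1, h2, h3, h4⟩, h5⟩, rfl⟩
  have hz : ∀ t, kd X (fun _ : Finset (Fin n) => (0 : MvPolynomial (Fin n) K)) t = 0 := by
    intro t
    exact congrFun (kdL K (X : Fin n → MvPolynomial (Fin n) K)).map_zero t
  cases i with
  | zero =>
    refine ⟨⟨⟨fun s hs => ?_, fun s => ?_⟩, fun t => ?_⟩, ?_⟩
    · change (α s).coeff 0 = 0
      have e : α s = 0 := h1.1 s hs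
      rw [e, Polynomial.coeff_zero]
    · exact ⟨_, h1.2 s, fun j hj => absurd hj (Nat.not_lt_zero _), rfl⟩
    · refine ⟨_, h4 t, fun j hj => absurd hj (Nat.not_lt_zero _), ?_⟩
      rw [Polynomial.coeff_add, kd_coeff, Polynomial.coeff_X_mul_zero, add_zero]
      rfl
    · change (lpi K n 0 (α, γ)).2 ∈ (⊥ : Submodule K _)
      rw [Submodule.mem_bot]
      funext s
      exact Polynomial.coeff_X_mul_zero _
  | succ i =>
    have h6 : ∀ j < i + 1, ∀ s, (α s).coeff j = 0 := fun j hj s => (lpi_eq_zero (h5 j hj) s).1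
    have h7 : ∀ j < i, ∀ s, (γ s).coeff j = 0 := by
      intro j hj s
      have h := (lpi_eq_zero (h5 (j + 1) (by omega)) s).2
      rw [Polynomial.coeff_X_mul] at h
      exact h
    have e2 : (lpi K n (i + 1) (α, γ)).2 = fun s => (γ s).coeff i := by
      funext s
      exact Polynomial.coeff_X_mul _ _
    have e1 : (lpi K n (i + 1) (α, γ)).1 = fun s => (α s).coeff (i + 1) := rfl
    rw [mem_qc_succ, e1, e2]
    refine ⟨⟨fun s hs => ?_, fun s => ?_⟩, ⟨fun s hs => ?_, fun s => ?_⟩, fun t => ?_,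
      fun t => ?_⟩
    · have e : α s = 0 := h1.1 s hs
      simp only
      rw [e, Polynomial.coeff_zero]
    · exact ⟨_, h1.2 s, fun j hj => h6 j hj s, rfl⟩
    · have e : γ s = 0 := h2.1 s hs
      simp only
      rw [e, Polynomial.coeff_zero]
    · exact ⟨_, h2.2 s, fun j hj => h7 j hj s, rfl⟩
    · refine ⟨_, h3 t, fun j hj => ?_, ?_⟩
      · rw [kd_coeff]
        have h8 : (fun s => (γ s).coeff j) = fun _ => 0 := funext fun s => h7 j hj s
        rw [h8, hz]
      · rw [kd_coeff]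
    · refine ⟨_, h4 t, fun j hj => ?_, ?_⟩
      · rw [Polynomial.coeff_add, kd_coeff]
        have h8 : (fun s => (α s).coeff j) = fun _ => 0 := funext fun s => h6 j hj s
        rw [h8, hz, zero_add]
        cases j with
        | zero => exact Polynomial.coeff_X_mul_zero _
        | succ j =>
          rw [Polynomial.coeff_X_mul]
          exact h7 j (by omega) t
      · rw [Polynomial.coeff_add, kd_coeff, Polynomial.coeff_X_mul]

theorem cut_top' {e p : ℕ} (U V : Submodule K (Polynomial (MvPolynomial (Fin n) K)))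
    (hV : V ≤ Gd K n e) :
    cut (pc (xB K n) Polynomial.X U V p) (lpi K n) (e + 2) = ⊥ := by
  rw [eq_bot_iff]
  rintro ⟨α, γ⟩ ⟨⟨h1, h2, h3, h4⟩, h5⟩
  rw [Submodule.mem_bot]
  apply Prod.ext
  · funext s
    exact gd_ext (hV (h1.2 s)) fun j hj => (lpi_eq_zero (h5 j (by omega)) s).1
  · funext s
    refine gd_ext (hV (h2.2 s)) fun j hj => ?_
    have h := (lpi_eq_zero (h5 (j + 1) (by omega)) s).2
    rw [Polynomial.coeff_X_mul] at h
    exact h

theorem finrank_pc_eq' {e p : ℕ} (U V : Submodule K (Polynomial (MvPolynomial (Fin n) K)))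
    (hV : V ≤ Gd K n e) :
    finrank K (pc (xB K n) Polynomial.X U V p) =
      ∑ i ∈ Finset.range (e + 1 + 1), finrank K
        ((cut (pc (xB K n) Polynomial.X U V p) (lpi K n) i).map (lpi K n i)) := by
  have h := finite_pc_le (xB K n) Polynomial.X U V e p hV
  exact finrank_cut' _ (lpi K n) (e + 2) (cut_top' U V hV)

/-- a space of pairs has at most the dimension given by its layers -/
theorem pc_lay {e p : ℕ} (U V : Submodule K (Polynomial (MvPolynomial (Fin n) K)))
    (hV : V ≤ Gd K n e) :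
    finrank K (pc (xB K n) Polynomial.X U V p) ≤ zq (lay U) (lay V) p (e + 1) := by
  rw [finrank_pc_eq' U V hV, zq]
  refine Finset.sum_le_sum fun i _ => ?_
  have h := finite_qc (lay U) (lay V) (lay_le hV) p i
  exact Submodule.finrank_mono (map_cut_le_qc U V i)

theorem qc_le_map_cut {p : ℕ} (U V : ℕ → Submodule K (MvPolynomial (Fin n) K)) (i : ℕ) :
    qc U V p i ≤
      (cut (pc (xB K n) Polynomial.X (grs U) (grs V) p) (lpi K n) i).map (lpi K n i) := by
  cases i with
  | zero =>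
    rintro ⟨a, b⟩ ⟨⟨h1, h2⟩, hb⟩
    refine ⟨(fun s => Polynomial.X ^ 0 * Polynomial.C (a s), 0), ⟨⟨⟨fun s hs => ?_, fun s => ?_⟩,
      Submodule.zero_mem _, fun t => ?_, fun t => ?_⟩,
      fun j hj => absurd hj (Nat.not_lt_zero _)⟩, ?_⟩
    · change Polynomial.X ^ 0 * Polynomial.C (a s) = 0
      have e : a s = 0 := h1.1 s hs
      rw [e, Polynomial.C_0, mul_zero]
    · exact XC_mem_grs (h1.2 s)
    · have h : kd (xB K n) (0 : Finset (Fin n) → Polynomial (MvPolynomial (Fin n) K)) = 0 :=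
        (kdL K (xB K n)).map_zero
      change kd (xB K n) (0 : Finset (Fin n) → Polynomial (MvPolynomial (Fin n) K)) t ∈ grs U
      rw [h]
      exact Submodule.zero_mem _
    · change kd (xB K n) (fun s => Polynomial.X ^ 0 * Polynomial.C (a s)) t +
        Polynomial.X * (0 : Polynomial (MvPolynomial (Fin n) K)) ∈ grs U
      rw [mul_zero, add_zero, kd_CX]
      exact XC_mem_grs (h2 t)
    · have hb0 : b = 0 := hb
      rw [hb0]
      apply Prod.ext
      · funext s
        change (Polynomial.X ^ 0 * Polynomial.C (a s)).coeff 0 = a s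
        rw [coeff_XC, if_pos rfl]
      · funext s
        exact Polynomial.coeff_X_mul_zero _
  | succ i =>
    rintro ⟨a, g⟩ ⟨ha, hg, hkg, hag⟩
    refine ⟨(fun s => Polynomial.X ^ (i + 1) * Polynomial.C (a s),
      fun s => Polynomial.X ^ i * Polynomial.C (g s)), ⟨⟨⟨fun s hs => ?_, fun s => ?_⟩,
      ⟨fun s hs => ?_, fun s => ?_⟩, fun t => ?_, fun t => ?_⟩, fun j hj => ?_⟩, ?_⟩
    · change Polynomial.X ^ (i + 1) * Polynomial.C (a s) = 0
      have e : a s = 0 := ha.1 s hs
      rw [e, Polynomial.C_0, mul_zero]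
    · exact XC_mem_grs (ha.2 s)
    · change Polynomial.X ^ i * Polynomial.C (g s) = 0
      have e : g s = 0 := hg.1 s hs
      rw [e, Polynomial.C_0, mul_zero]
    · exact XC_mem_grs (hg.2 s)
    · change kd (xB K n) (fun s => Polynomial.X ^ i * Polynomial.C (g s)) t ∈ grs U
      rw [kd_CX]
      exact XC_mem_grs (hkg t)
    · change kd (xB K n) (fun s => Polynomial.X ^ (i + 1) * Polynomial.C (a s)) t +
        Polynomial.X * (Polynomial.X ^ i * Polynomial.C (g t)) ∈ grs U
      rw [kd_CX, ← mul_assoc, ← pow_succ', ← mul_add, ← Polynomial.C_add]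
      exact XC_mem_grs (hag t)
    · apply Prod.ext
      · funext s
        change (Polynomial.X ^ (i + 1) * Polynomial.C (a s)).coeff j = 0
        rw [coeff_XC, if_neg (by omega)]
      · funext s
        change (Polynomial.X * (Polynomial.X ^ i * Polynomial.C (g s))).coeff j = 0
        rw [← mul_assoc, ← pow_succ', coeff_XC, if_neg (by omega)]
    · apply Prod.ext
      · funext s
        change (Polynomial.X ^ (i + 1) * Polynomial.C (a s)).coeff (i + 1) = a s
        rw [coeff_XC, if_pos rfl]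
      · funext s
        change (Polynomial.X * (Polynomial.X ^ i * Polynomial.C (g s))).coeff (i + 1) = g s
        rw [← mul_assoc, ← pow_succ', coeff_XC, if_pos rfl]

/-- with equality for graded spaces -/
theorem pc_grs {e p : ℕ} (U V : ℕ → Submodule K (MvPolynomial (Fin n) K))
    (hV : ∀ i, V i ≤ Bd K n e i) :
    finrank K (pc (xB K n) Polynomial.X (grs U) (grs V) p) = zq U V p (e + 1) := by
  refine le_antisymm ?_ ?_
  · have h := pc_lay (p := p) (grs U) (grs V) (grs_le V hV)
    rw [lay_grs', lay_grs'] at h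
    exact h
  · rw [finrank_pc_eq' (grs U) (grs V) (grs_le V hV), zq]
    refine Finset.sum_le_sum fun i _ => ?_
    have h1 := finite_pc_le (xB K n) Polynomial.X (grs U) (grs V) e p (grs_le V hV)
    have h2 : Module.Finite K (cut (pc (xB K n) Polynomial.X (grs U) (grs V) p)
        (lpi K n) i) := Submodule.finiteDimensional_of_le (cut_le _ _ _)
    exact Submodule.finrank_mono (qc_le_map_cut U V i)

theorem finrank_qc_zero (U V : ℕ → Submodule K (MvPolynomial (Fin n) K)) (p : ℕ) :
    finrank K (qc U V p 0) = finrank K (rc X (U 0) (V 0) (p + 1)) := by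
  have h : qc U V p 0 = (rc X (U 0) (V 0) (p + 1)).map
      (LinearMap.inl K _ (Finset (Fin n) → MvPolynomial (Fin n) K)) :=
    (Submodule.map_inl _).symm
  rw [h, finrank_map_inl]

theorem zq_Bd {d p : ℕ} (U : ℕ → Submodule K (MvPolynomial (Fin n) K))
    (hU : ∀ i, U i ≤ Bd K n (d + 1) i) : zq U (Bd K n d) p (d + 1) = zc U p d := by
  rw [← zc_grs U hU, ← grs_Bd, pc_grs U (Bd K n d) fun i => le_rfl]

end Vale.Agent.P200.L
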