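import Vale.Agent.P200.L.Coord

/-! Combinatorics of the layers of lex-plus-powers sets. -/

namespace Vale.Agent.P200.L

open MvPolynomial Module
open Vale.Agent.P200.B Vale.Agent.P200.G

variable {K : Type*} [Field K] {n c : ℕ}

theorem lexGT_tr {e e' e'' : Fin n →₀ ℕ} (h1 : lexGT e e') (h2 : lexGT e' e'') :
    lexGT e e'' := by
  obtain ⟨i, hi, hi'⟩ := h1
  obtain ⟨j, hj, hj'⟩ := h2
  rcases lt_trichotomy i j with hij | hij | hij
  · exact ⟨i, by rw [← hj' i hij]; exact hi, fun k hk => by rw [hi' k hk, hj' k (hk.trans hij)]⟩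
  · subst hij
    exact ⟨i, hj.trans hi, fun k hk => by rw [hi' k hk, hj' k hk]⟩
  · exact ⟨j, by rw [hi' j hij]; exact hj, fun k hk => by rw [hi' k (hk.trans hij), hj' k hk]⟩

theorem lexGT_total {e e' : Fin n →₀ ℕ} (h : e ≠ e') : lexGT e e' ∨ lexGT e' e := by
  classical
  have hex : ∃ i, e i ≠ e' i := by
    by_contra hcon
    push Not at hcon
    exact h (Finsupp.ext hcon)
  have hs : (Finset.univ.filter fun i => e i ≠ e' i).Nonempty := by
    obtain ⟨i, hi⟩ := hex
    exact ⟨i, by simp [hi]⟩
  obtain ⟨i, hi, hmin⟩ : ∃ i, e i ≠ e' i ∧ ∀ j < i, e j = e' j := by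
    refine ⟨_, (Finset.mem_filter.1 (Finset.min'_mem _ hs)).2, fun j hj => ?_⟩
    by_contra hcon
    exact absurd (Finset.min'_le _ j (by simp [hcon])) (not_le.mpr hj)
  rcases lt_or_gt_of_ne hi with h1 | h1
  · exact Or.inr ⟨i, h1, fun j hj => (hmin j hj).symm⟩
  · exact Or.inl ⟨i, h1, hmin⟩

/-- lex-plus-powers sets are closed upwards outside `P` -/
theorem lexSet_up (h : c ≤ n) (a : Fin c → ℕ) {d q : ℕ} {e e' : Fin n →₀ ℕ}
    (he : e ∈ outside h a d) (hgt : lexGT e e') (he' : e' ∈ lexSet h a d q)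
    (ho : e' ∈ outside h a d) : e ∈ lexSet h a d q := by
  rcases he' with he' | he'
  · obtain ⟨⟨i, hi⟩, -⟩ := he'
    exact absurd (ho.1 i) (not_lt.mpr hi)
  · refine Or.inr ⟨he, lt_of_le_of_lt (Set.ncard_le_ncard ?_ ?_) he'.2⟩
    · rintro x ⟨hx1, hx2⟩
      exact ⟨hx1, lexGT_tr hx2 hgt⟩
    · exact (outside_finite h a d).subset fun _ hx => hx.1

theorem mem_lexSet_degree (h : c ≤ n) (a : Fin c → ℕ) {d q : ℕ} {e : Fin n →₀ ℕ}
    (he : e ∈ lexSet h a d q) : ∑ i, e i = d := by
  rcases he with he | he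
  · exact he.2
  · exact he.1.2

theorem lex_sum_sn (m : Fin n →₀ ℕ) (i : ℕ) : ∑ k, sn m i k = ∑ k, m k + i := by
  rw [Fin.sum_univ_castSucc, sn_last]
  simp only [sn_castSucc]

theorem sn_castLE (h : c ≤ n) (h' : c ≤ n + 1) (m : Fin n →₀ ℕ) (i : ℕ) (k : Fin c) :
    sn m i (Fin.castLE h' k) = m (Fin.castLE h k) :=
  sn_castSucc m i (Fin.castLE h k)

theorem sn_injective {m m' : Fin n →₀ ℕ} {i i' : ℕ} (H : sn m i = sn m' i') :
    m = m' ∧ i = i' := by
  constructor
  · ext k
    rw [← sn_castSucc m i, ← sn_castSucc m' i', H]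
  · rw [← sn_last m i, ← sn_last m' i', H]

theorem sum_add_single (m : Fin n →₀ ℕ) (j : Fin n) :
    ∑ k, (m + Finsupp.single j 1 : Fin n →₀ ℕ) k = ∑ k, m k + 1 := by
  simp only [Finsupp.add_apply, Finset.sum_add_distrib]
  congr 1
  rw [Finset.sum_eq_single j]
  · simp
  · intro k _ hk
    rw [Finsupp.single_eq_of_ne hk]
  · intro hj
    exact absurd (Finset.mem_univ j) hj

theorem add_single_same (m : Fin n →₀ ℕ) (j : Fin n) :
    (m + Finsupp.single j 1 : Fin n →₀ ℕ) j = m j + 1 := by
  simp

theorem add_single_ne (m : Fin n →₀ ℕ) {j k : Fin n} (hk : k ≠ j) :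
    (m + Finsupp.single j 1 : Fin n →₀ ℕ) k = m k := by
  rw [Finsupp.add_apply, Finsupp.single_eq_of_ne hk, add_zero]

/-- filling the box -/
theorem lex_fill (h : c ≤ n) (a : Fin c → ℕ) (D : ℕ) (q : ℕ → ℕ)
    (hcl : ∀ i < D, ∀ m ∈ lexSet h a (D - (i + 1)) (q (i + 1)), ∀ j : Fin n,
      m + Finsupp.single j 1 ∈ lexSet h a (D - i) (q i))
    (m : Fin n →₀ ℕ) (hm : m ∈ outside h a D) (i : ℕ) (hi : i ≤ D) (m' : Fin n →₀ ℕ)
    (hm' : m' ∈ lexSet h a (D - i) (q i)) (ho : m' ∈ outside h a (D - i)) (hgt : lexGT m m') :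
    m ∈ lexSet h a D (q 0) := by
  induction i generalizing m' with
  | zero => exact lexSet_up h a hm hgt hm' ho
  | succ i ih =>
    obtain ⟨k, hk, hk'⟩ := hgt
    have hD : D - i = D - (i + 1) + 1 := by omega
    by_cases hex : ∃ j, k < j ∧
        ∀ l : Fin c, (m' + Finsupp.single j 1 : Fin n →₀ ℕ) (Fin.castLE h l) < a l
    · obtain ⟨j, hj, hbox⟩ := hex
      refine ih (by omega) (m' + Finsupp.single j 1) (hcl i (by omega) m' hm' j)
        ⟨hbox, ?_⟩ ⟨k, ?_, fun l hl => ?_⟩
      · rw [sum_add_single, ho.2, hD]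
      · rw [add_single_ne m' hj.ne]
        exact hk
      · rw [add_single_ne m' (hl.trans hj).ne]
        exact hk' l hl
    · have hcap : ∀ j, k < j → m j ≤ m' j := by
        intro j hj
        by_contra hcon
        rw [not_le] at hcon
        apply hex
        refine ⟨j, hj, fun l => ?_⟩
        by_cases hl : Fin.castLE h l = j
        · rw [hl, add_single_same]
          have := hm.1 l
          rw [hl] at this
          omega
        · rw [add_single_ne m' hl]
          exact ho.1 l
      have hbox : ∀ l : Fin c, (m' + Finsupp.single k 1 : Fin n →₀ ℕ) (Fin.castLE h l) < a l := by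
        intro l
        by_cases hl : Fin.castLE h l = k
        · rw [hl, add_single_same]
          have := hm.1 l
          rw [hl] at this
          omega
        · rw [add_single_ne m' hl]
          exact ho.1 l
      have hw := hcl i (by omega) m' hm' k
      rcases Nat.lt_or_ge (m' k + 1) (m k) with h1 | h1
      · refine ih (by omega) (m' + Finsupp.single k 1) hw ⟨hbox, ?_⟩ ⟨k, ?_, fun l hl => ?_⟩
        · rw [sum_add_single, ho.2, hD]
        · rw [add_single_same]
          exact h1
        · rw [add_single_ne m' hl.ne]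
          exact hk' l hl
      · have h2 : ∀ l, m l ≤ (m' + Finsupp.single k 1 : Fin n →₀ ℕ) l := by
          intro l
          rcases lt_trichotomy l k with hl | hl | hl
          · rw [add_single_ne m' hl.ne, hk' l hl]
          · rw [hl, add_single_same]
            exact h1
          · rw [add_single_ne m' hl.ne']
            exact hcap l hl
        have h3 : ∑ l, m l ≤ ∑ l, (m' + Finsupp.single k 1 : Fin n →₀ ℕ) l :=
          Finset.sum_le_sum fun l _ => h2 l
        have h4 := sum_add_single m' k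
        have h5 := hm.2
        have h6 := ho.2
        have hi0 : i = 0 := by omega
        subst hi0
        have h7 : ∑ l, m l = ∑ l, (m' + Finsupp.single k 1 : Fin n →₀ ℕ) l := by omega
        have h8 : m = m' + Finsupp.single k 1 := by
          ext l
          exact (Finset.sum_eq_sum_iff_of_le fun l _ => h2 l).1 h7 l (Finset.mem_univ l)
        rw [h8]
        exact hw

/-- the main combinatorial lemma: among the stable families of lex layers, the lexicographic
one has the smallest `z`-free layer -/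
theorem lex_layer (h : c ≤ n) (h' : c ≤ n + 1) (a : Fin c → ℕ) (D : ℕ) (q : ℕ → ℕ) (Q : ℕ)
    (hcl : ∀ i < D, ∀ m ∈ lexSet h a (D - (i + 1)) (q (i + 1)), ∀ j : Fin n,
      m + Finsupp.single j 1 ∈ lexSet h a (D - i) (q i))
    (hcard : (lexSet h' a D Q).ncard ≤
      ∑ i ∈ Finset.range (D + 1), (lexSet h a (D - i) (q i)).ncard)
    (m : Fin n →₀ ℕ) (hm : sn m 0 ∈ lexSet h' a D Q) : m ∈ lexSet h a D (q 0) := by
  classical
  by_contra hcon
  have hmD : ∑ k, m k = D := by
    have h1 := mem_lexSet_degree h' a hm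
    rw [lex_sum_sn, add_zero] at h1
    exact h1
  have hmo : m ∈ outside h a D := by
    refine ⟨fun l => ?_, hmD⟩
    by_contra hl
    exact hcon (Or.inl ⟨⟨l, not_lt.mp hl⟩, hmD⟩)
  have huo : sn m 0 ∈ outside h' a D := by
    refine ⟨fun l => ?_, ?_⟩
    · rw [sn_castLE h h']
      exact hmo.1 l
    · rw [lex_sum_sn, hmD, add_zero]
  -- all members of the layers are in the set, and different from `u`
  have key : ∀ i ≤ D, ∀ m' ∈ lexSet h a (D - i) (q i),
      sn m' i ∈ lexSet h' a D Q ∧ sn m' i ≠ sn m 0 := by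
    intro i hi m' hm'
    have hne : sn m' i ≠ sn m 0 := by
      intro H
      obtain ⟨rfl, rfl⟩ := sn_injective H
      exact hcon hm'
    refine ⟨?_, hne⟩
    have hdeg : ∑ k, sn m' i k = D := by
      rw [lex_sum_sn, mem_lexSet_degree h a hm']
      omega
    by_cases hin : ∃ l, a l ≤ m' (Fin.castLE h l)
    · obtain ⟨l, hl⟩ := hin
      refine Or.inl ⟨⟨l, ?_⟩, hdeg⟩
      rw [sn_castLE h h']
      exact hl
    · push Not at hin
      have ho : sn m' i ∈ outside h' a D := by
        refine ⟨fun l => ?_, hdeg⟩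
        rw [sn_castLE h h']
        exact hin l
      rcases lexGT_total hne with h1 | h1
      · exact lexSet_up h' a ho h1 hm huo
      · exfalso
        obtain ⟨k, hk, hk'⟩ := h1
        apply hcon
        refine lex_fill h a D q hcl m hmo i hi m' hm' ⟨hin, mem_lexSet_degree h a hm'⟩ ?_
        induction k using Fin.lastCases with
        | last =>
          rw [sn_last, sn_last] at hk
          omega
        | cast k =>
          rw [sn_castSucc, sn_castSucc] at hk
          refine ⟨k, hk, fun j hj => ?_⟩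
          have h2 := hk' j.castSucc (Fin.castSucc_lt_castSucc_iff.2 hj)
          rw [sn_castSucc, sn_castSucc] at h2
          exact h2
  -- counting
  set F : Finset (Fin (n + 1) →₀ ℕ) := (Finset.range (D + 1)).biUnion fun i =>
    (lexSet_finite h a (D - i) (q i)).toFinset.image fun m' => sn m' i with hF
  have hFc : F.card = ∑ i ∈ Finset.range (D + 1), (lexSet h a (D - i) (q i)).ncard := by
    rw [hF, Finset.card_biUnion]
    · refine Finset.sum_congr rfl fun i _ => ?_
      rw [Finset.card_image_of_injective _ fun x y hxy => (sn_injective hxy).1,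
        Set.ncard_eq_toFinset_card _ (lexSet_finite h a (D - i) (q i))]
    · intro i _ j _ hij
      rw [Function.onFun, Finset.disjoint_left]
      intro x hx hx'
      rw [Finset.mem_image] at hx hx'
      obtain ⟨y, -, rfl⟩ := hx
      obtain ⟨z, -, hz⟩ := hx'
      exact hij (sn_injective hz).2.symm
  have hsub : F ⊆ (lexSet_finite h' a D Q).toFinset.erase (sn m 0) := by
    intro x hx
    rw [hF, Finset.mem_biUnion] at hx
    obtain ⟨i, hi, hx⟩ := hx
    rw [Finset.mem_image] at hx
    obtain ⟨m', hm', rfl⟩ := hx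
    rw [Set.Finite.mem_toFinset] at hm'
    rw [Finset.mem_range] at hi
    obtain ⟨h1, h2⟩ := key i (by omega) m' hm'
    rw [Finset.mem_erase, Set.Finite.mem_toFinset]
    exact ⟨h2, h1⟩
  have h1 := Finset.card_le_card hsub
  have hmem : sn m 0 ∈ (lexSet_finite h' a D Q).toFinset := by
    rw [Set.Finite.mem_toFinset]
    exact hm
  have h2 := Finset.card_erase_lt_of_mem hmem
  rw [← Set.ncard_eq_toFinset_card _ (lexSet_finite h' a D Q)] at h2
  omega

/-- the layers of a lex-plus-powers set are stable -/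
theorem lexSet_stable (h' : c ≤ n + 1) (h : c ≤ n) (a : Fin c → ℕ) (D Q i : ℕ)
    (m : Fin n →₀ ℕ) (hm : sn m (i + 1) ∈ lexSet h' a D Q) (j : Fin n) :
    sn (m + Finsupp.single j 1) i ∈ lexSet h' a D Q := by
  have hdeg : ∑ k, sn (m + Finsupp.single j 1) i k = D := by
    have h1 := mem_lexSet_degree h' a hm
    rw [lex_sum_sn] at h1 ⊢
    rw [sum_add_single]
    omega
  by_cases hin : ∃ l, a l ≤ sn (m + Finsupp.single j 1) i (Fin.castLE h' l)
  · exact Or.inl ⟨hin, hdeg⟩
  · push Not at hin
    have ho : sn m (i + 1) ∈ outside h' a D := by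
      refine ⟨fun l => ?_, mem_lexSet_degree h' a hm⟩
      have h1 := hin l
      rw [sn_castLE h h', Finsupp.add_apply] at h1
      rw [sn_castLE h h']
      omega
    refine lexSet_up h' a ⟨hin, hdeg⟩ ⟨j.castSucc, ?_, fun k hk => ?_⟩ hm ho
    · rw [sn_castSucc, sn_castSucc, add_single_same]
      omega
    · induction k using Fin.lastCases with
      | last => exact absurd hk (not_lt.mpr (Fin.le_last _))
      | cast k =>
        rw [Fin.castSucc_lt_castSucc_iff] at hk
        rw [sn_castSucc, sn_castSucc, add_single_ne m hk.ne]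

theorem finrank_lx (h : c ≤ n) (a : Fin c → ℕ) (D v : ℕ) (h1 : (insideP h a D).ncard ≤ v)
    (h2 : v ≤ finrank K (homogeneousSubmodule (Fin n) K D)) :
    finrank K (lx K h a D v) = v := by
  have hin : (insideP h a D).Finite := (finite_degree_eq D).subset fun _ hm => hm.2
  rw [finrank_homogeneous_eq h a, degPart_powerIdeal, finrank_restrictSupport _ hin] at h2
  rw [lx, finrank_restrictSupport _ (lexSet_finite _ _ _ _), ncard_lexSet]
  omega

theorem lxl_le (h : c ≤ n + 1) (a : Fin c → ℕ) (D v i : ℕ) :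
    lxl K h a D v i ≤ Bd K n D i := by
  have hdeg : ∀ m : Fin n →₀ ℕ, sn m i ∈ lexSet h a D (v - (insideP h a D).ncard) →
      ∑ k, m k + i = D := by
    intro m hm
    rw [← lex_sum_sn]
    exact mem_lexSet_degree h a hm
  rw [lxl, Bd]
  split_ifs with hi
  · rw [homogeneousSubmodule_eq_restrict]
    apply restrictSupport_mono
    intro m hm
    have h1 := hdeg m hm
    show ∑ k, m k = D - i
    omega
  · intro x hx
    rw [mem_restrictSupport_iff] at hx
    rw [Submodule.mem_bot, ← MvPolynomial.support_eq_empty, Finset.eq_empty_iff_forall_notMem]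
    intro m hm
    have h1 := hdeg m (hx hm)
    omega

theorem map_eE_lx (h : c ≤ n + 1) (a : Fin c → ℕ) (D v : ℕ) :
    (lx K h a D v).map (eE K n).toLinearMap = grs (lxl K h a D v) :=
  map_eE_restrictSupport _

end Vale.Agent.P200.L
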