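import Vale.Agent.P200.L.Base
import Vale.Agent.P200.L.Lex

/-! Cycles modulo the forms: definition. -/

namespace Vale.Agent.P200.L

open MvPolynomial Module
open Vale.Agent.P200.B Vale.Agent.P200.G

variable {K : Type*} [Field K] {n c : ℕ}

/-- cycle inequality for families with entries in a space `V`, modulo the forms -/
def RLE (K : Type*) [Field K] {n c : ℕ} (h : c ≤ n) (a : Fin c → ℕ) (p : ℕ)
    (f : Fin c → MvPolynomial (Fin n) K) : Prop :=
  ∀ (e : ℕ) (V : Submodule K (MvPolynomial (Fin n) K)),
    piece (Ideal.span (Set.range f)) e ≤ V → V ≤ homogeneousSubmodule (Fin n) K e →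
    finrank K (rc X (piece (Ideal.span (Set.range f)) (e + 1)) V p) ≤
      finrank K (rc X (restrictSupport K (insideP h a (e + 1))) (lx K h a e (finrank K V)) p)

theorem rle_zero (h : c ≤ n) (a : Fin c → ℕ) (hpos : ∀ i, 1 ≤ a i)
    (f : Fin c → MvPolynomial (Fin n) K) (hf : ∀ i, (f i).IsHomogeneous (a i))
    (hreg : IsRegularSeq f) : RLE K h a 0 f := by
  intro e V hV1 hV2
  have h1 : ∀ U W : Submodule K (MvPolynomial (Fin n) K), rc X U W 0 = chW n 0 W := by
    intro U W
    refine le_antisymm (fun c hc => hc.1) fun c hc => ⟨hc, fun t => ?_⟩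
    rw [kd_card_zero hc.1]
    exact U.zero_mem
  have hfin : Module.Finite K V := Submodule.finiteDimensional_of_le hV2
  have hfinM : Module.Finite K (lx K h a e (finrank K V)) :=
    Submodule.finiteDimensional_of_le (lx_le h a e _)
  rw [h1, h1, finrank_chW, finrank_chW, finrank_lx h a e _ _ (Submodule.finrank_mono hV2)]
  rw [ncard_insideP_le h a hpos f hf hreg]
  exact Submodule.finrank_mono hV1

end Vale.Agent.P200.L
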