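import Vale.Agent.P200.L.Step
import Vale.Agent.P200.L.Poly2
import Vale.Agent.P200.L.RDefs

/-! Cycles modulo the forms: the induction on the number of variables. -/

namespace Vale.Agent.P200.L

open MvPolynomial Module
open Vale.Agent.P200.B Vale.Agent.P200.G

variable {K : Type*} [Field K] {n c : ℕ}

/-- the space in the model, after a change of coordinates -/
noncomputable def rsM (cc : Fin n → K) (V : Submodule K (MvPolynomial (Fin (n + 1)) K)) :
    Submodule K (Polynomial (MvPolynomial (Fin n) K)) :=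
  (V.map (eE K n).toLinearMap).map (cch (∑ j, MvPolynomial.C (cc j) * X j))

theorem rsM_le (cc : Fin n → K) {V : Submodule K (MvPolynomial (Fin (n + 1)) K)} {D : ℕ}
    (hV : V ≤ homogeneousSubmodule (Fin (n + 1)) K D) : rsM cc V ≤ Gd K n D := by
  rw [rsM, ← map_cch_Gd (sum_C_mul_X_isHomogeneous cc) D, ← map_eE_homogeneous]
  exact Submodule.map_mono (Submodule.map_mono hV)

theorem finrank_rsM (cc : Fin n → K) {V : Submodule K (MvPolynomial (Fin (n + 1)) K)} {D : ℕ}
    (hV : V ≤ homogeneousSubmodule (Fin (n + 1)) K D) : finrank K (rsM cc V) = finrank K V := by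
  have hfin : Module.Finite K V := Submodule.finiteDimensional_of_le hV
  have h1 : finrank K (V.map (eE K n).toLinearMap) = finrank K V :=
    LinearEquiv.finrank_map_eq (eE K n).toLinearEquiv V
  have hfin' : Module.Finite K (V.map (eE K n).toLinearMap) := inferInstance
  rw [rsM, ← h1]
  exact finrank_map_of_inj _ _ fun w _ hw => cch_injective _ (hw.trans (map_zero _).symm)

theorem rsM_tot (cc : Fin n → K) {V : Submodule K (MvPolynomial (Fin (n + 1)) K)} {D : ℕ}
    (hV : V ≤ homogeneousSubmodule (Fin (n + 1)) K D) : tot (lay (rsM cc V)) D = finrank K V := by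
  rw [← finrank_eq_tot_lay _ (rsM_le cc hV), finrank_rsM cc hV]

theorem rsM_lay (cc : Fin n → K) (a : Fin c → ℕ)
    (f : Fin c → MvPolynomial (Fin (n + 1)) K) (hf : ∀ i, (f i).IsHomogeneous (a i)) (D : ℕ)
    (V : Submodule K (MvPolynomial (Fin (n + 1)) K))
    (hV1 : piece (Ideal.span (Set.range f)) D ≤ V)
    (hV2 : V ≤ homogeneousSubmodule (Fin (n + 1)) K D) :
    Lay (Ideal.span (Set.range fun i => rho cc (f i))) D (lay (rsM cc V)) := by
  refine ⟨fun i => lay_le (rsM_le cc hV2) i, ?_⟩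
  intro i hi
  apply piece_span_le
  rintro _ ⟨k, rfl⟩ w
  have hr : (rho cc (f k)).IsHomogeneous (a k) := rho_isHomogeneous cc (hf k)
  by_cases hk : a k ≤ D - i
  · obtain ⟨t, ht⟩ := Nat.exists_eq_add_of_le' hk
    have h1 := comp_mul_add hr w t
    rw [ht, mul_comm w, h1]
    set b := homogeneousComponent t w with hb
    have hbh : b.IsHomogeneous t := homogeneousComponent_isHomogeneous _ _
    -- the element
    set H : Polynomial (MvPolynomial (Fin n) K) := Polynomial.C b * Polynomial.X ^ i with hH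
    have hHG : H ∈ Gd K n (t + i) := gen_Gd_mul (gen_C_mem_Gd hbh) (gen_pow_mem_Gd gen_X_mem_Gd i)
    have hHG' := gen_phi_symm_mem_Gd cc hHG
    rw [← map_eE_homogeneous] at hHG'
    obtain ⟨g, hg, hgH⟩ := hHG'
    have hg2 : eE K n g = (gen_phi cc).symm H := hgH
    have hmem : f k * g ∈ V := by
      apply hV1
      refine ⟨Ideal.mul_mem_right _ _ (Ideal.subset_span ⟨k, rfl⟩), ?_⟩
      have h2 : (f k * g).IsHomogeneous (a k + (t + i)) := (hf k).mul hg
      rwa [show a k + (t + i) = D by omega] at h2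
    have hval : gen_phi cc (eE K n (f k * g)) = gen_phi cc (eE K n (f k)) * Polynomial.C b *
        Polynomial.X ^ i := by
      rw [map_mul, map_mul, hg2, AlgEquiv.apply_symm_apply, hH, mul_assoc]
    refine ⟨gen_phi cc (eE K n (f k * g)), ⟨_, ⟨_, hmem, rfl⟩, rfl⟩, ?_, ?_⟩
    · intro j hj
      rw [hval, Polynomial.coeff_mul_X_pow', if_neg (by omega)]
    · rw [hval, Polynomial.coeff_mul_X_pow', if_pos le_rfl, Nat.sub_self, Polynomial.mul_coeff_zero,
        gen_coeff_zero, Polynomial.coeff_C_zero]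
  · rw [mul_comm, comp_mul_of_lt hr w (by omega)]
    exact Submodule.zero_mem _

theorem rsM_rc (cc : Fin n → K) (U V : Submodule K (MvPolynomial (Fin (n + 1)) K))
    [Module.Finite K V] (p : ℕ) :
    finrank K (rc X U V (p + 1)) ≤
      finrank K (pc (xB K n) Polynomial.X (rsM cc U) (rsM cc V) p) := by
  rw [finrank_rc_succ, ← finrank_pc_map (eE K n), eE_X_fun, eE_X_last]
  have hfin' : Module.Finite K (V.map (eE K n).toLinearMap) := inferInstance
  exact cch_pc (p := p) _ _ cc

/-- the layers of a piece -/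
noncomputable def rsP (J : Ideal (MvPolynomial (Fin n) K)) (D i : ℕ) :
    Submodule K (MvPolynomial (Fin n) K) := if i ≤ D then piece J (D - i) else ⊥

/-- the layers of the monomials -/
noncomputable def rsI (K : Type*) [Field K] {n c : ℕ} (h : c ≤ n) (a : Fin c → ℕ) (D i : ℕ) :
    Submodule K (MvPolynomial (Fin n) K) :=
  if i ≤ D then restrictSupport K (insideP h a (D - i)) else ⊥

theorem rsP_le (J : Ideal (MvPolynomial (Fin n) K)) (D i : ℕ) : rsP J D i ≤ Bd K n D i := by
  rw [rsP, Bd]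
  split_ifs with h
  · exact G.piece_le J _
  · exact le_rfl

theorem rsI_le (h : c ≤ n) (a : Fin c → ℕ) (D i : ℕ) : rsI K h a D i ≤ Bd K n D i := by
  rw [rsI, Bd]
  split_ifs with h
  · rw [homogeneousSubmodule_eq_restrict]
    exact restrictSupport_mono K fun m hm => hm.2
  · exact le_rfl

theorem rs_insideP_sn (h : c ≤ n) (h' : c ≤ n + 1) (a : Fin c → ℕ) (D i : ℕ) (m : Fin n →₀ ℕ) :
    sn m i ∈ insideP h' a D ↔ i ≤ D ∧ m ∈ insideP h a (D - i) := by
  constructor
  · rintro ⟨⟨k, hk⟩, hd⟩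
    rw [lex_sum_sn] at hd
    rw [sn_castLE h h'] at hk
    exact ⟨by omega, ⟨k, hk⟩, by omega⟩
  · rintro ⟨hi, ⟨k, hk⟩, hd⟩
    refine ⟨⟨k, ?_⟩, ?_⟩
    · rw [sn_castLE h h']
      exact hk
    · rw [lex_sum_sn]
      omega

theorem rs_eq_rsI (h : c ≤ n) (h' : c ≤ n + 1) (a : Fin c → ℕ) (D : ℕ) :
    (fun i => restrictSupport K {m | sn m i ∈ insideP h' a D}) = rsI K h a D := by
  funext i
  rw [rsI]
  split_ifs with hi
  · congr 1
    ext m
    rw [Set.mem_ofPred_eq, rs_insideP_sn h h']
    exact ⟨fun hm => hm.2, fun hm => ⟨hi, hm⟩⟩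
  · rw [eq_bot_iff]
    intro x hx
    rw [mem_restrictSupport_iff] at hx
    rw [Submodule.mem_bot, ← MvPolynomial.support_eq_empty, Finset.eq_empty_iff_forall_notMem]
    intro m hm
    exact hi ((rs_insideP_sn h h' a D i m).1 (hx hm)).1

theorem rs_map_insideP (h : c ≤ n) (h' : c ≤ n + 1) (a : Fin c → ℕ) (D : ℕ) :
    (restrictSupport K (insideP h' a D)).map (eE K n).toLinearMap = grs (rsI K h a D) := by
  rw [map_eE_restrictSupport, rs_eq_rsI h h']

theorem rs_finrank_rsI (h : c ≤ n) (a : Fin c → ℕ) {D i : ℕ} (hi : i ≤ D) :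
    finrank K (rsI K h a D i) = (insideP h a (D - i)).ncard := by
  rw [rsI, if_pos hi, finrank_restrictSupport _ ((finite_degree_eq _).subset
    fun _ hm => hm.2)]

theorem rs_tot_rsI (h : c ≤ n) (h' : c ≤ n + 1) (a : Fin c → ℕ) (D : ℕ) :
    tot (rsI K h a D) D = (insideP h' a D).ncard := by
  rw [← finrank_grs _ (rsI_le h a D), ← rs_map_insideP h h']
  rw [LinearEquiv.finrank_map_eq (eE K n).toLinearEquiv, finrank_restrictSupport _
    ((finite_degree_eq _).subset fun _ hm => hm.2)]

/-- the layers of the forms -/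
theorem rsM_piece (h : c ≤ n) (h' : c ≤ n + 1) (a : Fin c → ℕ) (hpos : ∀ i, 1 ≤ a i)
    (f : Fin c → MvPolynomial (Fin (n + 1)) K) (hf : ∀ i, (f i).IsHomogeneous (a i))
    (hreg : IsRegularSeq f) (cc : Fin n → K) (hcc : IsRegularSeq fun i => rho cc (f i)) (D : ℕ) :
    lay (rsM cc (piece (Ideal.span (Set.range f)) D)) =
      rsP (Ideal.span (Set.range fun i => rho cc (f i))) D := by
  set J := Ideal.span (Set.range fun i => rho cc (f i)) with hJ
  have hL := rsM_lay cc a f hf D _ le_rfl (G.piece_le (Ideal.span (Set.range f)) D)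
  rw [← hJ] at hL
  set L := lay (rsM cc (piece (Ideal.span (Set.range f)) D)) with hLdef
  have hfin : ∀ i, Module.Finite K (L i) := fun i => Submodule.finiteDimensional_of_le (hL.le i)
  have h1 : tot L D = (insideP h' a D).ncard := by
    rw [hLdef, rsM_tot cc (G.piece_le _ D), ncard_insideP_le h' a hpos f hf hreg]
  have h2 : tot L D = ∑ i ∈ Finset.range (D + 1), finrank K (piece J (D - i)) := by
    rw [h1, ← rs_tot_rsI (K := K) h h' a D, tot]
    refine Finset.sum_congr rfl fun i hi => ?_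
    rw [rs_finrank_rsI h a (by rw [Finset.mem_range] at hi; omega)]
    exact ncard_insideP_le h a hpos _ (fun i => rho_isHomogeneous cc (hf i)) hcc _
  have h3 : ∀ i ∈ Finset.range (D + 1), finrank K (piece J (D - i)) ≤ finrank K (L i) := by
    intro i hi
    have := hfin i
    exact Submodule.finrank_mono (hL.ge i (by rw [Finset.mem_range] at hi; omega))
  have h4 := (Finset.sum_eq_sum_iff_of_le h3).1 (by rw [← h2, tot])
  funext i
  rw [rsP]
  split_ifs with hi
  · have := hfin i
    exact (Submodule.eq_of_le_of_finrank_eq (hL.ge i hi)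
      (h4 i (by rw [Finset.mem_range]; omega))).symm
  · have h5 := hL.le i
    rw [Bd, if_neg hi] at h5
    exact eq_bot_iff.2 h5

theorem rsP_mul (J : Ideal (MvPolynomial (Fin n) K)) (D i : ℕ) (j : Fin n)
    (b : MvPolynomial (Fin n) K) (hb : b ∈ rsP J D (i + 1)) : X j * b ∈ rsP J D i := by
  rw [rsP] at hb ⊢
  split_ifs at hb with h1
  · rw [if_pos (by omega)]
    refine ⟨Ideal.mul_mem_left _ _ hb.1, ?_⟩
    have h2 := (isHomogeneous_X K j).mul ((mem_homogeneousSubmodule _ _).1 hb.2)
    rwa [show 1 + (D - (i + 1)) = D - i by omega] at h2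
  · rw [(Submodule.mem_bot K).1 hb, mul_zero]
    exact Submodule.zero_mem _

/-- the distraction -/
theorem rs_zq_disl {J : Ideal (MvPolynomial (Fin n) K)} {e p : ℕ}
    {V : ℕ → Submodule K (MvPolynomial (Fin n) K)}
    (hV : ∀ i, V i ≤ Bd K n e i) (k : ℕ) (j : Fin n) :
    zq (rsP J (e + 1)) V p (e + 1) ≤ zq (rsP J (e + 1)) (disl k j V) p (e + 1) := by
  have hfV : Module.Finite K (grs V) := Submodule.finiteDimensional_of_le (grs_le V hV)
  have hfU : Module.Finite K (grs (rsP J (e + 1))) :=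
    Submodule.finiteDimensional_of_le (grs_le _ (rsP_le J (e + 1)))
  rw [← pc_grs (rsP J (e + 1)) V hV]
  refine le_trans (dist_pc (p := p) (k := k) (rsP J (e + 1)) V j) ?_
  rw [map_dis_eq (rsP J (e + 1)) k (X j) fun i b hb => rsP_mul J (e + 1) i j b hb]
  have h1 := pc_lay (p := p) (grs (rsP J (e + 1))) ((grs V).map (dis k (X j)))
    (map_dis_le_Gd hV k j)
  rwa [lay_grs'] at h1

theorem rs_qs_le (U U' V V' : Submodule K (MvPolynomial (Fin n) K)) (p : ℕ) :
    qs U U' V V' p ≤ LinearMap.range (lpsi (chW n (p + 1) V') (chW n p U')) := by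
  rintro ⟨α, γ⟩ ⟨h1, h2, h3, h4⟩
  refine ⟨(⟨α, h1⟩, ⟨kd X α + γ, fun s hs => ?_, h4⟩), ?_⟩
  · change kd X α s + γ s = 0
    have e : γ s = 0 := h2.1 s hs
    rw [kd_card h1.1 s hs, e, add_zero]
  · rw [lpsi_apply]
    simp

theorem rs_le_qs (U U' V V' : Submodule K (MvPolynomial (Fin n) K)) (p : ℕ)
    (hV : ∀ j : Fin n, ∀ b ∈ V', X j * b ∈ V) (hU : ∀ j : Fin n, ∀ b ∈ U', X j * b ∈ U)
    (hUV : U' ≤ V) :
    LinearMap.range (lpsi (chW n (p + 1) V') (chW n p U')) ≤ qs U U' V V' p := by
  have key : ∀ (A B : Submodule K (MvPolynomial (Fin n) K))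
      (_ : ∀ j : Fin n, ∀ b ∈ A, X j * b ∈ B) (g : Finset (Fin n) → MvPolynomial (Fin n) K)
      (_ : ∀ s, g s ∈ A) (t : Finset (Fin n)), kd X g t ∈ B := by
    intro A B hAB g hg t
    rw [kd_apply]
    exact Submodule.sum_mem _ fun i _ => sign_mul_mem' _ _ (hAB i _ (hg _))
  rintro _ ⟨⟨⟨α, hα⟩, ⟨u, hu⟩⟩, rfl⟩
  rw [lpsi_apply]
  refine ⟨hα, ⟨fun s hs => ?_, fun s => ?_⟩, fun t => ?_, fun t => ?_⟩
  · change u s - kd X α s = 0
    have e : u s = 0 := hu.1 s hs
    rw [kd_card hα.1 s hs, e, sub_zero]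
  · exact V.sub_mem (hUV (hu.2 s)) (key V' V hV α hα.2 s)
  · change kd X (u - kd X α) t ∈ U
    rw [kd_sub, kd_sq, sub_zero]
    exact key U' U hU u hu.2 t
  · change kd X α t + (u t - kd X α t) ∈ U'
    rw [add_sub_cancel]
    exact hu.2 t

/-- the numbers of families of the layers of positive degree -/
noncomputable def rsN (n : ℕ) (U V : ℕ → Submodule K (MvPolynomial (Fin n) K)) (p e : ℕ) : ℕ :=
  n.choose (p + 1) * ∑ i ∈ Finset.range (e + 1), finrank K (V (i + 1)) +
    n.choose p * ∑ i ∈ Finset.range (e + 1), finrank K (U (i + 1))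

theorem rs_zq_le {e e' : ℕ} (U V : ℕ → Submodule K (MvPolynomial (Fin n) K))
    (hU : ∀ i, U i ≤ Bd K n e' i) (hV : ∀ i, V i ≤ Bd K n e i) (p : ℕ) :
    zq U V p (e + 1) ≤ finrank K (rc X (U 0) (V 0) (p + 1)) + rsN n U V p e := by
  rw [zq, Finset.sum_range_succ', finrank_qc_zero, add_comm, rsN, Finset.mul_sum, Finset.mul_sum,
    ← Finset.sum_add_distrib]
  refine Nat.add_le_add le_rfl (Finset.sum_le_sum fun i _ => ?_)
  have h1 : Module.Finite K (V (i + 1)) := Submodule.finiteDimensional_of_le (hV _)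
  have h2 : Module.Finite K (U (i + 1)) := Submodule.finiteDimensional_of_le (hU _)
  rw [← finrank_chW, ← finrank_chW, ← finrank_range_lpsi]
  exact Submodule.finrank_mono (rs_qs_le (U i) (U (i + 1)) (V i) (V (i + 1)) p)

theorem rs_le_zq {e : ℕ} (U V : ℕ → Submodule K (MvPolynomial (Fin n) K))
    (hV : ∀ i, V i ≤ Bd K n e i) (p : ℕ)
    (hsV : ∀ i, ∀ j : Fin n, ∀ b ∈ V (i + 1), X j * b ∈ V i)
    (hsU : ∀ i, ∀ j : Fin n, ∀ b ∈ U (i + 1), X j * b ∈ U i) (hUV : ∀ i, U (i + 1) ≤ V i) :
    finrank K (rc X (U 0) (V 0) (p + 1)) + rsN n U V p e ≤ zq U V p (e + 1) := by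
  rw [zq, Finset.sum_range_succ', finrank_qc_zero, add_comm, rsN, Finset.mul_sum, Finset.mul_sum,
    ← Finset.sum_add_distrib]
  refine Nat.add_le_add (Finset.sum_le_sum fun i _ => ?_) le_rfl
  have h1 : Module.Finite K (V (i + 1)) := Submodule.finiteDimensional_of_le (hV _)
  have h0 : Module.Finite K (V i) := Submodule.finiteDimensional_of_le (hV _)
  have h2 : Module.Finite K (U (i + 1)) := Submodule.finiteDimensional_of_le ((hUV i).trans (hV i))
  have h3 := finite_qc U V hV p (i + 1)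
  rw [← finrank_chW, ← finrank_chW, ← finrank_range_lpsi]
  exact Submodule.finrank_mono
    (rs_le_qs (U i) (U (i + 1)) (V i) (V (i + 1)) p (hsV i) (hsU i) (hUV i))

/-- the number of cycles grows at most like the space of the entries -/
theorem rs_rc_mono (x : Fin n → MvPolynomial (Fin n) K)
    (U : Submodule K (MvPolynomial (Fin n) K)) {V V' : Submodule K (MvPolynomial (Fin n) K)}
    (hV : V ≤ V') (q : ℕ) [Module.Finite K V'] :
    finrank K (rc x U V' q) + n.choose q * finrank K V ≤
      finrank K (rc x U V q) + n.choose q * finrank K V' := by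
  have : Module.Finite K V := Submodule.finiteDimensional_of_le hV
  set ψ : (Finset (Fin n) → MvPolynomial (Fin n) K) →ₗ[K]
      (Finset (Fin n) → MvPolynomial (Fin n) K ⧸ V) :=
    LinearMap.pi fun t => V.mkQ ∘ₗ LinearMap.proj t with hψ
  have hker : ∀ c : Finset (Fin n) → MvPolynomial (Fin n) K, ψ c = 0 ↔ ∀ t, c t ∈ V := by
    intro c
    constructor
    · intro h t
      exact (Submodule.Quotient.mk_eq_zero V).1 (congrFun h t)
    · intro h
      funext t
      exact (Submodule.Quotient.mk_eq_zero V).2 (h t)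
  have h1 := finrank_map_add ψ (rc x U V' q)
  have h2 : rc x U V' q ⊓ LinearMap.ker ψ = rc x U V q := by
    ext c
    rw [Submodule.mem_inf, LinearMap.mem_ker, hker]
    exact ⟨fun h => ⟨⟨h.1.1.1, h.2⟩, h.1.2⟩, fun h => ⟨⟨⟨h.1.1, fun s => hV (h.1.2 s)⟩, h.2⟩, h.1.2⟩⟩
  rw [h2] at h1
  have h3 : (rc x U V' q).map ψ ≤ (chW n q V').map ψ := Submodule.map_mono fun c hc => hc.1
  have h4 := finrank_map_add ψ (chW n q V')
  have h5 : chW n q V' ⊓ LinearMap.ker ψ = chW n q V := by
    ext c
    rw [Submodule.mem_inf, LinearMap.mem_ker, hker]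
    exact ⟨fun h => ⟨h.1.1, h.2⟩, fun h => ⟨⟨h.1, fun s => hV (h.2 s)⟩, h.2⟩⟩
  rw [h5, finrank_chW, finrank_chW] at h4
  have h6 := Submodule.finrank_mono h3
  omega

theorem rsI_mul (h : c ≤ n) (a : Fin c → ℕ) (D i : ℕ) (j : Fin n)
    (b : MvPolynomial (Fin n) K) (hb : b ∈ rsI K h a D (i + 1)) : X j * b ∈ rsI K h a D i := by
  rw [rsI] at hb ⊢
  split_ifs at hb with h1
  · rw [if_pos (by omega)]
    have h3 : (restrictSupport K (insideP h a (D - (i + 1)))).map (LinearMap.mulLeft K (X j)) ≤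
        restrictSupport K (insideP h a (D - i)) := by
      rw [restrictSupport_eq_span, Submodule.map_span, Submodule.span_le]
      rintro _ ⟨_, ⟨m, hm, rfl⟩, rfl⟩
      show X j * monomial m (1 : K) ∈ restrictSupport K (insideP h a (D - i))
      have h4 : X j * monomial m (1 : K) = monomial (m + Finsupp.single j 1) 1 := by
        rw [X, monomial_mul, one_mul, add_comm]
      rw [h4]
      refine (monomial_mem_restrictSupport K).2 (Or.inl ⟨?_, ?_⟩)
      · obtain ⟨⟨k, hk⟩, -⟩ := hm
        exact ⟨k, hk.trans (by rw [Finsupp.add_apply]; exact Nat.le_add_right _ _)⟩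
      · rw [sum_add_single]
        have := hm.2
        omega
    exact h3 ⟨_, hb, rfl⟩
  · rw [(Submodule.mem_bot K).1 hb, mul_zero]
    exact Submodule.zero_mem _

theorem lxl_mul (h : c ≤ n) (h' : c ≤ n + 1) (a : Fin c → ℕ) (D v i : ℕ) (j : Fin n)
    (b : MvPolynomial (Fin n) K) (hb : b ∈ lxl K h' a D v (i + 1)) :
    X j * b ∈ lxl K h' a D v i := by
  have h3 : (lxl K h' a D v (i + 1)).map (LinearMap.mulLeft K (X j)) ≤
      lxl K h' a D v i := by
    rw [lxl, restrictSupport_eq_span, Submodule.map_span, Submodule.span_le]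
    rintro _ ⟨_, ⟨m, hm, rfl⟩, rfl⟩
    show X j * monomial m (1 : K) ∈ lxl K h' a D v i
    have h4 : X j * monomial m (1 : K) = monomial (m + Finsupp.single j 1) 1 := by
      rw [X, monomial_mul, one_mul, add_comm]
    rw [h4]
    exact (monomial_mem_restrictSupport K).2 (Or.inl (lexSet_stable h' h a _ _ i m hm j))
  exact h3 ⟨_, hb, rfl⟩

theorem rsI_le_lxl (h : c ≤ n) (h' : c ≤ n + 1) (a : Fin c → ℕ) (e v i : ℕ) :
    rsI K h a (e + 1) (i + 1) ≤ lxl K h' a e v i := by
  rw [rsI]
  split_ifs with hi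
  · rw [lxl]
    refine restrictSupport_mono K fun m hm => Or.inl ?_
    rw [rs_insideP_sn h h']
    exact ⟨by omega, by rwa [show e + 1 - (i + 1) = e - i by omega] at hm⟩
  · exact bot_le

/-- the cycles of the lex space, by its layers -/
theorem rs_rc_lx (h : c ≤ n) (h' : c ≤ n + 1) (a : Fin c → ℕ) (e v p : ℕ) :
    finrank K (rc X (restrictSupport K (insideP h' a (e + 1))) (lx K h' a e v) (p + 1)) =
      zq (rsI K h a (e + 1)) (lxl K h' a e v) p (e + 1) := by
  have e2 : eE K n (X (Fin.last n)) = Polynomial.X := eE_X_last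
  have e3 := finrank_pc_map (K := K) (R := MvPolynomial (Fin (n + 1)) K)
    (R' := Polynomial (MvPolynomial (Fin n) K)) (eE K n) (fun i : Fin n => (X i.castSucc))
    (X (Fin.last n)) (restrictSupport K (insideP h' a (e + 1))) (lx K h' a e v) p
  rw [eE_X_fun, e2, map_eE_lx, rs_map_insideP h h'] at e3
  rw [finrank_rc_succ, ← e3]
  exact pc_grs _ _ fun i => lxl_le h' a e v i

/-- **the induction step** -/
theorem rle_succ [Infinite K] (h : c ≤ n) (h' : c ≤ n + 1) (a : Fin c → ℕ)
    (hpos : ∀ i, 1 ≤ a i) (f : Fin c → MvPolynomial (Fin (n + 1)) K)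
    (hf : ∀ i, (f i).IsHomogeneous (a i)) (hreg : IsRegularSeq f) (p : ℕ)
    (hE : ∀ cc : Fin n → K, IsRegularSeq (fun i => rho cc (f i)) →
      EGHfor h a fun i => rho cc (f i))
    (hR : ∀ cc : Fin n → K, IsRegularSeq (fun i => rho cc (f i)) →
      RLE K h a (p + 1) fun i => rho cc (f i)) :
    RLE K h' a (p + 1) f := by
  intro e V hV1 hV2
  obtain ⟨cc, hcc⟩ := exists_rho_regular h a hpos f hf hreg
  specialize hE cc hcc
  specialize hR cc hcc
  set fb : Fin c → MvPolynomial (Fin n) K := fun i => rho cc (f i) with hfb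
  have hfbh : ∀ i, (fb i).IsHomogeneous (a i) := fun i => rho_isHomogeneous cc (hf i)
  have hfinV : Module.Finite K V := Submodule.finiteDimensional_of_le hV2
  set J := Ideal.span (Set.range fb) with hJ
  set U := rsP J (e + 1) with hU
  -- layers
  set V1 := lay (rsM cc V) with hV1def
  have hL1 : Lay J e V1 := rsM_lay cc a f hf e V hV1 hV2
  have ht1 : tot V1 e = finrank K V := rsM_tot cc hV2
  have hz1 : finrank K (rc X (piece (Ideal.span (Set.range f)) (e + 1)) V (p + 1)) ≤
      zq U V1 p (e + 1) := by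
    refine (rsM_rc cc _ V p).trans ?_
    have h1 := pc_lay (p := p) (rsM cc (piece (Ideal.span (Set.range f)) (e + 1))) (rsM cc V)
      (rsM_le cc hV2)
    rwa [rsM_piece h h' a hpos f hf hreg cc hcc (e + 1)] at h1
  -- stable layers
  obtain ⟨V2, hL2, ht2, hz2, hs2⟩ := exists_stable_gen (J := J) (D := e)
    (fun V' => zq U V1 p (e + 1) ≤ zq U V' p (e + 1))
    (fun V' hL hPV' k j => hPV'.trans (rs_zq_disl hL.le k j)) hL1 le_rfl
  have hV2h : ∀ i ≤ e, V2 i ≤ homogeneousSubmodule (Fin n) K (e - i) := by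
    intro i hi
    have := hL2.le i
    rwa [Bd, if_pos hi] at this
  have hfin : ∀ i, Module.Finite K (V2 i) := fun i =>
    Submodule.finiteDimensional_of_le (hL2.le i)
  -- the lex layers
  set q : ℕ → ℕ := fun i => finrank K (V2 i) - (insideP h a (e - i)).ncard with hq
  have hins : ∀ D, (insideP h a D).ncard = finrank K (piece J D) :=
    fun D => ncard_insideP_le h a hpos fb hfbh hcc D
  have hins' : (insideP h' a e).ncard = finrank K (piece (Ideal.span (Set.range f)) e) :=
    ncard_insideP_le h' a hpos f hf hreg _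
  have hv1 : (insideP h' a e).ncard ≤ finrank K V := by
    rw [hins']
    exact Submodule.finrank_mono hV1
  have hv2 : finrank K V ≤ finrank K (homogeneousSubmodule (Fin (n + 1)) K e) :=
    Submodule.finrank_mono hV2
  set v := finrank K V with hv
  have hlxv : finrank K (lx K h' a e v) = v := finrank_lx h' a e v hv1 hv2
  have hcardi : ∀ i ≤ e, (lexSet h a (e - i) (q i)).ncard = finrank K (V2 i) := by
    intro i hi
    have h1 : (insideP h a (e - i)).ncard ≤ finrank K (V2 i) := by
      rw [hins]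
      have := hfin i
      exact Submodule.finrank_mono (hL2.ge i hi)
    have h2 : finrank K (V2 i) ≤ finrank K (homogeneousSubmodule (Fin n) K (e - i)) :=
      Submodule.finrank_mono (hV2h i hi)
    have h3 := finrank_lx (K := K) h a (e - i) (finrank K (V2 i)) h1 h2
    rwa [lx, finrank_restrictSupport _ (lexSet_finite _ _ _ _)] at h3
  have hcl : ∀ i < e, ∀ m ∈ lexSet h a (e - (i + 1)) (q (i + 1)), ∀ j : Fin n,
      m + Finsupp.single j 1 ∈ lexSet h a (e - i) (q i) := by
    intro i hi m hm j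
    have e1 : e - i = e - (i + 1) + 1 := by omega
    have h1 := lexSet_closure h a hpos fb hfbh hcc hE (e - (i + 1)) (V2 (i + 1)) (V2 i)
      (hL2.ge _ (by omega)) (hV2h _ (by omega)) (by rw [← e1]; exact hL2.ge i (by omega))
      (by rw [← e1]; exact hV2h i (by omega)) (fun j b hb => hs2 i (by omega) j b hb) m hm j
    rw [← e1] at h1
    exact h1
  have hcard : (lexSet h' a e (v - (insideP h' a e).ncard)).ncard ≤
      ∑ i ∈ Finset.range (e + 1), (lexSet h a (e - i) (q i)).ncard := by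
    have h1 : (lexSet h' a e (v - (insideP h' a e).ncard)).ncard = v := by
      have h2 := hlxv
      rwa [lx, finrank_restrictSupport _ (lexSet_finite _ _ _ _)] at h2
    rw [h1, ← ht1, ← ht2, tot]
    exact Finset.sum_le_sum fun i hi => (hcardi i (by rw [Finset.mem_range] at hi; omega)).ge
  have hlay := lex_layer h h' a e q (v - (insideP h' a e).ncard) hcl hcard
  -- the layers of the lex space
  set L := lxl K h' a e v with hL
  have hLle : ∀ i, L i ≤ Bd K n e i := fun i => lxl_le h' a e v i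
  have hLfin : ∀ i, Module.Finite K (L i) := fun i =>
    Submodule.finiteDimensional_of_le (hLle i)
  have hLtot : tot L e = v := by
    rw [← finrank_grs _ hLle, hL, ← map_eE_lx]
    rw [LinearEquiv.finrank_map_eq (eE K n).toLinearEquiv, hlxv]
  have hL0 : L 0 ≤ lx K h a e (finrank K (V2 0)) := by
    refine restrictSupport_mono K fun m hm => ?_
    exact hlay m hm
  -- the inequalities
  have hV20 := hR e (V2 0) (by simpa using hL2.ge 0 (by omega)) (by simpa using hV2h 0 (by omega))
  rw [← hJ] at hV20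
  have hM : finrank K (lx K h a e (finrank K (V2 0))) = finrank K (V2 0) := by
    have h3 := hcardi 0 (by omega)
    rw [lx, finrank_restrictSupport _ (lexSet_finite _ _ _ _)]
    exact h3
  have hfinM : Module.Finite K (lx K h a e (finrank K (V2 0))) :=
    Submodule.finiteDimensional_of_le (lx_le h a e _)
  have hmono := rs_rc_mono (K := K) X (restrictSupport K (insideP h a (e + 1))) hL0 (p + 1)
  rw [hM] at hmono
  have hup := rs_zq_le U V2 (rsP_le J (e + 1)) hL2.le p
  have hlo := rs_le_zq (rsI K h a (e + 1)) L hLle p (fun i j b hb => lxl_mul h h' a e v i j b hb)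
    (fun i j b hb => rsI_mul h a (e + 1) i j b hb) (fun i => rsI_le_lxl h h' a e v i)
  have hUU : ∀ i ≤ e + 1, finrank K (U i) = finrank K (rsI K h a (e + 1) i) := by
    intro i hi
    rw [rs_finrank_rsI h a hi, hU, rsP, if_pos hi, hins]
  have hU0 : U 0 = piece J (e + 1) := by rw [hU, rsP, if_pos (Nat.zero_le _), Nat.sub_zero]
  have hI0 : rsI K h a (e + 1) 0 = restrictSupport K (insideP h a (e + 1)) := by
    rw [rsI, if_pos (Nat.zero_le _), Nat.sub_zero]
  have hSU : ∑ i ∈ Finset.range (e + 1), finrank K (U (i + 1)) =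
      ∑ i ∈ Finset.range (e + 1), finrank K (rsI K h a (e + 1) (i + 1)) :=
    Finset.sum_congr rfl fun i hi => hUU (i + 1) (by rw [Finset.mem_range] at hi; omega)
  rw [rs_rc_lx h h' a e v p, ← hL]
  refine hz1.trans (hz2.trans (hup.trans (le_trans ?_ hlo)))
  rw [hU0, hI0, rsN, rsN, hSU]
  have ez : ∀ (W : ℕ → Submodule K (MvPolynomial (Fin n) K)), (∀ i, W i ≤ Bd K n e i) →
      ∑ i ∈ Finset.range (e + 1), finrank K (W (i + 1)) + finrank K (W 0) = tot W e := by
    intro W hW
    have h1 : W (e + 1) = ⊥ := by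
      have h2 := hW (e + 1)
      rw [Bd, if_neg (by omega)] at h2
      exact eq_bot_iff.2 h2
    rw [tot, ← Finset.sum_range_succ' (fun i => finrank K (W i)), Finset.sum_range_succ, h1,
      finrank_bot, add_zero]
  have e2 := ez V2 hL2.le
  have e3 := ez L hLle
  have e4 : n.choose (p + 1) * ∑ i ∈ Finset.range (e + 1), finrank K (V2 (i + 1)) +
      n.choose (p + 1) * finrank K (V2 0) = n.choose (p + 1) * v := by
    rw [← mul_add, e2, ht2, ht1]
  have e5 : n.choose (p + 1) * ∑ i ∈ Finset.range (e + 1), finrank K (L (i + 1)) +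
      n.choose (p + 1) * finrank K (L 0) = n.choose (p + 1) * v := by
    rw [← mul_add, e3, hLtot]
  omega

/-- all numbers of variables, from `n = c` (for one `p`, and a class `C` of forms which is closed
under general linear sections) -/
theorem rle_all [Infinite K] (a : Fin c → ℕ) (hpos : ∀ i, 1 ≤ a i) (p : ℕ)
    (C : ∀ n : ℕ, (Fin c → MvPolynomial (Fin n) K) → Prop)
    (hC : ∀ (n : ℕ) (f : Fin c → MvPolynomial (Fin (n + 1)) K), C (n + 1) f →
      ∀ cc : Fin n → K, C n fun i => rho cc (f i))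
    (hE : ∀ (n : ℕ) (h : c ≤ n) (f : Fin c → MvPolynomial (Fin n) K),
      (∀ i, (f i).IsHomogeneous (a i)) → IsRegularSeq f → C n f → EGHfor h a f)
    (base : ∀ f : Fin c → MvPolynomial (Fin c) K,
      (∀ i, (f i).IsHomogeneous (a i)) → IsRegularSeq f → C c f → RLE K le_rfl a p f) :
    ∀ (n : ℕ) (h : c ≤ n) (f : Fin c → MvPolynomial (Fin n) K),
      (∀ i, (f i).IsHomogeneous (a i)) → IsRegularSeq f → C n f → RLE K h a p f := by
  intro n h
  induction n, h using Nat.le_induction with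
  | base => exact base
  | succ n h ih =>
    intro f hf hreg hCf
    cases p with
    | zero => exact rle_zero _ a hpos f hf hreg
    | succ p =>
      exact rle_succ h (Nat.le_succ_of_le h) a hpos f hf hreg p
        (fun cc hcc => hE n h _ (fun i => rho_isHomogeneous cc (hf i)) hcc (hC n f hCf cc))
        (fun cc hcc => ih _ (fun i => rho_isHomogeneous cc (hf i)) hcc (hC n f hCf cc))

end Vale.Agent.P200.L
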