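import Vale.Agent.P200.L.Dual
import Vale.Agent.P200.L.All
import Vale.Agent.P200.L.RStep

/-! The lex-plus-powers inequalities for fast growing degrees: a form of degree larger than the
socle degree of the previous ones is not seen by the inequalities in low degrees, and the high
degrees follow by duality. -/

namespace Vale.Agent.P200.L

open MvPolynomial Module
open Vale.Agent.P200.B Vale.Agent.P200.G

variable {K : Type*} [Field K] {n c : ℕ}

/-- the degree `e` piece does not see a last form of degree `> e` -/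
theorem fast_piece (a : Fin (c + 1) → ℕ) (f : Fin (c + 1) → MvPolynomial (Fin n) K)
    (hf : ∀ i, (f i).IsHomogeneous (a i)) {e : ℕ} (he : e < a (Fin.last c)) :
    piece (Ideal.span (Set.range f)) e =
      piece (Ideal.span (Set.range fun i : Fin c => f (Fin.castLE (Nat.le_succ c) i))) e := by
  set g : Fin c → MvPolynomial (Fin n) K := fun i => f (Fin.castLE (Nat.le_succ c) i) with hg
  have hgh : HomIdeal (Ideal.span (Set.range g)) := homIdeal_span (by
    rintro _ ⟨i, rfl⟩
    exact ⟨_, hf _⟩)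
  have hr : Set.range f = Set.range g ∪ {f (Fin.last c)} := by
    ext x
    simp only [Set.mem_range, Set.mem_union, Set.mem_singleton_iff]
    constructor
    · rintro ⟨i, rfl⟩
      rcases Fin.eq_castSucc_or_eq_last i with ⟨j, rfl⟩ | rfl
      · exact Or.inl ⟨j, rfl⟩
      · exact Or.inr rfl
    · rintro (⟨i, rfl⟩ | rfl)
      · exact ⟨_, rfl⟩
      · exact ⟨_, rfl⟩
  rw [hr, Ideal.span_union]
  refine le_antisymm ?_ (piece_mono le_sup_left _)
  intro x hx
  refine ⟨?_, hx.2⟩
  obtain ⟨i, hi, j, hj, hij⟩ := Submodule.mem_sup.1 hx.1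
  obtain ⟨u, rfl⟩ := Ideal.mem_span_singleton'.1 hj
  have h1 : x = homogeneousComponent e i := by
    rw [← comp_self hx.2, ← hij, map_add, mul_comm u, comp_mul_of_lt (hf _) u he, add_zero]
  rw [h1]
  exact hgh _ hi _

theorem fast_insideP (h : c + 1 ≤ n) (h' : c ≤ n) (a : Fin (c + 1) → ℕ) {e : ℕ}
    (he : e < a (Fin.last c)) :
    insideP h a e = insideP h' (fun i => a (Fin.castLE (Nat.le_succ c) i)) e := by
  ext m
  constructor
  · rintro ⟨⟨i, hi⟩, hm⟩
    refine ⟨?_, hm⟩
    rcases Fin.eq_castSucc_or_eq_last i with ⟨j, rfl⟩ | rfl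
    · exact ⟨j, hi⟩
    · exfalso
      have h1 : m (Fin.castLE h (Fin.last c)) ≤ ∑ i, m i :=
        Finset.single_le_sum (fun _ _ => Nat.zero_le _) (Finset.mem_univ _)
      omega
  · rintro ⟨⟨i, hi⟩, hm⟩
    exact ⟨⟨Fin.castLE (Nat.le_succ c) i, hi⟩, hm⟩

theorem fast_outside (h : c + 1 ≤ n) (h' : c ≤ n) (a : Fin (c + 1) → ℕ) {e : ℕ}
    (he : e < a (Fin.last c)) :
    outside h a e = outside h' (fun i => a (Fin.castLE (Nat.le_succ c) i)) e := by
  ext m
  constructor
  · rintro ⟨h1, hm⟩
    exact ⟨fun i => h1 (Fin.castLE (Nat.le_succ c) i), hm⟩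
  · rintro ⟨h1, hm⟩
    refine ⟨fun i => ?_, hm⟩
    rcases Fin.eq_castSucc_or_eq_last i with ⟨j, rfl⟩ | rfl
    · exact h1 j
    · have h1 : m (Fin.castLE h (Fin.last c)) ≤ ∑ i, m i :=
        Finset.single_le_sum (fun _ _ => Nat.zero_le _) (Finset.mem_univ _)
      omega

theorem fast_lx (h : c + 1 ≤ n) (h' : c ≤ n) (a : Fin (c + 1) → ℕ) {e : ℕ}
    (he : e < a (Fin.last c)) (v : ℕ) :
    lx K h a e v = lx K h' (fun i => a (Fin.castLE (Nat.le_succ c) i)) e v := by
  rw [lx, lx, lexSet, lexSet, fast_insideP h h' a he, fast_outside h h' a he]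

/-- low degrees -/
theorem fast_zAt (h : c + 1 ≤ n) (h' : c ≤ n) (a : Fin (c + 1) → ℕ)
    (f : Fin (c + 1) → MvPolynomial (Fin n) K) (hf : ∀ i, (f i).IsHomogeneous (a i)) {p d : ℕ}
    (hd : d + 1 < a (Fin.last c))
    (hZ : ZLE K h' (fun i => a (Fin.castLE (Nat.le_succ c) i)) p
      fun i => f (Fin.castLE (Nat.le_succ c) i)) : ZAt K h a p d f := by
  intro V hV1 hV2
  rw [fast_lx h h' a hd]
  refine hZ d V ?_ hV2
  rw [← fast_piece a f hf hd]
  exact hV1

theorem fast_rAt (h : c + 1 ≤ n) (h' : c ≤ n) (a : Fin (c + 1) → ℕ)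
    (f : Fin (c + 1) → MvPolynomial (Fin n) K) (hf : ∀ i, (f i).IsHomogeneous (a i)) {p e : ℕ}
    (he : e + 1 < a (Fin.last c))
    (hR : RLE K h' (fun i => a (Fin.castLE (Nat.le_succ c) i)) p
      fun i => f (Fin.castLE (Nat.le_succ c) i)) : RAt K h a p e f := by
  intro V hV1 hV2
  have he' : e < a (Fin.last c) := by omega
  rw [fast_lx h h' a he', fast_insideP h h' a he, fast_piece a f hf he]
  refine hR e V ?_ hV2
  rw [← fast_piece a f hf he']
  exact hV1

/-- one more form of high degree, as many forms as variables -/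
theorem fast_step [Infinite K] (a : Fin (c + 1) → ℕ) (hpos : ∀ i, 1 ≤ a i)
    (hgrow : ∑ i : Fin c, (a (Fin.castLE (Nat.le_succ c) i) - 1) < a (Fin.last c))
    (f : Fin (c + 1) → MvPolynomial (Fin (c + 1)) K) (hf : ∀ i, (f i).IsHomogeneous (a i))
    (hreg : IsRegularSeq f)
    (hZ : ∀ p, ZLE K (Nat.le_succ c) (fun i => a (Fin.castLE (Nat.le_succ c) i)) p
      fun i => f (Fin.castLE (Nat.le_succ c) i))
    (hR : ∀ p, RLE K (Nat.le_succ c) (fun i => a (Fin.castLE (Nat.le_succ c) i)) p
      fun i => f (Fin.castLE (Nat.le_succ c) i)) (p : ℕ) : ZLE K le_rfl a p f := by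
  have hsum : ∑ i, (a i - 1) =
      ∑ i : Fin c, (a (Fin.castLE (Nat.le_succ c) i) - 1) + (a (Fin.last c) - 1) := by
    rw [Fin.sum_univ_castSucc]
    rfl
  intro d
  change ZAt K le_rfl a p d f
  rcases lt_or_ge (d + 1) (a (Fin.last c)) with h1 | h1
  · exact fast_zAt le_rfl (Nat.le_succ c) a f hf h1 (hZ p)
  rcases lt_or_ge (∑ i, (a i - 1)) (d + 1) with h2 | h2
  · exact zAt_of_lt a f hf hreg h2
  rcases Nat.eq_zero_or_pos p with h3 | h3
  · rw [h3]
    exact zle_zero le_rfl a f d
  rcases lt_or_ge (c + 1) p with h4 | h4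
  · exact zle_of_lt le_rfl a f h4 d
  rw [zAt_iff_rAt a hpos f hf hreg h3 h4 h2]
  exact fast_rAt le_rfl (Nat.le_succ c) a f hf (by omega) (hR _)

/-- **Lex-plus-powers for fast growing degrees**: from `m` forms in `m` variables to all later
forms, if the degree of each later form exceeds the socle degree of the previous ones. -/
theorem zle_fast [Infinite K] {m c : ℕ} (hmc : m ≤ c) (a : Fin c → ℕ) (_ha : Monotone a)
    (h2 : ∀ i, 2 ≤ a i)
    (hgrow : ∀ i : Fin c, m ≤ i.1 → ∑ j ∈ Finset.univ.filter (fun j => j < i), (a j - 1) < a i)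
    (hE : ∀ (c' : ℕ) (hc' : c' ≤ c), m ≤ c' → ∀ (n : ℕ) (h : c' ≤ n)
      (f : Fin c' → MvPolynomial (Fin n) K),
      (∀ i, (f i).IsHomogeneous (a (Fin.castLE hc' i))) → IsRegularSeq f →
      EGHfor h (fun i => a (Fin.castLE hc' i)) f)
    (base : ∀ g : Fin m → MvPolynomial (Fin m) K,
      (∀ i, (g i).IsHomogeneous (a (Fin.castLE hmc i))) → IsRegularSeq g →
      ∀ p, ZLE K le_rfl (fun i => a (Fin.castLE hmc i)) p g) :
    ∀ (n : ℕ) (h : c ≤ n) (f : Fin c → MvPolynomial (Fin n) K),
      (∀ i, (f i).IsHomogeneous (a i)) → IsRegularSeq f → ∀ p, ZLE K h a p f := by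
  have key : ∀ c', m ≤ c' → ∀ hc' : c' ≤ c, ∀ (n : ℕ) (h : c' ≤ n)
      (f : Fin c' → MvPolynomial (Fin n) K),
      (∀ i, (f i).IsHomogeneous (a (Fin.castLE hc' i))) → IsRegularSeq f →
      ∀ p, ZLE K h (fun i => a (Fin.castLE hc' i)) p f := by
    intro c' hmc'
    induction c', hmc' using Nat.le_induction with
    | base =>
      intro hc' n h f hf hreg p
      exact zle_all _ (fun i => le_trans one_le_two (h2 _)) p (fun _ _ => True)
        (fun _ _ _ _ => trivial) (fun n h f hf hreg _ => hE m hc' le_rfl n h f hf hreg)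
        (fun f hf hreg _ => base f hf hreg p) n h f hf hreg trivial
    | succ k hmk ih =>
      intro hc' n h f hf hreg p
      have hk : k ≤ c := (Nat.le_succ k).trans hc'
      refine zle_all _ (fun i => le_trans one_le_two (h2 _)) p (fun _ _ => True)
        (fun _ _ _ _ => trivial)
        (fun n h f hf hreg _ => hE (k + 1) hc' (hmk.trans (Nat.le_succ k)) n h f hf hreg)
        (fun f hf hreg _ => ?_) n h f hf hreg trivial
      have hg : ∀ i, (f (Fin.castLE (Nat.le_succ k) i)).IsHomogeneous (a (Fin.castLE hk i)) :=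
        fun i => hf _
      have hgreg := regular_castLE hreg (Nat.le_succ k)
      refine fast_step _ (fun i => le_trans one_le_two (h2 _)) ?_ f hf hreg ?_ ?_ p
      · have h1 := hgrow ⟨k, hc'⟩ hmk
        have h3 : ∑ j ∈ Finset.univ.filter (fun j : Fin c => j < ⟨k, hc'⟩), (a j - 1) =
            ∑ i : Fin k, (a (Fin.castLE hk i) - 1) := by
          symm
          refine Finset.sum_bij (fun i _ => Fin.castLE hk i) ?_ ?_ ?_ ?_
          · intro i _
            simp only [Finset.mem_filter, Finset.mem_univ, true_and]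
            exact i.2
          · intro i _ j _ hij
            exact Fin.castLE_injective hk hij
          · intro j hj
            have hj' : j < ⟨k, hc'⟩ := (Finset.mem_filter.1 hj).2
            exact ⟨⟨j.1, hj'⟩, Finset.mem_univ _, rfl⟩
          · intro i _
            rfl
        rw [h3] at h1
        exact h1
      · exact fun q => ih hk _ (Nat.le_succ k) _ hg hgreg q
      · intro q
        exact rle_all _ (fun i => le_trans one_le_two (h2 _)) q (fun _ _ => True)
          (fun _ _ _ _ => trivial) (fun n h f hf hreg _ => hE k hk hmk n h f hf hreg)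
          (fun f hf hreg _ => rle_of_zle _ (fun i => le_trans one_le_two (h2 _)) f hf hreg
            (fun p => ih hk _ le_rfl f hf hreg p) q) _ (Nat.le_succ k) _ hg hgreg trivial
  intro n h f hf hreg p
  exact key c hmc le_rfl n h f hf hreg p

end Vale.Agent.P200.L
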