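import Vale.Agent.P200.L.All

/-! The lex-plus-powers conjecture for `c ≤ 3` in any number of variables over every field. -/

namespace Vale.Agent.P200.L

open MvPolynomial Module
open Vale.Agent.P200.B Vale.Agent.P200.G

variable {K : Type*} [Field K] {n c : ℕ}

/-- the growth property for all prefixes of the sequence -/
theorem egh_prefix_three (h : c ≤ n) (hc : c ≤ 3) (a : Fin c → ℕ) (ha : Monotone a)
    (h2 : ∀ i, 2 ≤ a i) (f : Fin c → MvPolynomial (Fin n) K)
    (hf : ∀ i, (f i).IsHomogeneous (a i)) (hreg : IsRegularSeq f) (c' : ℕ) (h' : c' ≤ c) :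
    EGHfor (h'.trans h) (fun i : Fin c' => a (Fin.castLE h' i))
      (fun i : Fin c' => f (Fin.castLE h' i)) :=
  egh_case (h'.trans h) _ (fun _ _ hij => ha (by exact hij)) (fun _ => h2 _) _
    (fun _ => hf _) (regular_castLE hreg h') (Or.inl (h'.trans hc))

theorem zle_base_three (hc : c ≤ 3) (a : Fin c → ℕ) (ha : Monotone a)
    (h2 : ∀ i, 2 ≤ a i) (f : Fin c → MvPolynomial (Fin c) K)
    (hf : ∀ i, (f i).IsHomogeneous (a i)) (hreg : IsRegularSeq f) (p : ℕ) :
    ZLE K le_rfl a p f := by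
  have hpos : ∀ i, 1 ≤ a i := fun i => le_trans one_le_two (h2 i)
  have hE := egh_prefix_three le_rfl hc a ha h2 f hf hreg
  rcases lt_or_ge c p with hp | hp
  · exact zle_of_lt le_rfl a f hp
  rcases eq_or_lt_of_le hp with hp | hp
  · rw [hp]
    exact zle_top le_rfl a ha hpos f hf hreg (hE c le_rfl)
  · have hp3 : p = 0 ∨ p = 1 ∨ p = 2 := by omega
    rcases hp3 with rfl | rfl | rfl
    · exact zle_zero le_rfl a f
    · exact zle_one le_rfl a hpos f hf hreg
    · exact zle_two le_rfl a ha hpos f hf hreg hE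

/-- the cycle inequalities for at most three forms -/
theorem zle_three (h : c ≤ n) (hc : c ≤ 3) (a : Fin c → ℕ) (ha : Monotone a)
    (h2 : ∀ i, 2 ≤ a i) (f : Fin c → MvPolynomial (Fin n) K)
    (hf : ∀ i, (f i).IsHomogeneous (a i)) (hreg : IsRegularSeq f) (p : ℕ) : ZLE K h a p f := by
  have hpos : ∀ i, 1 ≤ a i := fun i => le_trans one_le_two (h2 i)
  have hinf : Infinite (AlgebraicClosure K) := IsAlgClosed.instInfinite
  refine zle_of_baseChange (L := AlgebraicClosure K) h a p f hf ?_
  refine zle_all a hpos p (fun _ _ => True) (fun _ _ _ _ => trivial) ?_ ?_ n h _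
    (fun i => (hf i).map _) (isRegSeq_baseChange f a hf hreg) trivial
  · intro n h f hf hreg _
    exact egh_case h a ha h2 f hf hreg (Or.inl hc)
  · intro f hf hreg _
    exact zle_base_three hc a ha h2 f hf hreg p

/-- **Lex-plus-powers for at most three forms.** -/
theorem lpp_three (h : c ≤ n) (hc : c ≤ 3) (a : Fin c → ℕ) (ha : Monotone a)
    (h2 : ∀ i, 2 ≤ a i) (f : Fin c → MvPolynomial (Fin n) K)
    (hf : ∀ i, (f i).IsHomogeneous (a i)) (hreg : IsRegularSeq f)
    (I : Ideal (MvPolynomial (Fin n) K)) (hI : HomIdeal I)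
    (hfI : ∀ i, f i ∈ I) (J : Ideal (MvPolynomial (Fin n) K))
    (hJ : J.restrictScalars K = lexPlusPowers h a I) (p j : ℕ) :
    betti I p j ≤ betti J p j :=
  betti_le_of_zle h a (fun i => le_trans one_le_two (h2 i)) f hf hreg p
    (zle_three h hc a ha h2 f hf hreg p) (zle_three h hc a ha h2 f hf hreg (p + 1)) I hI hfI J hJ j

end Vale.Agent.P200.L
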