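import Vale.Agent.P200.L.Lex
import Vale.Agent.P200.B.Lpp

/-! Betti numbers and cycles. -/

namespace Vale.Agent.P200.L

open MvPolynomial Module
open Vale.Agent.P200.B Vale.Agent.P200.G

variable {K : Type*} [Field K] {n c : ℕ}

/-- the zero part of the powers -/
theorem ncard_insideP_le (h : c ≤ n) (a : Fin c → ℕ) (hpos : ∀ i, 1 ≤ a i)
    (f : Fin c → MvPolynomial (Fin n) K) (hf : ∀ i, (f i).IsHomogeneous (a i))
    (hreg : IsRegularSeq f) (D : ℕ) :
    (insideP h a D).ncard = finrank K (piece (Ideal.span (Set.range f)) D) := by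
  have h1 := finrank_powerIdeal h a hpos f hf hreg D
  rw [degPart_powerIdeal, finrank_restrictSupport _ ((finite_degree_eq D).subset
    fun _ hm => hm.2)] at h1
  exact h1

/-- the ideal generated by a space containing `(f)_D` -/
theorem piece_span_space {D : ℕ} (f : Fin c → MvPolynomial (Fin n) K) (a : Fin c → ℕ)
    (hf : ∀ i, (f i).IsHomogeneous (a i)) (V : Submodule K (MvPolynomial (Fin n) K))
    (hV1 : piece (Ideal.span (Set.range f)) D ≤ V)
    (hV2 : V ≤ homogeneousSubmodule (Fin n) K D) :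
    ∃ I : Ideal (MvPolynomial (Fin n) K), HomIdeal I ∧ (∀ i, f i ∈ I) ∧ piece I D = V ∧
      ∀ W : Submodule K (MvPolynomial (Fin n) K), piece (Ideal.span (Set.range f)) (D + 1) ≤ W →
        (∀ j : Fin n, ∀ b ∈ V, X j * b ∈ W) → piece I (D + 1) ≤ W := by
  set s : Set (MvPolynomial (Fin n) K) := (V : Set (MvPolynomial (Fin n) K)) ∪ Set.range f with hs
  have hfcomp : ∀ (i : Fin c) (d : ℕ) (w : MvPolynomial (Fin n) K),
      homogeneousComponent d (w * f i) ∈ piece (Ideal.span (Set.range f)) d := by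
    intro i d w
    refine ⟨?_, homogeneousComponent_isHomogeneous _ _⟩
    have hh : HomIdeal (Ideal.span (Set.range f)) := homIdeal_span fun g hg => by
      obtain ⟨i, rfl⟩ := hg
      exact ⟨a i, hf i⟩
    exact hh _ (Ideal.mul_mem_left _ _ (Ideal.subset_span ⟨i, rfl⟩)) d
  refine ⟨Ideal.span s, homIdeal_span fun g hg => ?_, fun i =>
    Ideal.subset_span (Or.inr ⟨i, rfl⟩), le_antisymm ?_ ?_, ?_⟩
  · rcases hg with hg | ⟨i, rfl⟩
    · exact ⟨D, hV2 hg⟩
    · exact ⟨a i, hf i⟩
  · apply piece_span_le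
    rintro x (hx | ⟨i, rfl⟩) w
    · rw [comp_zero_mul w (hV2 hx)]
      exact Submodule.smul_mem _ _ hx
    · exact hV1 (hfcomp i D w)
  · intro g hg
    exact ⟨Ideal.subset_span (Or.inl hg), hV2 hg⟩
  · intro W hW1 hW2
    apply piece_span_le
    rintro x (hx | ⟨i, rfl⟩) w
    · have h1 := comp_mul_add (hV2 hx) w 1
      rw [add_comm 1 D] at h1
      rw [mul_comm w x, h1, mul_comm]
      -- `homogeneousComponent 1 w` is a combination of the variables
      have h2 : (homogeneousComponent 1 w) ∈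
          Submodule.span K (Set.range (X : Fin n → MvPolynomial (Fin n) K)) := by
        rw [← homogeneousSubmodule_one_eq_span_X]
        exact homogeneousComponent_isHomogeneous _ _
      refine Submodule.span_induction (p := fun g _ => g * x ∈ W) ?_ ?_ ?_ ?_ h2
      · rintro _ ⟨j, rfl⟩
        exact hW2 j x hx
      · rw [zero_mul]
        exact W.zero_mem
      · intro u v _ _ hu hv
        rw [add_mul]
        exact W.add_mem hu hv
      · intro k u _ hu
        rw [smul_mul_assoc]
        exact W.smul_mem k hu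
    · exact hW1 (hfcomp i (D + 1) w)

/-- the space of the lex-plus-powers ideal of the ideal generated by `V` -/
theorem lexPart_eq_lx (h : c ≤ n) (a : Fin c → ℕ) (I : Ideal (MvPolynomial (Fin n) K)) (D : ℕ) :
    lexPart h a I D = lx K h a D (finrank K (piece I D)) := by
  rw [lexPart_eq, lx, qdim, degPart_powerIdeal, finrank_restrictSupport _
    ((finite_degree_eq D).subset fun _ hm => hm.2)]
  rfl

/-- reduction of families modulo an ideal -/
noncomputable def red (I : Ideal (MvPolynomial (Fin n) K)) :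
    (Finset (Fin n) → MvPolynomial (Fin n) K) →ₗ[K]
      (Finset (Fin n) → MvPolynomial (Fin n) K ⧸ I) :=
  LinearMap.pi fun t => (Ideal.Quotient.mkₐ K I).toLinearMap ∘ₗ LinearMap.proj t

theorem red_apply (I : Ideal (MvPolynomial (Fin n) K))
    (c : Finset (Fin n) → MvPolynomial (Fin n) K) (t : Finset (Fin n)) :
    red I c t = Ideal.Quotient.mk I (c t) := rfl

theorem koszulD_red (I : Ideal (MvPolynomial (Fin n) K))
    (c : Finset (Fin n) → MvPolynomial (Fin n) K) : koszulD I (red I c) = red I (kd X c) := by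
  funext t
  rw [red_apply, kd_map]
  rfl

theorem sign_mul_mem' (W : Submodule K (MvPolynomial (Fin n) K)) (m : ℕ)
    {x : MvPolynomial (Fin n) K} (hx : x ∈ W) : (-1 : MvPolynomial (Fin n) K) ^ m * x ∈ W := by
  rcases neg_one_pow_eq_or (MvPolynomial (Fin n) K) m with h | h
  · rw [h, one_mul]
    exact hx
  · rw [h, neg_one_mul]
    exact W.neg_mem hx

/-- the differential of a family of forms -/
theorem kd_hom {c : Finset (Fin n) → MvPolynomial (Fin n) K} {e : ℕ}
    (hc : ∀ s, c s ∈ homogeneousSubmodule (Fin n) K e) (t : Finset (Fin n)) :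
    kd X c t ∈ homogeneousSubmodule (Fin n) K (e + 1) := by
  rw [kd_apply]
  refine Submodule.sum_mem _ fun i _ => sign_mul_mem' _ _ ?_
  rw [add_comm]
  exact (isHomogeneous_X K i).mul (hc _)

/-- the differential of a family in an ideal -/
theorem kd_piece {I : Ideal (MvPolynomial (Fin n) K)}
    {c : Finset (Fin n) → MvPolynomial (Fin n) K} {e : ℕ}
    (hc : ∀ s, c s ∈ piece I e) (t : Finset (Fin n)) : kd X c t ∈ piece I (e + 1) := by
  refine ⟨?_, kd_hom (fun s => (hc s).2) t⟩
  show kd X c t ∈ I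
  rw [kd_apply]
  exact Ideal.sum_mem _ fun i _ => I.mul_mem_left _ (I.mul_mem_left _ (hc _).1)

/-- chains modulo an ideal are reductions of families of forms -/
theorem map_red_chW (I : Ideal (MvPolynomial (Fin n) K)) (p e : ℕ) :
    (chW n p (homogeneousSubmodule (Fin n) K e)).map (red I) = koszulChain I p (p + e) := by
  apply le_antisymm
  · rintro _ ⟨g, hg, rfl⟩
    refine ⟨fun s hs => ?_, fun s => ?_⟩
    · rw [red_apply, hg.1 s hs, map_zero]
    · rw [if_pos (by omega), Nat.add_sub_cancel_left]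
      exact mem_quotPiece.2 ⟨_, hg.2 s, rfl⟩
  · intro c hc
    have h1 : ∀ s, ∃ g : MvPolynomial (Fin n) K, Ideal.Quotient.mk I g = c s ∧
        g.IsHomogeneous e ∧ (s.card ≠ p → g = 0) := by
      intro s
      by_cases hs : s.card = p
      · have h2 := hc.2 s
        rw [if_pos (by omega), Nat.add_sub_cancel_left] at h2
        obtain ⟨g, hg, hg'⟩ := mem_quotPiece.1 h2
        exact ⟨g, hg', hg, fun h => absurd hs h⟩
      · exact ⟨0, by rw [hc.1 s hs, map_zero], isHomogeneous_zero _ _ _, fun _ => rfl⟩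
    choose g hg1 hg2 hg3 using h1
    exact ⟨g, ⟨fun s hs => hg3 s hs, fun s => hg2 s⟩, funext fun s => hg1 s⟩

/-- cycles modulo an ideal -/
theorem finrank_cycles (I : Ideal (MvPolynomial (Fin n) K)) (p e : ℕ) :
    finrank K ↥(koszulChain I p (p + e) ⊓ LinearMap.ker (koszulD I)) +
      n.choose p * finrank K (piece I e) =
      finrank K (rc X (piece I (e + 1)) (homogeneousSubmodule (Fin n) K e) p) := by
  have h1 := finrank_map_add (red I)
    (rc X (piece I (e + 1)) (homogeneousSubmodule (Fin n) K e) p)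
  have h2 : (rc X (piece I (e + 1)) (homogeneousSubmodule (Fin n) K e) p).map (red I) =
      koszulChain I p (p + e) ⊓ LinearMap.ker (koszulD I) := by
    apply le_antisymm
    · rintro _ ⟨g, hg, rfl⟩
      refine ⟨?_, LinearMap.mem_ker.2 ?_⟩
      · rw [← map_red_chW]
        exact ⟨g, hg.1, rfl⟩
      · rw [koszulD_red]
        funext t
        rw [red_apply]
        exact Ideal.Quotient.eq_zero_iff_mem.2 (hg.2 t).1
    · rintro c ⟨hc1, hc2⟩
      have hc1' : c ∈ koszulChain I p (p + e) := hc1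
      rw [← map_red_chW] at hc1'
      obtain ⟨g, hg, rfl⟩ := hc1'
      refine ⟨g, ⟨hg, fun t => ⟨?_, kd_hom hg.2 t⟩⟩, rfl⟩
      have h3 := LinearMap.mem_ker.1 hc2
      rw [koszulD_red] at h3
      exact Ideal.Quotient.eq_zero_iff_mem.1 (congrFun h3 t)
  have h3 : rc X (piece I (e + 1)) (homogeneousSubmodule (Fin n) K e) p ⊓
      LinearMap.ker (red I) = chW n p (piece I e) := by
    ext g
    constructor
    · rintro ⟨hg1, hg2⟩
      refine ⟨hg1.1.1, fun s => ⟨?_, hg1.1.2 s⟩⟩
      exact Ideal.Quotient.eq_zero_iff_mem.1 (congrFun (LinearMap.mem_ker.1 hg2) s)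
    · intro hg
      refine ⟨⟨⟨hg.1, fun s => (hg.2 s).2⟩, fun t => kd_piece hg.2 t⟩, LinearMap.mem_ker.2 ?_⟩
      funext s
      exact Ideal.Quotient.eq_zero_iff_mem.2 (hg.2 s).1
  have h4 : Module.Finite K (piece I e) :=
    Submodule.finiteDimensional_of_le (G.piece_le I e)
  rw [h2, h3, finrank_chW] at h1
  exact h1

/-- boundaries modulo an ideal -/
theorem finrank_bds (I : Ideal (MvPolynomial (Fin n) K)) (p d : ℕ) :
    finrank K ((koszulChain I (p + 1) (p + (d + 1))).map (koszulD I)) +
      finrank K (rc X (piece I (d + 1)) (homogeneousSubmodule (Fin n) K d) (p + 1)) =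
      n.choose (p + 1) * finrank K (homogeneousSubmodule (Fin n) K d) := by
  have h1 := finrank_map_add (koszulD I ∘ₗ red I)
    (chW n (p + 1) (homogeneousSubmodule (Fin n) K d))
  rw [Submodule.map_comp, map_red_chW, finrank_chW,
    show p + 1 + d = p + (d + 1) by omega] at h1
  have h2 : chW n (p + 1) (homogeneousSubmodule (Fin n) K d) ⊓
      LinearMap.ker (koszulD I ∘ₗ red I) =
      rc X (piece I (d + 1)) (homogeneousSubmodule (Fin n) K d) (p + 1) := by
    ext g
    constructor
    · rintro ⟨hg1, hg2⟩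
      refine ⟨hg1, fun t => ⟨?_, kd_hom hg1.2 t⟩⟩
      have h3 := LinearMap.mem_ker.1 hg2
      rw [LinearMap.comp_apply, koszulD_red] at h3
      exact Ideal.Quotient.eq_zero_iff_mem.1 (congrFun h3 t)
    · intro hg
      refine ⟨hg.1, LinearMap.mem_ker.2 ?_⟩
      rw [LinearMap.comp_apply, koszulD_red]
      funext t
      exact Ideal.Quotient.eq_zero_iff_mem.2 (hg.2 t).1
  rw [h2] at h1
  exact h1

theorem betti_rc_zero (I : Ideal (MvPolynomial (Fin n) K)) (_hI : HomIdeal I) (p : ℕ) :
    betti I p p + n.choose p * finrank K (piece I 0) =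
      finrank K (rc X (piece I 1) (homogeneousSubmodule (Fin n) K 0) p) := by
  have h1 := betti_add I p p
  rw [koszulChain_eq_bot I (Or.inr (Nat.lt_succ_self p)), Submodule.map_bot, finrank_bot,
    add_zero] at h1
  have h2 := finrank_cycles I p 0
  rw [add_zero, zero_add] at h2
  rw [h1]
  exact h2

theorem betti_rc (I : Ideal (MvPolynomial (Fin n) K)) (_hI : HomIdeal I) (p d : ℕ) :
    betti I p (p + (d + 1)) + n.choose p * finrank K (piece I (d + 1)) +
        n.choose (p + 1) * finrank K (homogeneousSubmodule (Fin n) K d) =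
      finrank K (rc X (piece I (d + 2)) (homogeneousSubmodule (Fin n) K (d + 1)) p) +
        finrank K (rc X (piece I (d + 1)) (homogeneousSubmodule (Fin n) K d) (p + 1)) := by
  have h1 := betti_add I p (p + (d + 1))
  have h2 := finrank_cycles I p (d + 1)
  have h3 := finrank_bds I p d
  rw [show d + 1 + 1 = d + 2 by omega] at h2
  omega

/-- the number of `1`-cycles depends on the dimension only -/
theorem finrank_rc_one {d : ℕ} {V : Submodule K (MvPolynomial (Fin n) K)}
    (hV : V ≤ homogeneousSubmodule (Fin n) K (d + 1)) :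
    finrank K (rc X V (homogeneousSubmodule (Fin n) K d) 1) =
      finrank K V + finrank K ↥(chW n 1 (homogeneousSubmodule (Fin n) K d) ⊓
        LinearMap.ker ((LinearMap.proj ∅ : (Finset (Fin n) → MvPolynomial (Fin n) K) →ₗ[K]
          MvPolynomial (Fin n) K) ∘ₗ kdL K X)) := by
  classical
  set φ : (Finset (Fin n) → MvPolynomial (Fin n) K) →ₗ[K] MvPolynomial (Fin n) K :=
    (LinearMap.proj ∅ : (Finset (Fin n) → MvPolynomial (Fin n) K) →ₗ[K]
          MvPolynomial (Fin n) K) ∘ₗ kdL K X with hφ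
  have hφa : ∀ c, φ c = kd X c ∅ := fun c => rfl
  have hmem : ∀ c ∈ chW n 1 (homogeneousSubmodule (Fin n) K d),
      (c ∈ rc X V (homogeneousSubmodule (Fin n) K d) 1 ↔ φ c ∈ V) := by
    intro c hc
    constructor
    · intro h
      exact h.2 ∅
    · intro h
      refine ⟨hc, fun t => ?_⟩
      by_cases ht : t = ∅
      · rw [ht]
        exact h
      · rw [kd_card (p := 0) hc.1 t (fun h' => ht (Finset.card_eq_zero.1 h'))]
        exact V.zero_mem
  have h1 := finrank_map_add φ (rc X V (homogeneousSubmodule (Fin n) K d) 1)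
  have h2 : (rc X V (homogeneousSubmodule (Fin n) K d) 1).map φ = V := by
    apply le_antisymm
    · rintro _ ⟨c, hc, rfl⟩
      exact hc.2 ∅
    · intro v hv
      have hv' := hV hv
      rw [← map_sg_pw] at hv'
      obtain ⟨u, hu, huv⟩ := hv'
      set g : Finset (Fin n) → MvPolynomial (Fin n) K :=
        fun s => if h : ∃ i, s = {i} then u h.choose else 0 with hg
      have hgi : ∀ i, g {i} = u i := by
        intro i
        have h4 : ∃ i', ({i} : Finset (Fin n)) = {i'} := ⟨i, rfl⟩
        rw [hg]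
        simp only
        rw [dif_pos h4]
        have h5 := h4.choose_spec
        rw [Finset.singleton_inj] at h5
        rw [← h5]
      have hgc : g ∈ chW n 1 (homogeneousSubmodule (Fin n) K d) := by
        refine ⟨fun s hs => ?_, fun s => ?_⟩
        · rw [hg]
          simp only
          rw [dif_neg]
          rintro ⟨i, rfl⟩
          exact hs (Finset.card_singleton i)
        · rw [hg]
          simp only
          split_ifs with h
          · exact hu _
          · exact Submodule.zero_mem _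
      have hφg : φ g = v := by
        rw [hφa, ← huv, sg_apply, kd_apply, Finset.compl_empty]
        refine Finset.sum_congr rfl fun i _ => ?_
        rw [Finset.filter_empty, Finset.card_empty, pow_zero, one_mul, insert_empty_eq, hgi]
      refine ⟨g, (hmem g hgc).2 ?_, hφg⟩
      rw [hφg]
      exact hv
  have h3 : rc X V (homogeneousSubmodule (Fin n) K d) 1 ⊓ LinearMap.ker φ =
      chW n 1 (homogeneousSubmodule (Fin n) K d) ⊓ LinearMap.ker φ := by
    ext c
    constructor
    · rintro ⟨h4, h5⟩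
      exact ⟨h4.1, h5⟩
    · rintro ⟨h4, h5⟩
      refine ⟨(hmem c h4).2 ?_, h5⟩
      rw [LinearMap.mem_ker.1 h5]
      exact V.zero_mem
  rw [h2, h3] at h1
  exact h1.symm

theorem finrank_rc_one_congr {d : ℕ} {V V' : Submodule K (MvPolynomial (Fin n) K)}
    (hV : V ≤ homogeneousSubmodule (Fin n) K (d + 1))
    (hV' : V' ≤ homogeneousSubmodule (Fin n) K (d + 1)) (h : finrank K V = finrank K V') :
    finrank K (rc X V (homogeneousSubmodule (Fin n) K d) 1) =
      finrank K (rc X V' (homogeneousSubmodule (Fin n) K d) 1) := by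
  rw [finrank_rc_one hV, finrank_rc_one hV', h]

theorem lx_le (h : c ≤ n) (a : Fin c → ℕ) (D v : ℕ) :
    lx K h a D v ≤ homogeneousSubmodule (Fin n) K D := by
  rw [homogeneousSubmodule_eq_restrict]
  refine restrictSupport_mono K ?_
  rintro m (hm | hm)
  · exact hm.2
  · exact hm.1.2

theorem zle_zero (h : c ≤ n) (a : Fin c → ℕ) (f : Fin c → MvPolynomial (Fin n) K) :
    ZLE K h a 0 f := by
  intro d V _ _
  have h1 : ∀ U : Submodule K (MvPolynomial (Fin n) K),
      rc X U (homogeneousSubmodule (Fin n) K d) 0 =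
        chW n 0 (homogeneousSubmodule (Fin n) K d) := by
    intro U
    refine le_antisymm (fun c hc => hc.1) fun c hc => ⟨hc, fun t => ?_⟩
    rw [kd_card_zero hc.1]
    exact U.zero_mem
  rw [h1, h1]

theorem zle_one (h : c ≤ n) (a : Fin c → ℕ) (hpos : ∀ i, 1 ≤ a i)
    (f : Fin c → MvPolynomial (Fin n) K) (hf : ∀ i, (f i).IsHomogeneous (a i))
    (hreg : IsRegularSeq f) : ZLE K h a 1 f := by
  intro d V hV1 hV2
  have hfin : Module.Finite K V := Submodule.finiteDimensional_of_le hV2
  refine (finrank_rc_one_congr hV2 (lx_le h a (d + 1) _) ?_).le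
  rw [finrank_lx h a (d + 1) (finrank K V)]
  · rw [ncard_insideP_le h a hpos f hf hreg]
    exact Submodule.finrank_mono hV1
  · exact Submodule.finrank_mono hV2

theorem zle_of_lt (h : c ≤ n) (a : Fin c → ℕ) (f : Fin c → MvPolynomial (Fin n) K) {p : ℕ}
    (hp : n < p) : ZLE K h a p f := by
  intro d V _ _
  have h1 := finrank_rc_le (X : Fin n → MvPolynomial (Fin n) K) V
    (homogeneousSubmodule (Fin n) K d) p
  rw [Nat.choose_eq_zero_of_lt hp, zero_mul] at h1
  exact h1.trans (Nat.zero_le _)

theorem zle_two (h : c ≤ n) (a : Fin c → ℕ) (ha : Monotone a) (hpos : ∀ i, 1 ≤ a i)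
    (f : Fin c → MvPolynomial (Fin n) K) (hf : ∀ i, (f i).IsHomogeneous (a i))
    (hreg : IsRegularSeq f)
    (hE : ∀ (c' : ℕ) (h' : c' ≤ c), EGHfor (h'.trans h) (fun i : Fin c' => a (Fin.castLE h' i))
      (fun i : Fin c' => f (Fin.castLE h' i))) : ZLE K h a 2 f := by
  intro d V hV1 hV2
  obtain ⟨I, hI, hfI, hID, -⟩ := piece_span_space f a hf V hV1 hV2
  have hE0 : EGHfor h a f := hE c le_rfl
  obtain ⟨J, hJ⟩ := hE0 I hI hfI
  obtain ⟨hJ1, hJ2, hJ3⟩ := lexPlusPowers_spec h a hpos f hf hreg I hI hfI J hJ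
  have h1 := betti_one_le h a ha hpos f hf hreg hE I hI hfI J hJ (1 + (d + 1))
  have h2 := betti_rc I hI 1 d
  have h3 := betti_rc J hJ1 1 d
  have h4 := finrank_rc_one_congr (G.piece_le I (d + 2)) (G.piece_le J (d + 2))
    (hJ3 (d + 2)).symm
  rw [hJ3 (d + 1)] at h3
  rw [show (1 : ℕ) + 1 = 2 from rfl] at h2 h3
  rw [hJ2 (d + 1), lexPart_eq_lx] at h3
  rw [hID] at h2 h3
  omega

theorem zle_top (h : c ≤ n) (a : Fin c → ℕ) (ha : Monotone a) (hpos : ∀ i, 1 ≤ a i)
    (f : Fin c → MvPolynomial (Fin n) K) (hf : ∀ i, (f i).IsHomogeneous (a i))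
    (hreg : IsRegularSeq f) (hE : EGHfor h a f) : ZLE K h a n f := by
  intro d V hV1 hV2
  obtain ⟨I, hI, hfI, hID, -⟩ := piece_span_space f a hf V hV1 hV2
  obtain ⟨J, hJ⟩ := hE I hI hfI
  obtain ⟨hJ1, hJ2, hJ3⟩ := lexPlusPowers_spec h a hpos f hf hreg I hI hfI J hJ
  rcases d with _ | e
  · have h1 := betti_top_le h a ha hpos f hf hreg hE I hI hfI J hJ n
    have h2 := betti_rc_zero I hI n
    have h3 := betti_rc_zero J hJ1 n
    rw [zero_add] at hID
    rw [hJ3 0, hJ2 1, lexPart_eq_lx, hID] at h3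
    rw [hID] at h2
    rw [zero_add]
    omega
  · have h1 := betti_top_le h a ha hpos f hf hreg hE I hI hfI J hJ (n + (e + 1))
    have h2 := betti_rc I hI n e
    have h3 := betti_rc J hJ1 n e
    have h0 : ∀ U : Submodule K (MvPolynomial (Fin n) K),
        finrank K (rc X U (homogeneousSubmodule (Fin n) K e) (n + 1)) = 0 := by
      intro U
      have h1 := finrank_rc_le (X : Fin n → MvPolynomial (Fin n) K) U
        (homogeneousSubmodule (Fin n) K e) (n + 1)
      rw [Nat.choose_eq_zero_of_lt (Nat.lt_succ_self n), zero_mul] at h1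
      exact Nat.le_zero.1 h1
    rw [h0, add_zero] at h2 h3
    have hID' : piece I (e + 2) = V := hID
    rw [hJ3 (e + 1), hJ2 (e + 2), lexPart_eq_lx, hID'] at h3
    rw [hID'] at h2
    show finrank K (rc X V (homogeneousSubmodule (Fin n) K (e + 1)) n) ≤
      finrank K (rc X (lx K h a (e + 2) (finrank K V)) (homogeneousSubmodule (Fin n) K (e + 1)) n)
    omega

end Vale.Agent.P200.L
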