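import Vale.Agent.P200.L.Poly

/-! `K[x_0, …, x_n]` and `B[z]`. -/

namespace Vale.Agent.P200.L

open MvPolynomial Module
open Vale.Agent.P200.B Vale.Agent.P200.G

variable {K : Type*} [Field K] {n : ℕ}

/-- `K[x_0, …, x_n] ≃ B[z]`, the last variable is `z` -/
noncomputable def eE (K : Type*) [Field K] (n : ℕ) :
    MvPolynomial (Fin (n + 1)) K ≃ₐ[K] Polynomial (MvPolynomial (Fin n) K) :=
  (renameEquiv K finSuccEquivLast).trans (optionEquivLeft K (Fin n))

theorem eE_apply (F : MvPolynomial (Fin (n + 1)) K) :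
    eE K n F = optionEquivLeft K (Fin n) (rename finSuccEquivLast F) := rfl

theorem eE_X_castSucc (j : Fin n) : eE K n (X j.castSucc) = Polynomial.C (X j) := by
  rw [eE_apply, rename_X, finSuccEquivLast_castSucc, optionEquivLeft_X_some]

theorem eE_X_last : eE K n (X (Fin.last n)) = Polynomial.X := by
  rw [eE_apply, rename_X, finSuccEquivLast_last, optionEquivLeft_X_none]

/-- the exponent `sn m i` on the `Option` type -/
theorem snO_none (m : Fin n →₀ ℕ) (i : ℕ) :
    ((sn m i).mapDomain (finSuccEquivLast : Fin (n + 1) ≃ Option (Fin n))) none = i := by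
  rw [Finsupp.mapDomain_equiv_apply, finSuccEquivLast_symm_none, sn_last]

theorem snO_some (m : Fin n →₀ ℕ) (i : ℕ) :
    ((sn m i).mapDomain (finSuccEquivLast : Fin (n + 1) ≃ Option (Fin n))).some = m := by
  ext j
  rw [Finsupp.some_apply, Finsupp.mapDomain_equiv_apply, finSuccEquivLast_symm_some, sn_castSucc]

theorem eE_monomial (m : Fin n →₀ ℕ) (i : ℕ) (c : K) :
    eE K n (monomial (sn m i) c) = Polynomial.C (monomial m c) * Polynomial.X ^ i := by
  rw [eE_apply, rename_monomial, optionEquivLeft_monomial, snO_none, snO_some,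
    Polynomial.C_mul_X_pow_eq_monomial]

theorem coeff_coeff_eE (F : MvPolynomial (Fin (n + 1)) K) (m : Fin n →₀ ℕ) (i : ℕ) :
    ((eE K n F).coeff i).coeff m = F.coeff (sn m i) := by
  have h := optionEquivLeft_coeff_some_coeff_none K (Fin n)
    ((sn m i).mapDomain (finSuccEquivLast : Fin (n + 1) ≃ Option (Fin n)))
    (rename finSuccEquivLast F)
  rw [snO_none, snO_some, coeff_rename_mapDomain _ (Equiv.injective _)] at h
  exact h

theorem exists_sn (M : Fin (n + 1) →₀ ℕ) : ∃ m i, M = sn m i := by
  refine ⟨Finsupp.equivFunOnFinite.symm fun j => M j.castSucc, M (Fin.last n), ?_⟩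
  ext j
  refine Fin.lastCases ?_ (fun j => ?_) j
  · rw [sn_last]
  · rw [sn_castSucc]; rfl

theorem map_eE_restrictSupport (S : Set (Fin (n + 1) →₀ ℕ)) :
    (restrictSupport K S).map (eE K n).toLinearMap =
      grs fun i => restrictSupport K {m | sn m i ∈ S} := by
  ext G
  constructor
  · rintro ⟨F, hF, rfl⟩ i m hm
    have hm' : ((eE K n F).coeff i).coeff m ≠ 0 := mem_support_iff.1 hm
    rw [coeff_coeff_eE] at hm'
    exact hF (mem_support_iff.2 hm')
  · intro hG
    refine ⟨(eE K n).symm G, fun M hM => ?_, (eE K n).apply_symm_apply G⟩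
    obtain ⟨m, i, rfl⟩ := exists_sn M
    have hM' : ((eE K n).symm G).coeff (sn m i) ≠ 0 := mem_support_iff.1 hM
    rw [← coeff_coeff_eE, AlgEquiv.apply_symm_apply] at hM'
    exact hG i (mem_support_iff.2 hM')

theorem sum_sn (m : Fin n →₀ ℕ) (i : ℕ) : ∑ j, sn m i j = ∑ j, m j + i := by
  rw [Fin.sum_univ_castSucc, sn_last]
  simp only [sn_castSucc]

theorem map_eE_homogeneous (e : ℕ) :
    (homogeneousSubmodule (Fin (n + 1)) K e).map (eE K n).toLinearMap = Gd K n e := by
  rw [homogeneousSubmodule_eq_restrict, map_eE_restrictSupport]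
  have h : ∀ i, restrictSupport K {m : Fin n →₀ ℕ | sn m i ∈
      {m : Fin (n + 1) →₀ ℕ | ∑ j, m j = e}} = Bd K n e i := by
    intro i
    ext x
    rw [mem_restrictSupport_iff]
    by_cases hi : i ≤ e
    · rw [Bd, if_pos hi, homogeneousSubmodule_eq_restrict, mem_restrictSupport_iff]
      refine forall_congr' fun m => imp_congr_right fun _ => ?_
      rw [Set.mem_ofPred_eq, Set.mem_ofPred_eq, sum_sn, Set.mem_ofPred_eq]
      omega
    · rw [Bd, if_neg hi, Submodule.mem_bot]
      constructor
      · intro hx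
        rw [← MvPolynomial.support_eq_empty, Finset.eq_empty_iff_forall_notMem]
        intro m hm
        have h1 := hx hm
        rw [Set.mem_ofPred_eq, Set.mem_ofPred_eq, sum_sn] at h1
        omega
      · rintro rfl
        simp
  ext F
  exact forall_congr' fun i => by rw [← h i]

end Vale.Agent.P200.L
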