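import Vale.Agent.P200.B.Lpp

/-! Relative Koszul cycles: definitions for the induction on the number of variables. -/

namespace Vale.Agent.P200.L

open MvPolynomial Module
open Vale.Agent.P200.B Vale.Agent.P200.G

section ring
variable {K R : Type*} [Field K] [CommRing R] [Algebra K R] {n : ℕ}

/-- families indexed by the `p`-element sets, with entries in `W` -/
def chW (n p : ℕ) (W : Submodule K R) : Submodule K (Finset (Fin n) → R) where
  carrier := {c | (∀ s, s.card ≠ p → c s = 0) ∧ ∀ s, c s ∈ W}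
  add_mem' := by
    rintro a b ⟨ha, ha'⟩ ⟨hb, hb'⟩
    exact ⟨fun s hs => by simp [ha s hs, hb s hs], fun s => W.add_mem (ha' s) (hb' s)⟩
  zero_mem' := ⟨fun _ _ => rfl, fun _ => W.zero_mem⟩
  smul_mem' := by
    rintro k a ⟨ha, ha'⟩
    exact ⟨fun s hs => by simp [ha s hs], fun s => W.smul_mem _ (ha' s)⟩

theorem mem_chW {p : ℕ} {W : Submodule K R} {c : Finset (Fin n) → R} :
    c ∈ chW n p W ↔ (∀ s, s.card ≠ p → c s = 0) ∧ ∀ s, c s ∈ W := Iff.rfl

/-- the Koszul differential as a linear map -/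
def kdL (K : Type*) [Field K] {R : Type*} [CommRing R] [Algebra K R] {n : ℕ} (x : Fin n → R) :
    (Finset (Fin n) → R) →ₗ[K] (Finset (Fin n) → R) where
  toFun := kd x
  map_add' := by
    intro a b
    funext t
    rw [Pi.add_apply, kd_apply, kd_apply, kd_apply, ← Finset.sum_add_distrib]
    refine Finset.sum_congr rfl fun i _ => ?_
    rw [Pi.add_apply, mul_add, mul_add]
  map_smul' := by
    intro k a
    funext t
    rw [RingHom.id_apply, Pi.smul_apply, kd_apply, kd_apply, Finset.smul_sum]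
    refine Finset.sum_congr rfl fun i _ => ?_
    rw [Pi.smul_apply, mul_smul_comm, mul_smul_comm]

theorem kdL_apply (x : Fin n → R) (c : Finset (Fin n) → R) : kdL K x c = kd x c := rfl

theorem kd_add (x : Fin n → R) (a b : Finset (Fin n) → R) : kd x (a + b) = kd x a + kd x b := by
  funext t
  rw [Pi.add_apply, kd_apply, kd_apply, kd_apply, ← Finset.sum_add_distrib]
  refine Finset.sum_congr rfl fun i _ => ?_
  rw [Pi.add_apply, mul_add, mul_add]

theorem kd_sub (x : Fin n → R) (a b : Finset (Fin n) → R) : kd x (a - b) = kd x a - kd x b := by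
  funext t
  rw [Pi.sub_apply, kd_apply, kd_apply, kd_apply, ← Finset.sum_sub_distrib]
  refine Finset.sum_congr rfl fun i _ => ?_
  rw [Pi.sub_apply, mul_sub, mul_sub]

/-- multiplication by a ring element commutes with the differential -/
theorem kd_mul (x : Fin n → R) (r : R) (a : Finset (Fin n) → R) (t : Finset (Fin n)) :
    kd x (fun s => r * a s) t = r * kd x a t := by
  rw [kd_apply, kd_apply, Finset.mul_sum]
  refine Finset.sum_congr rfl fun i _ => ?_
  ring

/-- families `u` of entries in `W` with all entries of `∂ u` in `U` -/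
def rc (x : Fin n → R) (U W : Submodule K R) (p : ℕ) : Submodule K (Finset (Fin n) → R) where
  carrier := {c | c ∈ chW n p W ∧ ∀ t, kd x c t ∈ U}
  add_mem' := by
    rintro a b ⟨ha, ha'⟩ ⟨hb, hb'⟩
    refine ⟨Submodule.add_mem _ ha hb, fun t => ?_⟩
    rw [kd_add]
    exact U.add_mem (ha' t) (hb' t)
  zero_mem' := by
    refine ⟨Submodule.zero_mem _, fun t => ?_⟩
    have h : kd x (0 : Finset (Fin n) → R) = 0 := (kdL K x).map_zero
    rw [h]
    exact U.zero_mem
  smul_mem' := by
    rintro k a ⟨ha, ha'⟩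
    refine ⟨Submodule.smul_mem _ _ ha, fun t => ?_⟩
    have h : kd x (k • a) = k • kd x a := (kdL K x).map_smul k a
    rw [h]
    exact U.smul_mem _ (ha' t)

theorem mem_rc {p : ℕ} {x : Fin n → R} {U W : Submodule K R} {c : Finset (Fin n) → R} :
    c ∈ rc x U W p ↔ c ∈ chW n p W ∧ ∀ t, kd x c t ∈ U := Iff.rfl

/-- pairs of families: the cycles of the Koszul complex of `x, z` -/
def pc (x : Fin n → R) (z : R) (U W : Submodule K R) (p : ℕ) :
    Submodule K ((Finset (Fin n) → R) × (Finset (Fin n) → R)) where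
  carrier := {q | q.1 ∈ chW n (p + 1) W ∧ q.2 ∈ chW n p W ∧ (∀ t, kd x q.2 t ∈ U) ∧
    ∀ t, kd x q.1 t + z * q.2 t ∈ U}
  add_mem' := by
    rintro a b ⟨ha1, ha2, ha3, ha4⟩ ⟨hb1, hb2, hb3, hb4⟩
    refine ⟨Submodule.add_mem _ ha1 hb1, Submodule.add_mem _ ha2 hb2, fun t => ?_, fun t => ?_⟩
    · rw [Prod.snd_add, kd_add]
      exact U.add_mem (ha3 t) (hb3 t)
    · have h := U.add_mem (ha4 t) (hb4 t)
      rw [Prod.snd_add, Prod.fst_add, kd_add, Pi.add_apply, Pi.add_apply, mul_add]
      convert h using 1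
      ring
  zero_mem' := by
    have h : kd x (0 : Finset (Fin n) → R) = 0 := (kdL K x).map_zero
    refine ⟨Submodule.zero_mem _, Submodule.zero_mem _, fun t => ?_, fun t => ?_⟩
    · rw [Prod.snd_zero, h]
      exact U.zero_mem
    · rw [Prod.snd_zero, Prod.fst_zero, h]
      simp
  smul_mem' := by
    rintro k a ⟨ha1, ha2, ha3, ha4⟩
    have h : ∀ c : Finset (Fin n) → R, kd x (k • c) = k • kd x c := fun c =>
      (kdL K x).map_smul k c
    refine ⟨Submodule.smul_mem _ _ ha1, Submodule.smul_mem _ _ ha2, fun t => ?_, fun t => ?_⟩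
    · rw [Prod.smul_snd, h]
      exact U.smul_mem _ (ha3 t)
    · rw [Prod.smul_snd, Prod.smul_fst, h, Pi.smul_apply, Pi.smul_apply, mul_smul_comm,
        ← smul_add]
      exact U.smul_mem _ (ha4 t)

theorem mem_pc {p : ℕ} {x : Fin n → R} {z : R} {U W : Submodule K R}
    {q : (Finset (Fin n) → R) × (Finset (Fin n) → R)} :
    q ∈ pc x z U W p ↔ q.1 ∈ chW n (p + 1) W ∧ q.2 ∈ chW n p W ∧ (∀ t, kd x q.2 t ∈ U) ∧
      ∀ t, kd x q.1 t + z * q.2 t ∈ U := Iff.rfl

/-- `chW` as a space of functions -/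
def chWEquiv (n p : ℕ) (W : Submodule K R) :
    chW n p W ≃ₗ[K] ({s : Finset (Fin n) // s.card = p} → W) where
  toFun c := fun s => ⟨c.1 s.1, c.2.2 s.1⟩
  map_add' _ _ := rfl
  map_smul' _ _ := rfl
  invFun c := ⟨fun s => if h : s.card = p then (c ⟨s, h⟩ : R) else 0, by
    refine ⟨fun s hs => dif_neg hs, fun s => ?_⟩
    by_cases h : s.card = p
    · simp only [h, dif_pos]
      exact (c ⟨s, h⟩).2
    · simp only [h]
      exact Submodule.zero_mem _⟩
  left_inv := by
    intro c
    apply Subtype.ext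
    funext s
    by_cases h : s.card = p
    · simp only [h, dif_pos]
    · simp only [h]
      exact (c.2.1 s h).symm
  right_inv := by
    intro c
    funext s
    apply Subtype.ext
    simp only [s.2, dif_pos]

instance finite_chW (p : ℕ) (W : Submodule K R) [Module.Finite K W] :
    Module.Finite K (chW n p W) := Module.Finite.equiv (chWEquiv n p W).symm

theorem finrank_chW (p : ℕ) (W : Submodule K R) [Module.Finite K W] :
    finrank K (chW n p W) = n.choose p * finrank K W := by
  classical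
  rw [(chWEquiv n p W).finrank_eq, Module.finrank_pi_fintype, Finset.sum_const, Finset.card_univ,
    smul_eq_mul, Fintype.card_finset_len, Fintype.card_fin]

instance finite_rc (x : Fin n → R) (U W : Submodule K R) (p : ℕ) [Module.Finite K W] :
    Module.Finite K (rc x U W p) :=
  Submodule.finiteDimensional_of_le (S₂ := chW n p W) fun _ h => h.1

theorem finrank_rc_le (x : Fin n → R) (U W : Submodule K R) (p : ℕ) [Module.Finite K W] :
    finrank K (rc x U W p) ≤ n.choose p * finrank K W := by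
  rw [← finrank_chW]
  exact Submodule.finrank_mono fun _ h => h.1

/-- the differential of a `(p + 1)`-family is a `p`-family -/
theorem kd_card {x : Fin n → R} {p : ℕ} {c : Finset (Fin n) → R}
    (hc : ∀ s, s.card ≠ p + 1 → c s = 0) (t : Finset (Fin n)) (ht : t.card ≠ p) :
    kd x c t = 0 := by
  rw [kd_apply]
  refine Finset.sum_eq_zero fun i hi => ?_
  rw [hc, mul_zero, mul_zero]
  rw [Finset.card_insert_of_notMem (Finset.mem_compl.1 hi)]
  omega

theorem kd_card_zero {x : Fin n → R} {c : Finset (Fin n) → R}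
    (hc : ∀ s, s.card ≠ 0 → c s = 0) : kd x c = 0 := by
  funext t
  rw [kd_apply, Pi.zero_apply]
  refine Finset.sum_eq_zero fun i hi => ?_
  rw [hc, mul_zero, mul_zero]
  rw [Finset.card_ne_zero]
  exact Finset.insert_nonempty _ _

/-- the number of cycles grows at most like `U` -/
theorem finrank_rc_mono (x : Fin n → R) {U U' : Submodule K R} (hU : U ≤ U')
    (W : Submodule K R) (p : ℕ) [Module.Finite K W] [Module.Finite K U'] :
    finrank K (rc x U' W (p + 1)) + n.choose p * finrank K U ≤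
      finrank K (rc x U W (p + 1)) + n.choose p * finrank K U' := by
  have : Module.Finite K U := Submodule.finiteDimensional_of_le hU
  -- map `rc U' → chW p (U' / U)`
  set φ : (Finset (Fin n) → R) →ₗ[K] (Finset (Fin n) → R ⧸ U) :=
    (LinearMap.pi fun t => U.mkQ ∘ₗ LinearMap.proj t) ∘ₗ kdL K x with hφ
  have h1 := finrank_map_add φ (rc x U' W (p + 1))
  have h2 : rc x U' W (p + 1) ⊓ LinearMap.ker φ = rc x U W (p + 1) := by
    ext c
    rw [Submodule.mem_inf, LinearMap.mem_ker]
    constructor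
    · rintro ⟨h3, h4⟩
      refine ⟨h3.1, fun t => ?_⟩
      have h5 := congrFun h4 t
      exact (Submodule.Quotient.mk_eq_zero U).1 h5
    · rintro ⟨h3, h4⟩
      refine ⟨⟨h3, fun t => hU (h4 t)⟩, ?_⟩
      funext t
      exact (Submodule.Quotient.mk_eq_zero U).2 (h4 t)
  rw [h2] at h1
  -- the image is in a space of dimension `choose * (dim U' - dim U)`
  set ψ : (Finset (Fin n) → R) →ₗ[K] (Finset (Fin n) → R ⧸ U) :=
    LinearMap.pi fun t => U.mkQ ∘ₗ LinearMap.proj t with hψ
  have h3 : (rc x U' W (p + 1)).map φ ≤ (chW n p U').map ψ := by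
    rintro _ ⟨c, hc, rfl⟩
    exact ⟨kd x c, ⟨fun t ht => kd_card hc.1.1 t ht, hc.2⟩, rfl⟩
  have h4 := finrank_map_add ψ (chW n p U')
  have h5 : chW n p U' ⊓ LinearMap.ker ψ = chW n p U := by
    ext c
    rw [Submodule.mem_inf, LinearMap.mem_ker]
    constructor
    · rintro ⟨h6, h7⟩
      refine ⟨h6.1, fun t => ?_⟩
      exact (Submodule.Quotient.mk_eq_zero U).1 (congrFun h7 t)
    · rintro ⟨h6, h7⟩
      refine ⟨⟨h6, fun t => hU (h7 t)⟩, ?_⟩
      funext t
      exact (Submodule.Quotient.mk_eq_zero U).2 (h7 t)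
  rw [h5, finrank_chW, finrank_chW] at h4
  have h6 := Submodule.finrank_mono h3
  omega

end ring

section poly
variable {K : Type*} [Field K] {n : ℕ}

/-- forms of degree `e - i`, or zero -/
noncomputable def Bd (K : Type*) [Field K] (n e i : ℕ) : Submodule K (MvPolynomial (Fin n) K) :=
  if i ≤ e then homogeneousSubmodule (Fin n) K (e - i) else ⊥

instance finite_Bd (e i : ℕ) : Module.Finite K (Bd K n e i) := by
  by_cases h : i ≤ e
  · rw [Bd, if_pos h]
    infer_instance
  · rw [Bd, if_neg h]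
    infer_instance

/-- layered spaces: total degree `D`, containing the pieces of `J` -/
structure Lay (J : Ideal (MvPolynomial (Fin n) K)) (D : ℕ)
    (V : ℕ → Submodule K (MvPolynomial (Fin n) K)) : Prop where
  le : ∀ i, V i ≤ Bd K n D i
  ge : ∀ i ≤ D, piece J (D - i) ≤ V i

/-- the number of cycles of the graded space `⨁ V i z^i` -/
noncomputable def zc (V : ℕ → Submodule K (MvPolynomial (Fin n) K)) (p d : ℕ) : ℕ :=
  finrank K (rc X (V 0) (homogeneousSubmodule (Fin n) K d) (p + 1)) +
    ∑ i ∈ Finset.range (d + 1), (n.choose (p + 1) * finrank K (Bd K n d (i + 1)) +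
      finrank K (rc X (V i) (V (i + 1)) p))

/-- total dimension -/
noncomputable def tot (V : ℕ → Submodule K (MvPolynomial (Fin n) K)) (D : ℕ) : ℕ :=
  ∑ i ∈ Finset.range (D + 1), finrank K (V i)

/-- exponents with last coordinate `i` -/
noncomputable def sn (m : Fin n →₀ ℕ) (i : ℕ) : Fin (n + 1) →₀ ℕ :=
  Finsupp.equivFunOnFinite.symm (Fin.snoc (α := fun _ => ℕ) m i)

theorem sn_castSucc (m : Fin n →₀ ℕ) (i : ℕ) (j : Fin n) : sn m i j.castSucc = m j :=
  Fin.snoc_castSucc (α := fun _ => ℕ) _ _ _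

theorem sn_last (m : Fin n →₀ ℕ) (i : ℕ) : sn m i (Fin.last n) = i :=
  Fin.snoc_last (α := fun _ => ℕ) _ _

/-- the lex-plus-powers space of dimension `v` in degree `D` -/
noncomputable def lx (K : Type*) [Field K] {n c : ℕ} (h : c ≤ n) (a : Fin c → ℕ) (D v : ℕ) :
    Submodule K (MvPolynomial (Fin n) K) :=
  restrictSupport K (lexSet h a D (v - (insideP h a D).ncard))

/-- the layers of the lex-plus-powers space -/
noncomputable def lxl (K : Type*) [Field K] {n c : ℕ} (h : c ≤ n + 1) (a : Fin c → ℕ) (D v : ℕ)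
    (i : ℕ) : Submodule K (MvPolynomial (Fin n) K) :=
  restrictSupport K {m | sn m i ∈ lexSet h a D (v - (insideP h a D).ncard)}

/-- cycle inequality in `n` variables for all forms `f` in a class -/
def ZLE (K : Type*) [Field K] {n c : ℕ} (h : c ≤ n) (a : Fin c → ℕ) (p : ℕ)
    (f : Fin c → MvPolynomial (Fin n) K) : Prop :=
  ∀ (d : ℕ) (V : Submodule K (MvPolynomial (Fin n) K)),
    piece (Ideal.span (Set.range f)) (d + 1) ≤ V → V ≤ homogeneousSubmodule (Fin n) K (d + 1) →
    finrank K (rc X V (homogeneousSubmodule (Fin n) K d) p) ≤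
      finrank K (rc X (lx K h a (d + 1) (finrank K V)) (homogeneousSubmodule (Fin n) K d) p)

end poly

end Vale.Agent.P200.L
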