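import Vale.Agent.P200.L.Poly

/-! Distraction and change of coordinates. -/

namespace Vale.Agent.P200.L

open MvPolynomial Module
open Vale.Agent.P200.B Vale.Agent.P200.G

variable {K : Type*} [Field K] {n : ℕ}

/-- multiplication by a linear form raises the degree -/
theorem mul_mem_Bd {l b : MvPolynomial (Fin n) K} (hl : l.IsHomogeneous 1) {e i : ℕ}
    (hb : b ∈ Bd K n e (i + 1)) : l * b ∈ Bd K n e i := by
  by_cases h : i + 1 ≤ e
  · rw [Bd, if_pos h] at hb
    rw [Bd, if_pos (by omega)]
    have h1 := hl.mul hb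
    rwa [show 1 + (e - (i + 1)) = e - i by omega] at h1
  · rw [Bd, if_neg h, Submodule.mem_bot] at hb
    rw [hb, mul_zero]
    exact Submodule.zero_mem _

/-- the tail above `k`, divided by `z` -/
noncomputable def tauF (k : ℕ) (F : Polynomial (MvPolynomial (Fin n) K)) :
    Polynomial (MvPolynomial (Fin n) K) :=
  Polynomial.X ^ k * (Polynomial.divX^[k + 1] F)

theorem coeff_tauF (k : ℕ) (F : Polynomial (MvPolynomial (Fin n) K)) (j : ℕ) :
    (tauF k F).coeff j = if k ≤ j then F.coeff (j + 1) else 0 := by
  have h1 : ∀ m i, (Polynomial.divX^[m] F).coeff i = F.coeff (i + m) := by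
    intro m
    induction m with
    | zero => intro i; rfl
    | succ m ih =>
      intro i
      rw [Function.iterate_succ_apply', Polynomial.coeff_divX, ih]
      congr 1
      omega
  rw [tauF, Polynomial.coeff_X_pow_mul']
  by_cases h : k ≤ j
  · rw [if_pos h, if_pos h, h1]
    congr 1
    omega
  · rw [if_neg h, if_neg h]

/-- the distraction `z ^ i ↦ z ^ (i - 1) (z - l)` for `i > k` -/
noncomputable def dis (k : ℕ) (l : MvPolynomial (Fin n) K) :
    Polynomial (MvPolynomial (Fin n) K) →ₗ[K] Polynomial (MvPolynomial (Fin n) K) where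
  toFun F := F - Polynomial.C l * tauF k F
  map_add' := by
    intro F G
    ext1 j
    simp only [Polynomial.coeff_sub, Polynomial.coeff_add, Polynomial.coeff_C_mul, coeff_tauF]
    split_ifs
    · ring
    · ring
  map_smul' := by
    intro c F
    ext1 j
    simp only [Polynomial.coeff_sub, Polynomial.coeff_smul, Polynomial.coeff_C_mul, coeff_tauF,
      RingHom.id_apply]
    split_ifs
    · rw [smul_sub, mul_smul_comm]
    · rw [mul_zero, sub_zero, sub_zero]

theorem coeff_dis (k : ℕ) (l : MvPolynomial (Fin n) K)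
    (F : Polynomial (MvPolynomial (Fin n) K)) (j : ℕ) :
    (dis k l F).coeff j = F.coeff j - if k ≤ j then l * F.coeff (j + 1) else 0 := by
  show (F - Polynomial.C l * tauF k F).coeff j = _
  rw [Polynomial.coeff_sub, Polynomial.coeff_C_mul, coeff_tauF]
  split_ifs
  · rfl
  · rw [mul_zero]

theorem dis_C_mul (k : ℕ) (l b : MvPolynomial (Fin n) K)
    (F : Polynomial (MvPolynomial (Fin n) K)) :
    dis k l (Polynomial.C b * F) = Polynomial.C b * dis k l F := by
  ext1 j
  rw [coeff_dis, Polynomial.coeff_C_mul, Polynomial.coeff_C_mul, Polynomial.coeff_C_mul,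
    coeff_dis]
  split_ifs
  · ring
  · ring

theorem X_mul_dis (k : ℕ) (l : MvPolynomial (Fin n) K)
    (F : Polynomial (MvPolynomial (Fin n) K)) :
    Polynomial.X * dis k l F = dis k l (Polynomial.X * F) +
      Polynomial.C l * Polynomial.monomial k (F.coeff k) := by
  ext1 j
  rw [Polynomial.coeff_add, coeff_dis, Polynomial.coeff_C_mul, Polynomial.coeff_monomial]
  cases j with
  | zero =>
    rw [Polynomial.coeff_X_mul_zero, Polynomial.coeff_X_mul_zero, Polynomial.coeff_X_mul]
    by_cases h : k = 0
    · subst h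
      simp
    · rw [if_neg (by omega), if_neg h]
      simp
  | succ j =>
    rw [Polynomial.coeff_X_mul, Polynomial.coeff_X_mul, Polynomial.coeff_X_mul, coeff_dis]
    by_cases h1 : k ≤ j
    · rw [if_pos h1, if_pos (by omega), if_neg (by omega), mul_zero, add_zero]
    · by_cases h2 : k = j + 1
      · subst h2
        rw [if_neg h1, if_pos le_rfl, if_pos rfl]
        ring
      · rw [if_neg h1, if_neg (by omega), if_neg h2, mul_zero, add_zero]

theorem dis_injective (k : ℕ) (l : MvPolynomial (Fin n) K)
    (F : Polynomial (MvPolynomial (Fin n) K)) (hF : dis k l F = 0) : F = 0 := by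
  by_contra hne
  have h1 := coeff_dis k l F F.natDegree
  rw [hF, Polynomial.coeff_zero, Polynomial.coeff_eq_zero_of_natDegree_lt (Nat.lt_succ_self _),
    mul_zero, ite_self, sub_zero] at h1
  exact hne (Polynomial.leadingCoeff_eq_zero.1 h1.symm)

theorem dis_monomial_le {k i : ℕ} (hi : i ≤ k) (l b : MvPolynomial (Fin n) K) :
    dis k l (Polynomial.monomial i b) = Polynomial.monomial i b := by
  ext1 j
  rw [coeff_dis, Polynomial.coeff_monomial, Polynomial.coeff_monomial]
  split_ifs with h1 h2 h3 h4
  · omega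
  · rw [mul_zero, sub_zero]
  · rw [sub_zero]
  · omega
  · rw [mul_zero, sub_zero]
  · rw [sub_zero]

theorem dis_monomial_succ {k i : ℕ} (hi : k ≤ i) (l b : MvPolynomial (Fin n) K) :
    dis k l (Polynomial.monomial (i + 1) b) =
      Polynomial.monomial (i + 1) b - Polynomial.monomial i (l * b) := by
  ext1 j
  rw [coeff_dis, Polynomial.coeff_sub, Polynomial.coeff_monomial, Polynomial.coeff_monomial,
    Polynomial.coeff_monomial]
  by_cases h1 : i = j
  · subst h1
    rw [if_neg (by omega), if_pos hi, if_pos rfl, if_pos rfl]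
  · by_cases h2 : i + 1 = j
    · rw [if_pos h2, if_neg (by omega : ¬ i + 1 = j + 1), if_neg h1, mul_zero, ite_self]
    · rw [if_neg h2, if_neg (by omega : ¬ i + 1 = j + 1), if_neg h1, mul_zero, ite_self]

theorem dis_mem_Gd {k e : ℕ} {l : MvPolynomial (Fin n) K} (hl : l.IsHomogeneous 1)
    {F : Polynomial (MvPolynomial (Fin n) K)} (hF : F ∈ Gd K n e) : dis k l F ∈ Gd K n e := by
  intro j
  rw [coeff_dis]
  refine Submodule.sub_mem _ (hF j) ?_
  split_ifs
  · exact mul_mem_Bd hl (hF (j + 1))
  · exact Submodule.zero_mem _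

theorem monomial_mem_grs {V : ℕ → Submodule K (MvPolynomial (Fin n) K)} {i : ℕ}
    {b : MvPolynomial (Fin n) K} (hb : b ∈ V i) : Polynomial.monomial i b ∈ grs V := by
  intro j
  rw [Polynomial.coeff_monomial]
  split_ifs with h
  · rw [← h]
    exact hb
  · exact Submodule.zero_mem _

theorem monomial_mem_Gd {e i : ℕ} {b : MvPolynomial (Fin n) K} (hb : b ∈ Bd K n e i) :
    Polynomial.monomial i b ∈ Gd K n e := monomial_mem_grs (V := fun i => Bd K n e i) hb

/-- the differential of coefficients -/
theorem coeff_kd (g : Finset (Fin n) → Polynomial (MvPolynomial (Fin n) K))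
    (t : Finset (Fin n)) (k : ℕ) :
    (kd (xB K n) g t).coeff k = kd X (fun s => (g s).coeff k) t := by
  rw [kd_apply, kd_apply, Polynomial.finsetSum_coeff]
  refine Finset.sum_congr rfl fun i _ => ?_
  have h : (-1 : Polynomial (MvPolynomial (Fin n) K)) ^ (t.filter fun k => k < i).card =
      Polynomial.C ((-1) ^ (t.filter fun k => k < i).card) := by
    rw [map_pow, map_neg, map_one]
  rw [h, Polynomial.coeff_C_mul, Polynomial.coeff_C_mul]

theorem kd_monomial (k : ℕ) (g : Finset (Fin n) → MvPolynomial (Fin n) K)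
    (t : Finset (Fin n)) :
    kd (xB K n) (fun s => Polynomial.monomial k (g s)) t = Polynomial.monomial k (kd X g t) := by
  ext1 j
  rw [coeff_kd, Polynomial.coeff_monomial]
  by_cases h : k = j
  · subst h
    rw [if_pos rfl]
    congr 1
    funext s
    rw [Polynomial.coeff_monomial, if_pos rfl]
  · rw [if_neg h]
    have : (fun s => (Polynomial.monomial k (g s)).coeff j) = 0 := by
      funext s
      rw [Polynomial.coeff_monomial, if_neg h]
      rfl
    rw [this]
    exact congrFun ((kdL K (X : Fin n → MvPolynomial (Fin n) K)).map_zero) t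

theorem kd_dis (k : ℕ) (l : MvPolynomial (Fin n) K)
    (g : Finset (Fin n) → Polynomial (MvPolynomial (Fin n) K)) (t : Finset (Fin n)) :
    kd (xB K n) (fun s => dis k l (g s)) t = dis k l (kd (xB K n) g t) := by
  rw [kd_apply, kd_apply, map_sum]
  refine Finset.sum_congr rfl fun i _ => ?_
  rcases neg_one_pow_eq_or (Polynomial (MvPolynomial (Fin n) K))
    (t.filter fun k => k < i).card with hs | hs
  · rw [hs, one_mul, one_mul, dis_C_mul]
  · rw [hs, neg_one_mul, neg_one_mul, map_neg, dis_C_mul]

instance finite_Gd' (e : ℕ) : Module.Finite K (Gd K n e) := by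
  have h : Gd K n e ≤ ⨆ i : Fin (e + 1), (Bd K n e i).map
      ((Polynomial.monomial (R := MvPolynomial (Fin n) K) i).restrictScalars K) := by
    intro F hF
    have hdeg : F.natDegree < e + 1 := by
      rw [Nat.lt_succ_iff, Polynomial.natDegree_le_iff_coeff_eq_zero]
      intro i hi
      have h1 := hF i
      rwa [Bd, if_neg (by omega), Submodule.mem_bot] at h1
    rw [Polynomial.as_sum_range' F (e + 1) hdeg]
    refine Submodule.sum_mem _ fun i hi => ?_
    rw [Finset.mem_range] at hi
    exact Submodule.mem_iSup_of_mem (⟨i, hi⟩ : Fin (e + 1)) ⟨F.coeff i, hF i, rfl⟩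
  exact Submodule.finiteDimensional_of_le h

theorem dist_finite_pc {R : Type*} [CommRing R] [Algebra K R] {m : ℕ} (x : Fin m → R) (z : R)
    (U W : Submodule K R) (p : ℕ) [Module.Finite K W] : Module.Finite K (pc x z U W p) := by
  have h : Module.Finite K ((chW m (p + 1) W).prod (chW m p W)) :=
    Module.Finite.iff_fg.2 ((Module.Finite.iff_fg.1 inferInstance).prod
      (Module.Finite.iff_fg.1 inferInstance))
  refine Submodule.finiteDimensional_of_le (S₂ := (chW m (p + 1) W).prod (chW m p W)) ?_
  rintro ⟨a, b⟩ ⟨h1, h2, -, -⟩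
  exact ⟨h1, h2⟩

theorem dist_grs_le {e : ℕ} {V : ℕ → Submodule K (MvPolynomial (Fin n) K)}
    (hV : ∀ i, V i ≤ Bd K n e i) : grs V ≤ Gd K n e := fun _ hF i => hV i (hF i)

/-- cycles survive the distraction -/
theorem dist_pc {p k : ℕ} (U V : ℕ → Submodule K (MvPolynomial (Fin n) K)) (j : Fin n)
    [Module.Finite K (grs V)] :
    finrank K (pc (xB K n) Polynomial.X (grs U) (grs V) p) ≤
      finrank K (pc (xB K n) Polynomial.X ((grs U).map (dis k (X j)))
        ((grs V).map (dis k (X j))) p) := by
  classical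
  set cc : Fin n → K := Pi.single j 1 with hcc
  set ep : (Finset (Fin n) → Polynomial (MvPolynomial (Fin n) K)) →
    Finset (Fin n) → Polynomial (MvPolynomial (Fin n) K) :=
    eps (fun i => algebraMap K (Polynomial (MvPolynomial (Fin n) K)) (cc i)) with hep
  have hsum : ∑ i, algebraMap K (Polynomial (MvPolynomial (Fin n) K)) (cc i) * xB K n i =
      Polynomial.C (X j) := by
    rw [Finset.sum_eq_single j]
    · rw [hcc, Pi.single_eq_same, map_one, one_mul]
    · intro i _ hi
      rw [hcc, Pi.single_eq_of_ne hi, map_zero, zero_mul]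
    · intro h
      exact absurd (Finset.mem_univ j) h
  have hep_add : ∀ g g' s, ep (g + g') s = ep g s + ep g' s := by
    intro g g' s
    rw [hep, eps, eps, eps, ← Finset.sum_add_distrib]
    refine Finset.sum_congr rfl fun i _ => ?_
    rw [Pi.add_apply]
    ring
  have hep_smul : ∀ (c : K) g s, ep (c • g) s = c • ep g s := by
    intro c g s
    rw [hep, eps, eps, Finset.smul_sum]
    refine Finset.sum_congr rfl fun i _ => ?_
    rw [Pi.smul_apply, mul_smul_comm, mul_smul_comm]
  have hep_zero : ∀ s, ep 0 s = 0 := by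
    intro s
    have := hep_smul 0 0 s
    rwa [zero_smul, zero_smul] at this
  set g' : (Finset (Fin n) → Polynomial (MvPolynomial (Fin n) K)) → Finset (Fin n) →
    Polynomial (MvPolynomial (Fin n) K) := fun g s => Polynomial.monomial k ((g s).coeff k)
    with hg'
  have hg'_add : ∀ a b, g' (a + b) = g' a + g' b := by
    intro a b
    funext s
    rw [hg']
    simp only [Pi.add_apply, Polynomial.coeff_add, map_add]
  have hg'_smul : ∀ (c : K) a, g' (c • a) = c • g' a := by
    intro c a
    funext s
    rw [hg']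
    simp only [Pi.smul_apply, Polynomial.coeff_smul]
    rw [Polynomial.smul_monomial]
  set Ψ : ((Finset (Fin n) → Polynomial (MvPolynomial (Fin n) K)) ×
      (Finset (Fin n) → Polynomial (MvPolynomial (Fin n) K))) →ₗ[K]
      ((Finset (Fin n) → Polynomial (MvPolynomial (Fin n) K)) ×
      (Finset (Fin n) → Polynomial (MvPolynomial (Fin n) K))) :=
    { toFun := fun q => (fun s => dis k (X j) (q.1 s) - ep (g' q.2) s,
        fun s => dis k (X j) (q.2 s))
      map_add' := by
        intro a b
        refine Prod.ext ?_ ?_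
        · funext s
          simp only [Prod.fst_add, Prod.snd_add, Pi.add_apply, map_add, hg'_add, hep_add]
          ring
        · funext s
          simp only [Prod.snd_add, Pi.add_apply, map_add]
      map_smul' := by
        intro c a
        refine Prod.ext ?_ ?_
        · funext s
          simp only [Prod.smul_fst, Prod.smul_snd, Pi.smul_apply, map_smul, hg'_smul, hep_smul,
            RingHom.id_apply, smul_sub]
        · funext s
          simp only [Prod.smul_snd, Pi.smul_apply, map_smul, RingHom.id_apply] } with hΨ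
  have hinj : Function.Injective Ψ := by
    rw [← LinearMap.ker_eq_bot, eq_bot_iff]
    rintro ⟨al, ga⟩ hq
    have h1 : (fun s => dis k (X j) (al s) - ep (g' ga) s) = 0 ∧
      (fun s => dis k (X j) (ga s)) = 0 := Prod.mk.inj (LinearMap.mem_ker.1 hq)
    have h2 : ga = 0 := by
      funext s
      exact dis_injective _ _ _ (congrFun h1.2 s)
    have h3 : g' ga = 0 := by
      rw [h2]
      funext s
      rw [hg']
      simp
    have h4 : al = 0 := by
      funext s
      refine dis_injective k (X j) _ ?_
      have h5 := congrFun h1.1 s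
      simp only [h3, hep_zero, sub_zero] at h5
      exact h5
    rw [h2, h4]
    exact Submodule.zero_mem _
  have hmono : ∀ (V : ℕ → Submodule K (MvPolynomial (Fin n) K)), ∀ b ∈ V k,
      Polynomial.monomial k b ∈ (grs V).map (dis k (X j)) := fun V b hb =>
    ⟨_, monomial_mem_grs hb, dis_monomial_le le_rfl _ _⟩
  have hmap : (pc (xB K n) Polynomial.X (grs U) (grs V) p).map Ψ ≤
      pc (xB K n) Polynomial.X ((grs U).map (dis k (X j))) ((grs V).map (dis k (X j))) p := by
    rintro _ ⟨⟨al, ga⟩, ⟨hal, hga, h1, h2⟩, rfl⟩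
    simp only at hal hga h1 h2
    have hg'mem : g' ga ∈ chW n p ((grs V).map (dis k (X j))) := by
      refine ⟨fun s hs => ?_, fun s => hmono V _ (hga.2 s k)⟩
      rw [hg']
      simp only
      rw [hga.1 s hs, Polynomial.coeff_zero, map_zero]
    refine ⟨?_, ?_, ?_, ?_⟩
    · show (fun s => dis k (X j) (al s) - ep (g' ga) s) ∈
        chW n (p + 1) ((grs V).map (dis k (X j)))
      have h3 : ep (g' ga) ∈ chW n (p + 1) ((grs V).map (dis k (X j))) :=
        eps_mem_chW cc hg'mem
      refine ⟨fun s hs => ?_, fun s => Submodule.sub_mem _ ⟨_, hal.2 s, rfl⟩ (h3.2 s)⟩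
      simp only
      rw [hal.1 s hs, h3.1 s hs, map_zero, sub_zero]
    · refine ⟨fun s hs => ?_, fun s => ⟨_, hga.2 s, rfl⟩⟩
      show dis k (X j) (ga s) = 0
      rw [hga.1 s hs, map_zero]
    · intro t
      show kd (xB K n) (fun s => dis k (X j) (ga s)) t ∈ _
      rw [kd_dis]
      exact ⟨_, h1 t, rfl⟩
    · intro t
      show kd (xB K n) (fun s => dis k (X j) (al s) - ep (g' ga) s) t +
        Polynomial.X * dis k (X j) (ga t) ∈ _
      have e1 : kd (xB K n) (fun s => dis k (X j) (al s) - ep (g' ga) s) t =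
          dis k (X j) (kd (xB K n) al t) - kd (xB K n) (ep (g' ga)) t := by
        rw [← kd_dis]
        exact congrFun (kd_sub (xB K n) (fun s => dis k (X j) (al s)) (ep (g' ga))) t
      have e2 := kd_eps (xB K n)
        (fun i => algebraMap K (Polynomial (MvPolynomial (Fin n) K)) (cc i)) (g' ga) t
      rw [hsum] at e2
      have e3 : ep (kd (xB K n) (g' ga)) t ∈ (grs U).map (dis k (X j)) := by
        refine eps_mem (p := 0) cc (fun s => ?_) t
        have e4 : kd (xB K n) (g' ga) s = Polynomial.monomial k ((kd (xB K n) ga s).coeff k) := by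
          rw [coeff_kd, ← kd_monomial]
        rw [e4]
        exact hmono U _ (h1 s k)
      have e5 : kd (xB K n) (fun s => dis k (X j) (al s) - ep (g' ga) s) t +
          Polynomial.X * dis k (X j) (ga t) =
          dis k (X j) (kd (xB K n) al t + Polynomial.X * ga t) +
            ep (kd (xB K n) (g' ga)) t := by
        rw [e1, X_mul_dis, map_add]
        have e6 : kd (xB K n) (ep (g' ga)) t = Polynomial.C (X j) * g' ga t -
            ep (kd (xB K n) (g' ga)) t := by
          rw [← e2]
          rw [hep]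
          ring
        rw [e6, hg']
        ring
      rw [e5]
      exact Submodule.add_mem _ ⟨_, h2 t, rfl⟩ e3
  have := dist_finite_pc (xB K n) Polynomial.X ((grs U).map (dis k (X j)))
    ((grs V).map (dis k (X j))) p
  have h2 := dist_finite_pc (xB K n) Polynomial.X (grs U) (grs V) p
  rw [← finrank_map_of_inj Ψ _ fun w _ hw => hinj (hw.trans (map_zero Ψ).symm)]
  exact Submodule.finrank_mono hmap

/-- a graded space closed under multiplication by the form is its own distraction -/
theorem map_dis_eq (U : ℕ → Submodule K (MvPolynomial (Fin n) K)) (k : ℕ)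
    (l : MvPolynomial (Fin n) K) (hU : ∀ i, ∀ b ∈ U (i + 1), l * b ∈ U i)
    [Module.Finite K (grs U)] : (grs U).map (dis k l) = grs U := by
  refine Submodule.eq_of_le_of_finrank_eq ?_ ?_
  · rintro _ ⟨F, hF, rfl⟩ i
    rw [coeff_dis]
    refine Submodule.sub_mem _ (hF i) ?_
    split_ifs
    · exact hU i _ (hF (i + 1))
    · exact Submodule.zero_mem _
  · exact finrank_map_of_inj (dis k l) _ fun w _ hw => dis_injective k l w hw

theorem monomial_mem_map_dis {J : Ideal (MvPolynomial (Fin n) K)} {D : ℕ}
    {V : ℕ → Submodule K (MvPolynomial (Fin n) K)} (hV : Lay J D V) (k : ℕ) (j : Fin n) :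
    ∀ i ≤ D, ∀ b ∈ piece J (D - i), Polynomial.monomial i b ∈ (grs V).map (dis k (X j)) := by
  intro i
  induction i with
  | zero =>
    intro _ b hb
    exact ⟨_, monomial_mem_grs (hV.ge 0 (Nat.zero_le _) hb), dis_monomial_le (Nat.zero_le _) _ _⟩
  | succ i ih =>
    intro hi b hb
    by_cases hk : i + 1 ≤ k
    · exact ⟨_, monomial_mem_grs (hV.ge _ hi hb), dis_monomial_le hk _ _⟩
    · have h1 : Polynomial.monomial (i + 1) b =
          dis k (X j) (Polynomial.monomial (i + 1) b) + Polynomial.monomial i (X j * b) := by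
        rw [dis_monomial_succ (by omega)]
        ring
      rw [h1]
      refine Submodule.add_mem _ ⟨_, monomial_mem_grs (hV.ge _ hi hb), rfl⟩
        (ih (by omega) _ ⟨Ideal.mul_mem_left _ _ hb.1, ?_⟩)
      have h2 := (isHomogeneous_X K j).mul ((mem_homogeneousSubmodule _ _).1 hb.2)
      rw [show 1 + (D - (i + 1)) = D - i by omega] at h2
      exact h2

/-- the layers of the distraction -/
noncomputable def disl (k : ℕ) (j : Fin n) (V : ℕ → Submodule K (MvPolynomial (Fin n) K)) :
    ℕ → Submodule K (MvPolynomial (Fin n) K) := lay ((grs V).map (dis k (X j)))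

theorem map_dis_le_Gd {D : ℕ} {V : ℕ → Submodule K (MvPolynomial (Fin n) K)}
    (hV : ∀ i, V i ≤ Bd K n D i) (k : ℕ) (j : Fin n) :
    (grs V).map (dis k (X j)) ≤ Gd K n D := by
  rintro _ ⟨F, hF, rfl⟩
  exact dis_mem_Gd (isHomogeneous_X K j) (dist_grs_le hV hF)

theorem disl_lay {J : Ideal (MvPolynomial (Fin n) K)} {D : ℕ}
    {V : ℕ → Submodule K (MvPolynomial (Fin n) K)} (hV : Lay J D V) (k : ℕ) (j : Fin n) :
    Lay J D (disl k j V) := by
  refine ⟨lay_le (map_dis_le_Gd hV.le k j), fun i hi b hb => ?_⟩
  refine ⟨_, monomial_mem_map_dis hV k j i hi b hb, fun i' hi' => ?_, ?_⟩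
  · rw [Polynomial.coeff_monomial, if_neg (by omega)]
  · rw [Polynomial.coeff_monomial, if_pos rfl]

theorem disl_tot {D : ℕ} {V : ℕ → Submodule K (MvPolynomial (Fin n) K)}
    (hV : ∀ i, V i ≤ Bd K n D i) (k : ℕ) (j : Fin n) : tot (disl k j V) D = tot V D := by
  rw [disl, ← finrank_eq_tot_lay _ (map_dis_le_Gd hV k j), ← finrank_grs V hV]
  exact finrank_map_of_inj (dis k (X j)) _ fun w _ hw => dis_injective k _ w hw

theorem le_disl (V : ℕ → Submodule K (MvPolynomial (Fin n) K)) (k : ℕ) (j : Fin n) {i : ℕ}
    (hi : i ≤ k) : V i ≤ disl k j V i := by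
  intro b hb
  refine ⟨_, ⟨_, monomial_mem_grs hb, dis_monomial_le hi _ _⟩, fun i' hi' => ?_, ?_⟩
  · rw [Polynomial.coeff_monomial, if_neg (by omega)]
  · rw [Polynomial.coeff_monomial, if_pos rfl]

theorem lt_disl {V : ℕ → Submodule K (MvPolynomial (Fin n) K)} {k : ℕ} {j : Fin n}
    {b : MvPolynomial (Fin n) K} (hb : b ∈ V (k + 1)) (hjb : X j * b ∉ V k) :
    V k < disl k j V k := by
  refine lt_of_le_of_ne (le_disl V k j le_rfl) fun heq => hjb ?_
  rw [heq]
  have h1 : -(X j * b) ∈ disl k j V k := by
    refine ⟨_, ⟨_, monomial_mem_grs hb, dis_monomial_succ le_rfl _ _⟩, fun i' hi' => ?_, ?_⟩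
    · rw [Polynomial.coeff_sub, Polynomial.coeff_monomial, Polynomial.coeff_monomial,
        if_neg (by omega), if_neg (by omega), sub_zero]
    · rw [Polynomial.coeff_sub, Polynomial.coeff_monomial, Polynomial.coeff_monomial,
        if_neg (by omega), if_pos rfl, zero_sub]
  have h2 := Submodule.neg_mem _ h1
  rwa [neg_neg] at h2

theorem zc_disl {d p : ℕ} {V : ℕ → Submodule K (MvPolynomial (Fin n) K)}
    (hV : ∀ i, V i ≤ Bd K n (d + 1) i) (k : ℕ) (j : Fin n) :
    zc V p d ≤ zc (disl k j V) p d := by
  rw [← zc_grs V hV]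
  refine le_trans ?_ (zc_lay _ (map_dis_le_Gd hV k j))
  have h1 : Gd K n d = grs fun i => Bd K n d i := rfl
  have hfin : Module.Finite K (grs fun i => Bd K n d i) := finite_Gd' d
  have h2 : (Gd K n d).map (dis k (X j)) = Gd K n d :=
    map_dis_eq (fun i => Bd K n d i) k (X j) fun i b hb => mul_mem_Bd (isHomogeneous_X K j) hb
  have h3 := dist_pc (p := p) (k := k) V (fun i => Bd K n d i) j
  rw [← h1, h2] at h3
  exact h3

/-- one distraction step -/
theorem dist_step {J : Ideal (MvPolynomial (Fin n) K)} {d : ℕ} (p : ℕ)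
    {V : ℕ → Submodule K (MvPolynomial (Fin n) K)} (hV : Lay J (d + 1) V) {k : ℕ}
    {j : Fin n} {b : MvPolynomial (Fin n) K} (hb : b ∈ V (k + 1)) (hjb : X j * b ∉ V k) :
    ∃ V' : ℕ → Submodule K (MvPolynomial (Fin n) K), Lay J (d + 1) V' ∧
      tot V' (d + 1) = tot V (d + 1) ∧ zc V p d ≤ zc V' p d ∧ (∀ i < k, V i ≤ V' i) ∧
      V k < V' k :=
  ⟨disl k j V, disl_lay hV k j, disl_tot hV.le k j, zc_disl hV.le k j,
    fun _ hi => le_disl V k j hi.le, lt_disl hb hjb⟩

/-- the coordinate change `z ↦ z + l` -/
noncomputable def cch (l : MvPolynomial (Fin n) K) :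
    Polynomial (MvPolynomial (Fin n) K) →ₗ[K] Polynomial (MvPolynomial (Fin n) K) :=
  (Polynomial.algEquivAevalXAddC l).toLinearMap.restrictScalars K

theorem cch_apply (l : MvPolynomial (Fin n) K) (F : Polynomial (MvPolynomial (Fin n) K)) :
    cch l F = Polynomial.algEquivAevalXAddC l F := rfl

theorem cch_injective (l : MvPolynomial (Fin n) K) : Function.Injective (cch l) :=
  (Polynomial.algEquivAevalXAddC l).injective

theorem cch_C_mul (l b : MvPolynomial (Fin n) K) (F : Polynomial (MvPolynomial (Fin n) K)) :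
    cch l (Polynomial.C b * F) = Polynomial.C b * cch l F := by
  rw [cch_apply, cch_apply, map_mul]
  congr 1
  exact (Polynomial.algEquivAevalXAddC l).commutes b

theorem cch_X_mul (l : MvPolynomial (Fin n) K) (F : Polynomial (MvPolynomial (Fin n) K)) :
    cch l (Polynomial.X * F) = (Polynomial.X + Polynomial.C l) * cch l F := by
  rw [cch_apply, cch_apply, map_mul]
  congr 1
  simp [Polynomial.algEquivAevalXAddC]

theorem kd_cch (l : MvPolynomial (Fin n) K)
    (g : Finset (Fin n) → Polynomial (MvPolynomial (Fin n) K)) (t : Finset (Fin n)) :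
    kd (xB K n) (fun s => cch l (g s)) t = cch l (kd (xB K n) g t) := by
  rw [kd_apply, kd_apply, map_sum]
  refine Finset.sum_congr rfl fun i _ => ?_
  rcases neg_one_pow_eq_or (Polynomial (MvPolynomial (Fin n) K))
    (t.filter fun k => k < i).card with hs | hs
  · rw [hs, one_mul, one_mul, cch_C_mul]
  · rw [hs, neg_one_mul, neg_one_mul, map_neg, cch_C_mul]

theorem X_mul_mem_Gd {e : ℕ} {F : Polynomial (MvPolynomial (Fin n) K)} (hF : F ∈ Gd K n e) :
    Polynomial.X * F ∈ Gd K n (e + 1) := by
  intro i
  cases i with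
  | zero =>
    rw [Polynomial.coeff_X_mul_zero]
    exact Submodule.zero_mem _
  | succ i =>
    rw [Polynomial.coeff_X_mul]
    have h := hF i
    rw [Bd] at h ⊢
    by_cases hi : i ≤ e
    · rw [if_pos hi] at h
      rw [if_pos (by omega), show e + 1 - (i + 1) = e - i by omega]
      exact h
    · rw [if_neg hi] at h
      rw [if_neg (by omega)]
      exact h

theorem C_mul_mem_Gd {l : MvPolynomial (Fin n) K} (hl : l.IsHomogeneous 1) {e : ℕ}
    {F : Polynomial (MvPolynomial (Fin n) K)} (hF : F ∈ Gd K n e) :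
    Polynomial.C l * F ∈ Gd K n (e + 1) := by
  intro i
  rw [Polynomial.coeff_C_mul]
  have h := hF i
  rw [Bd] at h ⊢
  by_cases hi : i ≤ e
  · rw [if_pos hi] at h
    rw [if_pos (by omega)]
    have h1 := hl.mul ((mem_homogeneousSubmodule _ _).1 h)
    rw [show 1 + (e - i) = e + 1 - i by omega] at h1
    exact h1
  · rw [if_neg hi, Submodule.mem_bot] at h
    rw [h, mul_zero]
    exact Submodule.zero_mem _

theorem cch_mem_Gd {l : MvPolynomial (Fin n) K} (hl : l.IsHomogeneous 1) {e : ℕ}
    {F : Polynomial (MvPolynomial (Fin n) K)} (hF : F ∈ Gd K n e) : cch l F ∈ Gd K n e := by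
  have key : ∀ i e (b : MvPolynomial (Fin n) K), b ∈ Bd K n e i →
      Polynomial.C b * (Polynomial.X + Polynomial.C l) ^ i ∈ Gd K n e := by
    intro i
    induction i with
    | zero =>
      intro e b hb j
      rw [pow_zero, mul_one, Polynomial.coeff_C]
      split_ifs with hj
      · rw [hj]
        exact hb
      · exact Submodule.zero_mem _
    | succ i ih =>
      intro e b hb
      cases e with
      | zero =>
        rw [Bd, if_neg (by omega), Submodule.mem_bot] at hb
        rw [hb, Polynomial.C_0, zero_mul]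
        exact Submodule.zero_mem _
      | succ e =>
        have hb' : b ∈ Bd K n e i := by
          rw [Bd] at hb ⊢
          by_cases hi : i ≤ e
          · rw [if_pos (by omega), show e + 1 - (i + 1) = e - i by omega] at hb
            rw [if_pos hi]
            exact hb
          · rw [if_neg (by omega)] at hb
            rw [if_neg hi]
            exact hb
        have h1 : Polynomial.C b * (Polynomial.X + Polynomial.C l) ^ (i + 1) =
            Polynomial.X * (Polynomial.C b * (Polynomial.X + Polynomial.C l) ^ i) +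
              Polynomial.C l * (Polynomial.C b * (Polynomial.X + Polynomial.C l) ^ i) := by ring
        rw [h1]
        exact Submodule.add_mem _ (X_mul_mem_Gd (ih e b hb')) (C_mul_mem_Gd hl (ih e b hb'))
  rw [Polynomial.as_sum_range_C_mul_X_pow F, map_sum]
  refine Submodule.sum_mem _ fun i _ => ?_
  have h1 : cch l (Polynomial.C (F.coeff i) * Polynomial.X ^ i) =
      Polynomial.C (F.coeff i) * (Polynomial.X + Polynomial.C l) ^ i := by
    rw [cch_C_mul]
    congr 1
    rw [cch_apply, map_pow]
    congr 1
    simp [Polynomial.algEquivAevalXAddC]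
  rw [h1]
  exact key i e _ (hF i)

theorem map_cch_Gd {l : MvPolynomial (Fin n) K} (hl : l.IsHomogeneous 1) (e : ℕ) :
    (Gd K n e).map (cch l) = Gd K n e := by
  refine Submodule.eq_of_le_of_finrank_eq ?_ ?_
  · rintro _ ⟨F, hF, rfl⟩
    exact cch_mem_Gd hl hF
  · exact finrank_map_of_inj (cch l) _ fun w _ hw =>
      cch_injective l (hw.trans (map_zero (cch l)).symm)

/-- change of coordinates `z ↦ z + l`, for all pairs of spaces -/
theorem cch_pc {p : ℕ} (U V : Submodule K (Polynomial (MvPolynomial (Fin n) K)))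
    (cc : Fin n → K) [Module.Finite K V] :
    finrank K (pc (xB K n) Polynomial.X U V p) ≤
      finrank K (pc (xB K n) Polynomial.X
        (U.map (cch (∑ j, MvPolynomial.C (cc j) * X j)))
        (V.map (cch (∑ j, MvPolynomial.C (cc j) * X j))) p) := by
  classical
  set l : MvPolynomial (Fin n) K := ∑ j, MvPolynomial.C (cc j) * X j with hl
  set ep : (Finset (Fin n) → Polynomial (MvPolynomial (Fin n) K)) →
    Finset (Fin n) → Polynomial (MvPolynomial (Fin n) K) :=
    eps (fun i => algebraMap K (Polynomial (MvPolynomial (Fin n) K)) (cc i)) with hep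
  have hsum : ∑ i, algebraMap K (Polynomial (MvPolynomial (Fin n) K)) (cc i) * xB K n i =
      Polynomial.C l := by
    rw [hl, map_sum]
    refine Finset.sum_congr rfl fun i _ => ?_
    rw [map_mul]
    rfl
  have hep_add : ∀ g g' s, ep (g + g') s = ep g s + ep g' s := by
    intro g g' s
    rw [hep, eps, eps, eps, ← Finset.sum_add_distrib]
    refine Finset.sum_congr rfl fun i _ => ?_
    rw [Pi.add_apply]
    ring
  have hep_smul : ∀ (c : K) g s, ep (c • g) s = c • ep g s := by
    intro c g s
    rw [hep, eps, eps, Finset.smul_sum]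
    refine Finset.sum_congr rfl fun i _ => ?_
    rw [Pi.smul_apply, mul_smul_comm, mul_smul_comm]
  have hep_zero : ∀ s, ep 0 s = 0 := by
    intro s
    have := hep_smul 0 0 s
    rwa [zero_smul, zero_smul] at this
  set g' : (Finset (Fin n) → Polynomial (MvPolynomial (Fin n) K)) → Finset (Fin n) →
    Polynomial (MvPolynomial (Fin n) K) := fun g s => cch l (g s)
    with hg'
  have hg'_add : ∀ a b, g' (a + b) = g' a + g' b := by
    intro a b
    funext s
    rw [hg']
    simp only [Pi.add_apply, map_add]
  have hg'_smul : ∀ (c : K) a, g' (c • a) = c • g' a := by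
    intro c a
    funext s
    rw [hg']
    simp only [Pi.smul_apply, map_smul]
  set Ψ : ((Finset (Fin n) → Polynomial (MvPolynomial (Fin n) K)) ×
      (Finset (Fin n) → Polynomial (MvPolynomial (Fin n) K))) →ₗ[K]
      ((Finset (Fin n) → Polynomial (MvPolynomial (Fin n) K)) ×
      (Finset (Fin n) → Polynomial (MvPolynomial (Fin n) K))) :=
    { toFun := fun q => (fun s => cch l (q.1 s) + ep (g' q.2) s, fun s => cch l (q.2 s))
      map_add' := by
        intro a b
        refine Prod.ext ?_ ?_
        · funext s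
          simp only [Prod.fst_add, Prod.snd_add, Pi.add_apply, map_add, hg'_add, hep_add]
          ring
        · funext s
          simp only [Prod.snd_add, Pi.add_apply, map_add]
      map_smul' := by
        intro c a
        refine Prod.ext ?_ ?_
        · funext s
          simp only [Prod.smul_fst, Prod.smul_snd, Pi.smul_apply, map_smul, hg'_smul, hep_smul,
            RingHom.id_apply, smul_add]
        · funext s
          simp only [Prod.smul_snd, Pi.smul_apply, map_smul, RingHom.id_apply] } with hΨ
  have hinj : Function.Injective Ψ := by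
    rw [← LinearMap.ker_eq_bot, eq_bot_iff]
    rintro ⟨al, ga⟩ hq
    have h1 : (fun s => cch l (al s) + ep (g' ga) s) = 0 ∧
      (fun s => cch l (ga s)) = 0 := Prod.mk.inj (LinearMap.mem_ker.1 hq)
    have h2 : ga = 0 := by
      funext s
      exact cch_injective l ((congrFun h1.2 s).trans (map_zero (cch l)).symm)
    have h3 : g' ga = 0 := h1.2
    have h4 : al = 0 := by
      funext s
      have h5 := congrFun h1.1 s
      simp only [h3, hep_zero, add_zero] at h5
      exact cch_injective l (h5.trans (map_zero (cch l)).symm)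
    rw [h2, h4]
    exact Submodule.zero_mem _
  have hmap : (pc (xB K n) Polynomial.X U V p).map Ψ ≤
      pc (xB K n) Polynomial.X (U.map (cch l)) (V.map (cch l)) p := by
    rintro _ ⟨⟨al, ga⟩, ⟨hal, hga, h1, h2⟩, rfl⟩
    simp only at hal hga h1 h2
    have hg'mem : g' ga ∈ chW n p (V.map (cch l)) := by
      refine ⟨fun s hs => ?_, fun s => ⟨_, hga.2 s, rfl⟩⟩
      rw [hg']
      simp only
      rw [hga.1 s hs, map_zero]
    refine ⟨?_, ?_, ?_, ?_⟩
    · show (fun s => cch l (al s) + ep (g' ga) s) ∈ chW n (p + 1) (V.map (cch l))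
      have h3 : ep (g' ga) ∈ chW n (p + 1) (V.map (cch l)) := eps_mem_chW cc hg'mem
      refine ⟨fun s hs => ?_, fun s => Submodule.add_mem _ ⟨_, hal.2 s, rfl⟩ (h3.2 s)⟩
      simp only
      rw [hal.1 s hs, h3.1 s hs, map_zero, add_zero]
    · exact hg'mem
    · intro t
      show kd (xB K n) (fun s => cch l (ga s)) t ∈ _
      rw [kd_cch]
      exact ⟨_, h1 t, rfl⟩
    · intro t
      show kd (xB K n) (fun s => cch l (al s) + ep (g' ga) s) t +
        Polynomial.X * cch l (ga t) ∈ _
      have e1 : kd (xB K n) (fun s => cch l (al s) + ep (g' ga) s) t =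
          cch l (kd (xB K n) al t) + kd (xB K n) (ep (g' ga)) t := by
        rw [← kd_cch]
        exact congrFun (kd_add (xB K n) (fun s => cch l (al s)) (ep (g' ga))) t
      have e2 := kd_eps (xB K n)
        (fun i => algebraMap K (Polynomial (MvPolynomial (Fin n) K)) (cc i)) (g' ga) t
      rw [hsum] at e2
      have e3 : ep (kd (xB K n) (g' ga)) t ∈ U.map (cch l) := by
        refine eps_mem (p := 0) cc (fun s => ?_) t
        rw [hg', kd_cch]
        exact ⟨_, h1 s, rfl⟩
      have e5 : kd (xB K n) (fun s => cch l (al s) + ep (g' ga) s) t +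
          Polynomial.X * cch l (ga t) =
          cch l (kd (xB K n) al t + Polynomial.X * ga t) - ep (kd (xB K n) (g' ga)) t := by
        rw [e1, map_add, cch_X_mul]
        have e6 : kd (xB K n) (ep (g' ga)) t = Polynomial.C l * g' ga t -
            ep (kd (xB K n) (g' ga)) t := by
          rw [← e2]
          rw [hep]
          ring
        rw [e6, hg']
        ring
      rw [e5]
      exact Submodule.sub_mem _ ⟨_, h2 t, rfl⟩ e3
  have := dist_finite_pc (xB K n) Polynomial.X (U.map (cch l)) (V.map (cch l)) p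
  have h2 := dist_finite_pc (xB K n) Polynomial.X U V p
  rw [← finrank_map_of_inj Ψ _ fun w _ hw => hinj (hw.trans (map_zero Ψ).symm)]
  exact Submodule.finrank_mono hmap

theorem sum_C_mul_X_isHomogeneous (cc : Fin n → K) :
    (∑ j, MvPolynomial.C (cc j) * X j : MvPolynomial (Fin n) K).IsHomogeneous 1 := by
  refine IsHomogeneous.sum _ _ _ fun j _ => ?_
  have h := (isHomogeneous_C (Fin n) (cc j)).mul (isHomogeneous_X K j)
  rwa [zero_add] at h

/-- change of coordinates `z ↦ z + l` -/
theorem coord_pc {d p : ℕ} (V : Submodule K (Polynomial (MvPolynomial (Fin n) K)))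
    (cc : Fin n → K) :
    finrank K (pc (xB K n) Polynomial.X V (Gd K n d) p) ≤
      finrank K (pc (xB K n) Polynomial.X
        (V.map ((Polynomial.algEquivAevalXAddC (∑ j, MvPolynomial.C (cc j) * X j :
          MvPolynomial (Fin n) K)).toLinearMap.restrictScalars K)) (Gd K n d) p) := by
  have h1 := cch_pc (p := p) V (Gd K n d) cc
  rw [map_cch_Gd (sum_C_mul_X_isHomogeneous cc)] at h1
  exact h1

end Vale.Agent.P200.L
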