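import Vale.Agent.P200.L.RDefs
import Vale.Agent.P200.G.CAGor
import Vale.Agent.P200.G.CLMain

/-! Gorenstein duality between cycles over `V` and cycles modulo the forms. -/

namespace Vale.Agent.P200.L

open MvPolynomial Module
open Vale.Agent.P200.B Vale.Agent.P200.G

section pairing

variable {K : Type*} [Field K]

/-- the rank of a bilinear form and of its transpose -/
theorem du_rank {M N : Type*} [AddCommGroup M] [Module K M] [AddCommGroup N] [Module K N]
    (β : M →ₗ[K] N →ₗ[K] K) (E EK : Submodule K M) (F FK : Submodule K N)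
    [Module.Finite K E] [Module.Finite K F] (hE : EK ≤ E) (hF : FK ≤ F)
    (h1 : ∀ x ∈ E, (x ∈ EK ↔ ∀ y ∈ F, β x y = 0))
    (h2 : ∀ y ∈ F, (y ∈ FK ↔ ∀ x ∈ E, β x y = 0)) :
    finrank K E + finrank K FK = finrank K F + finrank K EK := by
  let BJ : E →ₗ[K] Module.Dual K F := β.domRestrict₁₂ E F
  have hBJ : ∀ (x : E) (y : F), BJ x y = β x y := fun x y => rfl
  have hker : LinearMap.ker BJ = EK.comap E.subtype := by
    ext x
    rw [LinearMap.mem_ker, Submodule.mem_comap, Submodule.subtype_apply, h1 x x.2]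
    constructor
    · intro h y hy
      have h3 := hBJ x ⟨y, hy⟩
      rw [h] at h3
      exact h3.symm
    · intro h
      ext y
      rw [hBJ]
      exact h y y.2
  have horth : (LinearMap.range BJ).dualCoannihilator = FK.comap F.subtype := by
    ext y
    rw [Submodule.mem_dualCoannihilator, Submodule.mem_comap, Submodule.subtype_apply, h2 y y.2]
    constructor
    · intro h x hx
      exact h (BJ ⟨x, hx⟩) ⟨_, rfl⟩
    · rintro h φ ⟨x, rfl⟩
      rw [hBJ]
      exact h x x.2
  have e1 := LinearMap.finrank_range_add_finrank_ker BJ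
  have e2 := Subspace.finrank_add_finrank_dualCoannihilator_eq (LinearMap.range BJ)
  rw [hker, (Submodule.comapSubtypeEquivOfLe hE).finrank_eq] at e1
  rw [horth, (Submodule.comapSubtypeEquivOfLe hF).finrank_eq] at e2
  omega

variable {n : ℕ}

/-- the exponent of the sign -/
def du_ex (T : Finset (Fin n)) : ℕ := ∑ j ∈ T, j.val

theorem du_ex_insert {T : Finset (Fin n)} {i : Fin n} (hi : i ∉ T) :
    du_ex (insert i T) = i.val + du_ex T := by
  rw [du_ex, Finset.sum_insert hi]
  rfl

theorem du_split (T : Finset (Fin n)) (i : Fin n) :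
    (T.filter fun k => k < i).card + ((Tᶜ).filter fun k => k < i).card = i.val := by
  rw [← Finset.card_union_of_disjoint]
  · rw [← Finset.filter_union, Finset.union_compl]
    have h1 : (Finset.univ.filter fun k => k < i) = Finset.Iio i := by
      ext k
      simp
    rw [h1, Fin.card_Iio]
  · rw [Finset.disjoint_left]
    intro k hk hk'
    exact (Finset.mem_compl.1 (Finset.mem_filter.1 hk').1) (Finset.mem_filter.1 hk).1

/-- the pairing of families -/
noncomputable def du_pair (Λ : MvPolynomial (Fin n) K →ₗ[K] K) :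
    (Finset (Fin n) → MvPolynomial (Fin n) K) →ₗ[K]
      (Finset (Fin n) → MvPolynomial (Fin n) K) →ₗ[K] K :=
  LinearMap.mk₂ K (fun u w => ∑ T : Finset (Fin n), (-1) ^ du_ex T * Λ (u T * w Tᶜ))
    (by
      intro a b c
      rw [← Finset.sum_add_distrib]
      refine Finset.sum_congr rfl fun T _ => ?_
      rw [Pi.add_apply, add_mul, map_add, mul_add])
    (by
      intro k a c
      rw [smul_eq_mul, Finset.mul_sum]
      refine Finset.sum_congr rfl fun T _ => ?_
      rw [Pi.smul_apply, smul_mul_assoc, map_smul, smul_eq_mul]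
      ring)
    (by
      intro a b c
      rw [← Finset.sum_add_distrib]
      refine Finset.sum_congr rfl fun T _ => ?_
      rw [Pi.add_apply, mul_add, map_add, mul_add])
    (by
      intro k a c
      rw [smul_eq_mul, Finset.mul_sum]
      refine Finset.sum_congr rfl fun T _ => ?_
      rw [Pi.smul_apply, mul_smul_comm, map_smul, smul_eq_mul]
      ring)

theorem du_pair_apply (Λ : MvPolynomial (Fin n) K →ₗ[K] K)
    (u w : Finset (Fin n) → MvPolynomial (Fin n) K) :
    du_pair Λ u w = ∑ T : Finset (Fin n), (-1) ^ du_ex T * Λ (u T * w Tᶜ) := rfl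

theorem du_map_sign (Λ : MvPolynomial (Fin n) K →ₗ[K] K) (m : ℕ) (x : MvPolynomial (Fin n) K) :
    Λ ((-1) ^ m * x) = (-1) ^ m * Λ x := by
  rcases neg_one_pow_eq_or (MvPolynomial (Fin n) K) m with h | h <;>
    rcases neg_one_pow_eq_or K m with h' | h'
  · rw [h, h', one_mul, one_mul]
  · rcases Nat.even_or_odd m with hm | hm
    · rw [hm.neg_one_pow, hm.neg_one_pow, one_mul, one_mul]
    · rw [hm.neg_one_pow, hm.neg_one_pow, neg_one_mul, neg_one_mul, map_neg]
  · rcases Nat.even_or_odd m with hm | hm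
    · rw [hm.neg_one_pow, hm.neg_one_pow, one_mul, one_mul]
    · rw [hm.neg_one_pow, hm.neg_one_pow, neg_one_mul, neg_one_mul, map_neg]
  · rw [h, h', neg_one_mul, neg_one_mul, map_neg]

/-- the Koszul differential is self-adjoint for the pairing -/
theorem du_adj (Λ : MvPolynomial (Fin n) K →ₗ[K] K) (x : Fin n → MvPolynomial (Fin n) K)
    (u w : Finset (Fin n) → MvPolynomial (Fin n) K) :
    du_pair Λ (kd x u) w = du_pair Λ u (kd x w) := by
  classical
  have h1 : du_pair Λ (kd x u) w = ∑ T : Finset (Fin n), ∑ i ∈ Tᶜ,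
      (-1) ^ (du_ex T + (T.filter fun k => k < i).card) *
        Λ (x i * (u (insert i T) * w Tᶜ)) := by
    rw [du_pair_apply]
    refine Finset.sum_congr rfl fun T _ => ?_
    rw [kd_apply, Finset.sum_mul, map_sum, Finset.mul_sum]
    refine Finset.sum_congr rfl fun i _ => ?_
    rw [mul_assoc, du_map_sign, ← mul_assoc, ← pow_add, mul_assoc]
  have h2 : du_pair Λ u (kd x w) = ∑ T : Finset (Fin n), ∑ i ∈ T,
      (-1) ^ (du_ex T + ((Tᶜ).filter fun k => k < i).card) *
        Λ (x i * (u T * w (insert i Tᶜ))) := by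
    rw [du_pair_apply]
    refine Finset.sum_congr rfl fun T _ => ?_
    rw [kd_apply, Finset.mul_sum, map_sum, Finset.mul_sum, compl_compl]
    refine Finset.sum_congr rfl fun i _ => ?_
    rw [mul_left_comm (u T), du_map_sign, ← mul_assoc, ← pow_add, mul_left_comm (u T)]
  rw [h1, h2, Finset.sum_sigma', Finset.sum_sigma']
  refine Finset.sum_bij' (fun q _ => ⟨insert q.2 q.1, q.2⟩) (fun q _ => ⟨q.1.erase q.2, q.2⟩)
    ?_ ?_ ?_ ?_ ?_
  · rintro ⟨T, i⟩ _
    simp
  · rintro ⟨T, i⟩ _
    simp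
  · rintro ⟨T, i⟩ hq
    have hi : i ∉ T := by simpa using hq
    simp [hi]
  · rintro ⟨T, i⟩ hq
    have hi : i ∈ T := by simpa using hq
    simp [hi]
  · rintro ⟨T, i⟩ hq
    have hi : i ∉ T := by simpa using hq
    show _ = (-1 : K) ^ (du_ex (insert i T) + (((insert i T)ᶜ).filter fun k => k < i).card) *
      Λ (x i * (u (insert i T) * w (insert i (insert i T)ᶜ)))
    have h3 : insert i (insert i T)ᶜ = Tᶜ := by
      ext k
      simp only [Finset.mem_insert, Finset.mem_compl, not_or]
      constructor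
      · rintro (rfl | h)
        · exact hi
        · exact h.2
      · intro h
        by_cases hk : k = i
        · exact Or.inl hk
        · exact Or.inr ⟨hk, h⟩
    have h4 : ((insert i T)ᶜ).filter (fun k => k < i) = (Tᶜ).filter fun k => k < i := by
      ext k
      simp only [Finset.mem_filter, Finset.mem_compl, Finset.mem_insert, not_or]
      constructor
      · rintro ⟨h, h'⟩
        exact ⟨h.2, h'⟩
      · rintro ⟨h, h'⟩
        exact ⟨⟨h'.ne, h⟩, h'⟩
    rw [h3, h4, du_ex_insert hi]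
    congr 1
    have h5 := du_split T i
    have h6 : i.val + du_ex T + ((Tᶜ).filter fun k => k < i).card =
        du_ex T + (T.filter fun k => k < i).card +
          2 * ((Tᶜ).filter fun k => k < i).card := by omega
    rw [h6, pow_add _ _ (2 * _), pow_mul, neg_one_sq, one_pow, mul_one]

/-- a family with one nonzero entry -/
theorem du_pair_single (Λ : MvPolynomial (Fin n) K →ₗ[K] K)
    (u : Finset (Fin n) → MvPolynomial (Fin n) K) (T : Finset (Fin n))
    (g : MvPolynomial (Fin n) K) :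
    du_pair Λ u (Pi.single Tᶜ g) = (-1) ^ du_ex T * Λ (u T * g) := by
  classical
  rw [du_pair_apply, Finset.sum_eq_single T]
  · rw [Pi.single_eq_same]
  · intro T' _ hT'
    rw [Pi.single_eq_of_ne (fun h => hT' (compl_injective h)), mul_zero, map_zero, mul_zero]
  · intro h
    exact absurd (Finset.mem_univ T) h

theorem du_single_pair (Λ : MvPolynomial (Fin n) K →ₗ[K] K)
    (w : Finset (Fin n) → MvPolynomial (Fin n) K) (T : Finset (Fin n))
    (g : MvPolynomial (Fin n) K) :
    du_pair Λ (Pi.single T g) w = (-1) ^ du_ex T * Λ (g * w Tᶜ) := by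
  classical
  rw [du_pair_apply, Finset.sum_eq_single T]
  · rw [Pi.single_eq_same]
  · intro T' _ hT'
    rw [Pi.single_eq_of_ne hT', zero_mul, map_zero, mul_zero]
  · intro h
    exact absurd (Finset.mem_univ T) h

theorem du_single_mem {p : ℕ} {W : Submodule K (MvPolynomial (Fin n) K)} {T : Finset (Fin n)}
    (hT : T.card = p) {g : MvPolynomial (Fin n) K} (hg : g ∈ W) :
    (Pi.single T g : Finset (Fin n) → MvPolynomial (Fin n) K) ∈ chW n p W := by
  classical
  refine ⟨fun s hs => ?_, fun s => ?_⟩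
  · rw [Pi.single_eq_of_ne]
    rintro rfl
    exact hs hT
  · by_cases hs : s = T
    · subst hs
      rw [Pi.single_eq_same]
      exact hg
    · rw [Pi.single_eq_of_ne hs]
      exact W.zero_mem

theorem du_sign_eq_zero {m : ℕ} {x : K} : (-1) ^ m * x = 0 ↔ x = 0 := by
  constructor
  · intro h
    rcases mul_eq_zero.1 h with h | h
    · exact absurd h (pow_ne_zero _ (neg_ne_zero.2 one_ne_zero))
    · exact h
  · rintro rfl
    exact mul_zero _

/-- `Λ` is a dualizing functional of `I`, of degree `s` -/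
def DuGor (I : Ideal (MvPolynomial (Fin n) K)) (s : ℕ) (Λ : MvPolynomial (Fin n) K →ₗ[K] K) :
    Prop :=
  ∀ D ≤ s, ∀ x : MvPolynomial (Fin n) K, x.IsHomogeneous D →
    (x ∈ I ↔ ∀ y : MvPolynomial (Fin n) K, y.IsHomogeneous (s - D) → Λ (x * y) = 0)

/-- the orthogonal space in degree `e` -/
def duPerp (Λ : MvPolynomial (Fin n) K →ₗ[K] K) (V : Submodule K (MvPolynomial (Fin n) K))
    (e : ℕ) : Submodule K (MvPolynomial (Fin n) K) where
  carrier := {g | g ∈ homogeneousSubmodule (Fin n) K e ∧ ∀ v ∈ V, Λ (v * g) = 0}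
  add_mem' := by
    rintro a b ⟨ha, ha'⟩ ⟨hb, hb'⟩
    refine ⟨Submodule.add_mem _ ha hb, fun v hv => ?_⟩
    rw [mul_add, map_add, ha' v hv, hb' v hv, add_zero]
  zero_mem' := ⟨Submodule.zero_mem _, fun v _ => by rw [mul_zero, map_zero]⟩
  smul_mem' := by
    rintro k a ⟨ha, ha'⟩
    refine ⟨Submodule.smul_mem _ _ ha, fun v hv => ?_⟩
    rw [mul_smul_comm, map_smul, ha' v hv, smul_zero]

theorem mem_duPerp {Λ : MvPolynomial (Fin n) K →ₗ[K] K}
    {V : Submodule K (MvPolynomial (Fin n) K)} {e : ℕ} {g : MvPolynomial (Fin n) K} :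
    g ∈ duPerp Λ V e ↔ g ∈ homogeneousSubmodule (Fin n) K e ∧ ∀ v ∈ V, Λ (v * g) = 0 := Iff.rfl

theorem duPerp_le (Λ : MvPolynomial (Fin n) K →ₗ[K] K)
    (V : Submodule K (MvPolynomial (Fin n) K)) (e : ℕ) :
    duPerp Λ V e ≤ homogeneousSubmodule (Fin n) K e := fun _ h => h.1

variable {I : Ideal (MvPolynomial (Fin n) K)} {s : ℕ} {Λ : MvPolynomial (Fin n) K →ₗ[K] K}

/-- `(f) ≤ V'` -/
theorem piece_le_duPerp (hG : DuGor I s Λ) {D e : ℕ} (hDe : D + e = s)
    {V : Submodule K (MvPolynomial (Fin n) K)} (hV : V ≤ homogeneousSubmodule (Fin n) K D) :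
    piece I e ≤ duPerp Λ V e := by
  intro g hg
  refine ⟨hg.2, fun v hv => ?_⟩
  rw [mul_comm]
  refine (hG e (by omega) g hg.2).1 hg.1 v ?_
  rw [show s - e = D by omega]
  exact hV hv

/-- the dimension of the orthogonal space -/
theorem finrank_duPerp (hG : DuGor I s Λ) {D e : ℕ} (hDe : D + e = s)
    {V : Submodule K (MvPolynomial (Fin n) K)} (hV1 : piece I D ≤ V)
    (hV : V ≤ homogeneousSubmodule (Fin n) K D) :
    finrank K V + finrank K (duPerp Λ V e) =
      finrank K (homogeneousSubmodule (Fin n) K e) + finrank K (piece I D) := by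
  have hfin : Module.Finite K V := Submodule.finiteDimensional_of_le hV
  have hse : s - D = e := by omega
  refine du_rank ((LinearMap.mul K (MvPolynomial (Fin n) K)).compr₂ Λ) V (piece I D)
    (homogeneousSubmodule (Fin n) K e) (duPerp Λ V e) hV1 (duPerp_le Λ V e) ?_ ?_
  · intro x hx
    have h1 := hG D (by omega) x (hV hx)
    rw [hse] at h1
    constructor
    · intro h y hy
      exact h1.1 h.1 y hy
    · intro h
      exact ⟨h1.2 h, hV hx⟩
  · intro y hy
    exact ⟨fun h => h.2, fun h => ⟨hy, h⟩⟩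

/-- the double orthogonal space -/
theorem duPerp_duPerp (hG : DuGor I s Λ) {D e : ℕ} (hDe : D + e = s)
    {V : Submodule K (MvPolynomial (Fin n) K)} (hV1 : piece I D ≤ V)
    (hV : V ≤ homogeneousSubmodule (Fin n) K D) :
    duPerp Λ (duPerp Λ V e) D = V := by
  have hle : V ≤ duPerp Λ (duPerp Λ V e) D := by
    intro v hv
    refine ⟨hV hv, fun g hg => ?_⟩
    rw [mul_comm]
    exact hg.2 v hv
  have hfin : Module.Finite K (duPerp Λ (duPerp Λ V e) D) :=
    Submodule.finiteDimensional_of_le (duPerp_le _ _ _)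
  refine (Submodule.eq_of_le_of_finrank_le hle ?_).symm
  have h1 := finrank_duPerp hG hDe hV1 hV
  have h2 := finrank_duPerp hG ((add_comm e D).trans hDe) (piece_le_duPerp hG hDe hV)
    (duPerp_le Λ V e)
  have h3 := finrank_duPerp hG hDe (G.piece_le I D) le_rfl
  have h4 : duPerp Λ (homogeneousSubmodule (Fin n) K D) e = piece I e := by
    refine le_antisymm ?_ (piece_le_duPerp hG hDe le_rfl)
    intro g hg
    refine ⟨(hG e (by omega) g hg.1).2 fun y hy => ?_, hg.1⟩
    rw [show s - e = D by omega] at hy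
    rw [mul_comm]
    exact hg.2 y hy
  rw [h4] at h3
  omega

/-- the rank identity -/
theorem du_cycles (hG : DuGor I s Λ) {d e : ℕ} (hde : d + 1 + e = s)
    {V : Submodule K (MvPolynomial (Fin n) K)} (hV1 : piece I (d + 1) ≤ V)
    (hV : V ≤ homogeneousSubmodule (Fin n) K (d + 1)) {p q : ℕ} (hpq : p + 1 + q = n) :
    n.choose (p + 1) * finrank K (homogeneousSubmodule (Fin n) K d) +
        finrank K (rc X (piece I (e + 1)) (duPerp Λ V e) (q + 1)) =
      n.choose (q + 1) * finrank K (duPerp Λ V e) +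
        finrank K (rc X V (homogeneousSubmodule (Fin n) K d) (p + 1)) := by
  classical
  have hfin : Module.Finite K (duPerp Λ V e) :=
    Submodule.finiteDimensional_of_le (duPerp_le _ _ _)
  rw [← finrank_chW, ← finrank_chW]
  refine du_rank ((du_pair Λ) ∘ₗ (kdL K X)) (chW n (p + 1) (homogeneousSubmodule (Fin n) K d))
    (rc X V (homogeneousSubmodule (Fin n) K d) (p + 1))
    (chW n (q + 1) (duPerp Λ V e)) (rc X (piece I (e + 1)) (duPerp Λ V e) (q + 1))
    (fun _ h => h.1) (fun _ h => h.1) ?_ ?_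
  · intro u hu
    have h0 : ∀ w, ((du_pair Λ) ∘ₗ (kdL K X)) u w = du_pair Λ (kd X u) w := fun w => rfl
    constructor
    · intro h w hw
      rw [h0, du_pair_apply]
      refine Finset.sum_eq_zero fun T _ => ?_
      rw [du_sign_eq_zero]
      exact (hw.2 Tᶜ).2 _ (h.2 T)
    · intro h
      refine ⟨hu, fun T => ?_⟩
      by_cases hT : T.card = p
      · rw [← duPerp_duPerp hG hde hV1 hV]
        refine ⟨kd_hom hu.2 T, fun g hg => ?_⟩
        have hTc : (Tᶜ).card = q + 1 := by
          rw [Finset.card_compl, Fintype.card_fin]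
          omega
        have h1 := h _ (du_single_mem hTc hg)
        rw [h0, du_pair_single, du_sign_eq_zero] at h1
        rw [mul_comm]
        exact h1
      · rw [kd_card hu.1 T hT]
        exact V.zero_mem
  · intro w hw
    have h0 : ∀ u, ((du_pair Λ) ∘ₗ (kdL K X)) u w = du_pair Λ u (kd X w) := fun u =>
      du_adj Λ X u w
    have hwh : ∀ T, w T ∈ homogeneousSubmodule (Fin n) K e := fun T => (hw.2 T).1
    have key : ∀ x : MvPolynomial (Fin n) K, x.IsHomogeneous (e + 1) → (x ∈ I ↔
        ∀ y : MvPolynomial (Fin n) K, y.IsHomogeneous d → Λ (x * y) = 0) := by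
      intro x hx
      have h1 := hG (e + 1) (by omega) x hx
      rw [show s - (e + 1) = d by omega] at h1
      exact h1
    constructor
    · intro h u hu
      rw [h0, du_pair_apply]
      refine Finset.sum_eq_zero fun T _ => ?_
      rw [du_sign_eq_zero, mul_comm]
      exact (key _ (h.2 Tᶜ).2).1 (h.2 Tᶜ).1 _ (hu.2 T)
    · intro h
      refine ⟨hw, fun T => ?_⟩
      by_cases hT : T.card = q
      · refine ⟨(key _ (kd_hom hwh T)).2 fun y hy => ?_, kd_hom hwh T⟩
        have hTc : (Tᶜ).card = p + 1 := by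
          rw [Finset.card_compl, Fintype.card_fin]
          omega
        have h1 := h _ (du_single_mem hTc hy)
        rw [h0, du_single_pair, compl_compl, du_sign_eq_zero, mul_comm] at h1
        exact h1
      · rw [kd_card hw.1 T hT]
        exact (piece I (e + 1)).zero_mem

end pairing

section forms

variable {K : Type*} [Field K] {n : ℕ}

/-- a regular sequence of `n` forms generates an `m`-primary ideal -/
theorem isMPrimary_of_isRegularSeq (a : Fin n → ℕ)
    (f : Fin n → MvPolynomial (Fin n) K) (hf : ∀ i, (f i).IsHomogeneous (a i))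
    (hreg : IsRegularSeq f) : IsMPrimary (Ideal.span (Set.range f)) := by
  refine ⟨∑ i, (a i - 1) + 1, fun d hd g hg => ?_⟩
  have h1 := hilb_span_regular le_rfl a f hf hreg d
  have h2 : outside (n := n) le_rfl a d = ∅ := by
    rw [Set.eq_empty_iff_forall_notMem]
    rintro m ⟨h2, h3⟩
    have h4 : ∑ i, m i ≤ ∑ i, (a i - 1) := by
      refine Finset.sum_le_sum fun i _ => ?_
      have h5 : m i < a i := h2 i
      omega
    omega
  rw [h2, Set.ncard_empty, hilb_eq_zero_iff] at h1
  exact h1 g hg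

/-- the dualizing functional of a complete intersection -/
theorem exists_duGor [Infinite K] (a : Fin n → ℕ) (hpos : ∀ i, 1 ≤ a i)
    (f : Fin n → MvPolynomial (Fin n) K) (hf : ∀ i, (f i).IsHomogeneous (a i))
    (hm : IsMPrimary (Ideal.span (Set.range f))) :
    ∃ Λ, DuGor (Ideal.span (Set.range f)) (∑ i, (a i - 1)) Λ := by
  have hs1 : hilb (Ideal.span (Set.range f)) (∑ i, (a i - 1)) = 1 := by
    rw [hilb_span_eq_card_boxD a hpos f hf hm, card_boxD_top a hpos]
  obtain ⟨Λ, hΛ⟩ := exists_functional hs1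
  refine ⟨Λ, fun D hD x hx => ?_⟩
  have hmul : ∀ y : MvPolynomial (Fin n) K, y.IsHomogeneous (∑ i, (a i - 1) - D) →
      (x * y).IsHomogeneous (∑ i, (a i - 1)) := by
    intro y hy
    have h1 := hx.mul hy
    rwa [show D + (∑ i, (a i - 1) - D) = ∑ i, (a i - 1) by omega] at h1
  constructor
  · intro hxI y hy
    exact (hΛ _ (hmul y hy)).2 (Ideal.mul_mem_right _ _ hxI)
  · intro h
    by_contra hxI
    obtain ⟨-, u, hu, hu2⟩ := exists_mul_notMem a hpos f hf hm hx hxI
    exact hu2 ((hΛ _ (hmul u hu)).1 (h u hu))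

/-! ### the monomial complete intersection -/

/-- the complementary exponent -/
noncomputable def du_cpl (a : Fin n → ℕ) (m : Fin n →₀ ℕ) : Fin n →₀ ℕ :=
  Finsupp.equivFunOnFinite.symm fun i => a i - 1 - m i

theorem du_cpl_apply (a : Fin n → ℕ) (m : Fin n →₀ ℕ) (i : Fin n) :
    du_cpl a m i = a i - 1 - m i := rfl

theorem du_cpl_cpl {a : Fin n → ℕ} {m : Fin n →₀ ℕ} (hm : ∀ i, m i < a i) :
    du_cpl a (du_cpl a m) = m := by
  ext i
  have := hm i
  rw [du_cpl_apply, du_cpl_apply]
  omega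

theorem du_sum_cpl {a : Fin n → ℕ} {m : Fin n →₀ ℕ} (hm : ∀ i, m i < a i) :
    ∑ i, m i + ∑ i, du_cpl a m i = ∑ i, (a i - 1) := by
  rw [← Finset.sum_add_distrib]
  refine Finset.sum_congr rfl fun i _ => ?_
  have := hm i
  rw [du_cpl_apply]
  omega

theorem du_cpl_mem {a : Fin n → ℕ} (hpos : ∀ i, 1 ≤ a i) {d e : ℕ}
    (hde : d + e = ∑ i, (a i - 1)) {m : Fin n →₀ ℕ} (hm : m ∈ outside (n := n) le_rfl a d) :
    du_cpl a m ∈ outside (n := n) le_rfl a e := by
  refine ⟨fun i => ?_, ?_⟩
  · show du_cpl a m i < a i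
    have := hpos i
    rw [du_cpl_apply]
    omega
  · have h1 := du_sum_cpl (m := m) (fun i => hm.1 i)
    have h2 := hm.2
    omega

/-- the top exponent -/
noncomputable def du_top (a : Fin n → ℕ) : Fin n →₀ ℕ :=
  Finsupp.equivFunOnFinite.symm fun i => a i - 1

theorem du_add_cpl {a : Fin n → ℕ} {m : Fin n →₀ ℕ} (hm : ∀ i, m i < a i) :
    m + du_cpl a m = du_top a := by
  ext i
  have := hm i
  rw [Finsupp.add_apply, du_cpl_apply]
  show _ = a i - 1
  omega

/-- the dualizing functional: the coefficient of the top monomial -/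
noncomputable def du_coeff (K : Type*) [Field K] {n : ℕ} (a : Fin n → ℕ) :
    MvPolynomial (Fin n) K →ₗ[K] K := MvPolynomial.lcoeff K (du_top a)

theorem du_coeff_mul_cpl {a : Fin n → ℕ} {m : Fin n →₀ ℕ} (hm : ∀ i, m i < a i)
    (x : MvPolynomial (Fin n) K) :
    du_coeff K a (x * monomial (du_cpl a m) 1) = coeff m x := by
  show coeff (du_top a) (x * monomial (du_cpl a m) 1) = coeff m x
  rw [← du_add_cpl hm, coeff_mul_monomial, mul_one]

theorem du_coeff_monomial_mul {a : Fin n → ℕ} (hpos : ∀ i, 1 ≤ a i) {m : Fin n →₀ ℕ}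
    (x : MvPolynomial (Fin n) K) :
    du_coeff K a (monomial m 1 * x) =
      if ∀ i, m i < a i then coeff (du_cpl a m) x else 0 := by
  classical
  show coeff (du_top a) (monomial m 1 * x) = _
  rw [coeff_monomial_mul', one_mul]
  have h1 : m ≤ du_top a ↔ ∀ i, m i < a i := by
    rw [Finsupp.le_def]
    refine forall_congr' fun i => ?_
    have := hpos i
    show m i ≤ a i - 1 ↔ _
    omega
  by_cases h : ∀ i, m i < a i
  · rw [if_pos (h1.2 h), if_pos h]
    congr 1
    ext i
    rw [Finsupp.tsub_apply, du_cpl_apply]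
    rfl
  · rw [if_neg (fun h' => h (h1.1 h')), if_neg h]

theorem du_coeff_mem {a : Fin n → ℕ} (hpos : ∀ i, 1 ≤ a i) {x : MvPolynomial (Fin n) K}
    (hx : x ∈ powerIdeal K (n := n) le_rfl a) : du_coeff K a x = 0 := by
  rw [mem_powerIdeal_iff] at hx
  show coeff (du_top a) x = 0
  by_contra h
  obtain ⟨i, hi⟩ := hx _ (mem_support_iff.2 h)
  have h1 := hpos i
  have h2 : a i ≤ a i - 1 := hi
  omega

theorem duGor_powerIdeal (a : Fin n → ℕ) (hpos : ∀ i, 1 ≤ a i) :
    DuGor (powerIdeal K (n := n) le_rfl a) (∑ i, (a i - 1)) (du_coeff K a) := by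
  intro D hD x hx
  constructor
  · intro hxI y _
    exact du_coeff_mem hpos (Ideal.mul_mem_right _ _ hxI)
  · intro h
    rw [mem_powerIdeal_iff]
    intro m hm
    by_contra hcon
    push Not at hcon
    have hm' : ∀ i, m i < a i := fun i => hcon i
    have h1 := h (monomial (du_cpl a m) 1) (by
      rw [isHomogeneous_iff_support]
      intro m' hm''
      have h2 : m' = du_cpl a m := by
        have h3 := support_monomial_subset hm''
        rwa [Finset.mem_singleton] at h3
      rw [h2]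
      have h3 := du_sum_cpl hm'
      have h4 := isHomogeneous_iff_support.1 hx m hm
      omega)
    rw [du_coeff_mul_cpl hm'] at h1
    exact (mem_support_iff.1 hm) h1

end forms

section lex

variable {K : Type*} [Field K] {n : ℕ}

theorem lexGT_irr (m : Fin n →₀ ℕ) : ¬ lexGT m m := by
  rintro ⟨i, hi, -⟩
  exact lt_irrefl _ hi

/-- larger and smaller exponents -/
theorem du_ncard_split (a : Fin n → ℕ) {D : ℕ} {m : Fin n →₀ ℕ}
    (hm : m ∈ outside (n := n) le_rfl a D) :
    {m' | m' ∈ outside (n := n) le_rfl a D ∧ lexGT m' m}.ncard +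
      {m' | m' ∈ outside (n := n) le_rfl a D ∧ lexGT m m'}.ncard + 1 =
      (outside (n := n) le_rfl a D).ncard := by
  have hfin := outside_finite (n := n) le_rfl a D
  have h1 : {m' | m' ∈ outside (n := n) le_rfl a D ∧ lexGT m' m}.Finite :=
    hfin.subset fun _ h => h.1
  have h2 : {m' | m' ∈ outside (n := n) le_rfl a D ∧ lexGT m m'}.Finite :=
    hfin.subset fun _ h => h.1
  rw [← Set.ncard_union_eq _ h1 h2, ← Set.ncard_insert_of_notMem _ (h1.union h2)]
  · congr 1
    ext x
    constructor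
    · rintro (rfl | h | h)
      · exact hm
      · exact h.1
      · exact h.1
    · intro hx
      by_cases hxm : x = m
      · exact Or.inl hxm
      · rcases lexGT_total hxm with h | h
        · exact Or.inr (Or.inl ⟨hx, h⟩)
        · exact Or.inr (Or.inr ⟨hx, h⟩)
  · rintro (h | h)
    · exact lexGT_irr m h.2
    · exact lexGT_irr m h.2
  · rw [Set.disjoint_left]
    rintro x h h'
    exact lexGT_irr x (lexGT_tr h.2 h'.2)

theorem du_lexGT_cpl {a : Fin n → ℕ} {m m' : Fin n →₀ ℕ} (hm : ∀ i, m i < a i)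
    (h : lexGT m m') : lexGT (du_cpl a m') (du_cpl a m) := by
  obtain ⟨i, hi, hi'⟩ := h
  refine ⟨i, ?_, fun j hj => ?_⟩
  · have := hm i
    rw [du_cpl_apply, du_cpl_apply]
    omega
  · rw [du_cpl_apply, du_cpl_apply, hi' j hj]

theorem du_cpl_injOn (a : Fin n → ℕ) (D : ℕ) :
    Set.InjOn (du_cpl a) (outside (n := n) le_rfl a D) := by
  intro x hx y hy h
  rw [← du_cpl_cpl (a := a) (m := x) fun i => hx.1 i, h, du_cpl_cpl fun i => hy.1 i]

/-- the complement reverses the order -/
theorem du_ncard_cpl {a : Fin n → ℕ} (hpos : ∀ i, 1 ≤ a i) {D e : ℕ}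
    (hDe : D + e = ∑ i, (a i - 1)) {m : Fin n →₀ ℕ} (hm : m ∈ outside (n := n) le_rfl a D) :
    {m' | m' ∈ outside (n := n) le_rfl a e ∧ lexGT m' (du_cpl a m)}.ncard =
      {m' | m' ∈ outside (n := n) le_rfl a D ∧ lexGT m m'}.ncard := by
  have h1 : {m' | m' ∈ outside (n := n) le_rfl a e ∧ lexGT m' (du_cpl a m)} =
      du_cpl a '' {m' | m' ∈ outside (n := n) le_rfl a D ∧ lexGT m m'} := by
    ext x
    constructor
    · rintro ⟨hx, hx'⟩
      refine ⟨du_cpl a x, ⟨du_cpl_mem hpos ((add_comm e D).trans hDe) hx, ?_⟩,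
        du_cpl_cpl fun i => hx.1 i⟩
      have h2 := du_lexGT_cpl (a := a) (fun i => hx.1 i) hx'
      rwa [du_cpl_cpl (a := a) (m := m) fun i => hm.1 i] at h2
    · rintro ⟨y, ⟨hy, hy'⟩, rfl⟩
      exact ⟨du_cpl_mem hpos hDe hy, du_lexGT_cpl (fun i => hm.1 i) hy'⟩
  rw [h1, Set.InjOn.ncard_image]
  exact (du_cpl_injOn a D).mono fun _ h => h.1

theorem du_ncard_outside {a : Fin n → ℕ} (hpos : ∀ i, 1 ≤ a i) {D e : ℕ}
    (hDe : D + e = ∑ i, (a i - 1)) :
    (outside (n := n) le_rfl a e).ncard = (outside (n := n) le_rfl a D).ncard := by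
  have h1 : outside (n := n) le_rfl a e = du_cpl a '' outside (n := n) le_rfl a D := by
    ext x
    constructor
    · intro hx
      exact ⟨du_cpl a x, du_cpl_mem hpos ((add_comm e D).trans hDe) hx,
        du_cpl_cpl fun i => hx.1 i⟩
    · rintro ⟨y, hy, rfl⟩
      exact du_cpl_mem hpos hDe hy
  rw [h1, Set.InjOn.ncard_image (du_cpl_injOn a D)]

/-- the number of exponents larger than the complement -/
theorem du_larger_cpl {a : Fin n → ℕ} (hpos : ∀ i, 1 ≤ a i) {D e : ℕ}
    (hDe : D + e = ∑ i, (a i - 1)) {m : Fin n →₀ ℕ} (hm : m ∈ outside (n := n) le_rfl a D) :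
    {m' | m' ∈ outside (n := n) le_rfl a D ∧ lexGT m' m}.ncard +
      {m' | m' ∈ outside (n := n) le_rfl a e ∧ lexGT m' (du_cpl a m)}.ncard + 1 =
      (outside (n := n) le_rfl a D).ncard := by
  rw [du_ncard_cpl hpos hDe hm]
  exact du_ncard_split a hm

/-- the orthogonal space of a space of monomials -/
theorem mem_duPerp_restrict {a : Fin n → ℕ} (hpos : ∀ i, 1 ≤ a i) {A : Set (Fin n →₀ ℕ)}
    {e : ℕ} {g : MvPolynomial (Fin n) K} :
    g ∈ duPerp (du_coeff K a) (restrictSupport K A) e ↔
      g ∈ homogeneousSubmodule (Fin n) K e ∧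
        ∀ m ∈ A, (∀ i, m i < a i) → coeff (du_cpl a m) g = 0 := by
  rw [mem_duPerp]
  refine and_congr_right fun _ => ?_
  constructor
  · intro h m hm hm'
    have h1 : (monomial m (1 : K)) ∈ restrictSupport K A := by
      rw [restrictSupport_eq_span]
      exact Submodule.subset_span ⟨m, hm, rfl⟩
    have h2 := h _ h1
    rw [du_coeff_monomial_mul hpos, if_pos hm'] at h2
    exact h2
  · intro h v hv
    rw [restrictSupport_eq_span] at hv
    refine Submodule.span_induction (p := fun v _ => du_coeff K a (v * g) = 0) ?_ ?_ ?_ ?_ hv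
    · rintro _ ⟨m, hm, rfl⟩
      show du_coeff K a (monomial m 1 * g) = 0
      rw [du_coeff_monomial_mul hpos]
      split_ifs with h'
      · exact h m hm h'
      · rfl
    · rw [zero_mul, map_zero]
    · intro x y _ _ hx hy
      rw [add_mul, map_add, hx, hy, add_zero]
    · intro k x _ hx
      rw [smul_mul_assoc, map_smul, hx, smul_zero]

theorem duPerp_lexSet {a : Fin n → ℕ} (hpos : ∀ i, 1 ≤ a i) {D e : ℕ}
    (hDe : D + e = ∑ i, (a i - 1)) (q : ℕ) :
    duPerp (du_coeff K a) (restrictSupport K (lexSet (n := n) le_rfl a D q)) e =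
      restrictSupport K (lexSet (n := n) le_rfl a e
        ((outside (n := n) le_rfl a D).ncard - q)) := by
  ext g
  rw [mem_duPerp_restrict hpos, MvPolynomial.mem_restrictSupport_iff]
  constructor
  · rintro ⟨h1, h2⟩ m' hm'
    have hdeg : ∑ i, m' i = e := isHomogeneous_iff_support.1 h1 m' hm'
    by_cases hin : ∃ i, a i ≤ m' i
    · exact Or.inl ⟨hin, hdeg⟩
    · push Not at hin
      have ho : m' ∈ outside (n := n) le_rfl a e := ⟨fun i => hin i, hdeg⟩
      refine Or.inr ⟨ho, ?_⟩
      by_contra hcon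
      rw [not_lt] at hcon
      have hmo := du_cpl_mem hpos ((add_comm e D).trans hDe) ho
      have h3 := du_larger_cpl hpos ((add_comm e D).trans hDe) ho
      have h4 := h2 (du_cpl a m') (Or.inr ⟨hmo, by
        rw [du_ncard_outside hpos hDe] at h3
        omega⟩) (fun i => hmo.1 i)
      rw [du_cpl_cpl hin] at h4
      exact (mem_support_iff.1 hm') h4
  · intro h
    refine ⟨isHomogeneous_iff_support.2 fun m hm => mem_lexSet_degree le_rfl a (h hm), ?_⟩
    intro m hm hm'
    by_contra hcon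
    have h3 := h (mem_support_iff.2 hcon)
    have hmo : m ∈ outside (n := n) le_rfl a D := by
      rcases hm with hm | hm
      · obtain ⟨⟨i, hi⟩, -⟩ := hm
        exact absurd (hm' i) (not_lt.2 hi)
      · exact hm.1
    have hmq : {m' | m' ∈ outside (n := n) le_rfl a D ∧ lexGT m' m}.ncard < q := by
      rcases hm with hm | hm
      · obtain ⟨⟨i, hi⟩, -⟩ := hm
        exact absurd (hm' i) (not_lt.2 hi)
      · exact hm.2
    have hco := du_cpl_mem hpos hDe hmo
    have h4 := du_larger_cpl hpos hDe hmo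
    rcases h3 with h3 | h3
    · obtain ⟨⟨i, hi⟩, -⟩ := h3
      exact absurd (hco.1 i) (not_lt.2 hi)
    · have h5 := h3.2
      omega

end lex

/-- the cycle inequality in one degree -/
def ZAt (K : Type*) [Field K] {n c : ℕ} (h : c ≤ n) (a : Fin c → ℕ) (p d : ℕ)
    (f : Fin c → MvPolynomial (Fin n) K) : Prop :=
  ∀ V : Submodule K (MvPolynomial (Fin n) K),
    piece (Ideal.span (Set.range f)) (d + 1) ≤ V → V ≤ homogeneousSubmodule (Fin n) K (d + 1) →
    finrank K (rc X V (homogeneousSubmodule (Fin n) K d) p) ≤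
      finrank K (rc X (lx K h a (d + 1) (finrank K V)) (homogeneousSubmodule (Fin n) K d) p)

/-- the inequality for cycles modulo the forms in one degree -/
def RAt (K : Type*) [Field K] {n c : ℕ} (h : c ≤ n) (a : Fin c → ℕ) (p e : ℕ)
    (f : Fin c → MvPolynomial (Fin n) K) : Prop :=
  ∀ V : Submodule K (MvPolynomial (Fin n) K),
    piece (Ideal.span (Set.range f)) e ≤ V → V ≤ homogeneousSubmodule (Fin n) K e →
    finrank K (rc X (piece (Ideal.span (Set.range f)) (e + 1)) V p) ≤
      finrank K (rc X (restrictSupport K (insideP h a (e + 1))) (lx K h a e (finrank K V)) p)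

theorem zle_iff_zAt {K : Type*} [Field K] {n c : ℕ} (h : c ≤ n) (a : Fin c → ℕ) (p : ℕ)
    (f : Fin c → MvPolynomial (Fin n) K) : ZLE K h a p f ↔ ∀ d, ZAt K h a p d f := Iff.rfl

theorem rle_iff_rAt {K : Type*} [Field K] {n c : ℕ} (h : c ≤ n) (a : Fin c → ℕ) (p : ℕ)
    (f : Fin c → MvPolynomial (Fin n) K) : RLE K h a p f ↔ ∀ e, RAt K h a p e f := Iff.rfl

section main

variable {K : Type*} [Field K] {n : ℕ}

theorem piece_powerIdeal (a : Fin n → ℕ) (d : ℕ) :
    piece (powerIdeal K (n := n) le_rfl a) d =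
      restrictSupport K (insideP (n := n) le_rfl a d) := degPart_powerIdeal le_rfl a d

theorem insideP_le_lx (a : Fin n → ℕ) (D v : ℕ) :
    restrictSupport K (insideP (n := n) le_rfl a D) ≤ lx K (n := n) le_rfl a D v :=
  restrictSupport_mono K fun _ h => Or.inl h

/-- the orthogonal space of a lex-plus-powers space -/
theorem duPerp_lx {a : Fin n → ℕ} (hpos : ∀ i, 1 ≤ a i) {D e v w : ℕ}
    (hDe : D + e = ∑ i, (a i - 1))
    (hv : (insideP (n := n) le_rfl a D).ncard ≤ v)
    (hv' : v ≤ finrank K (homogeneousSubmodule (Fin n) K D))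
    (hw : v + w = finrank K (homogeneousSubmodule (Fin n) K e) +
      (insideP (n := n) le_rfl a D).ncard) :
    duPerp (du_coeff K a) (lx K (n := n) le_rfl a D v) e = lx K (n := n) le_rfl a e w := by
  rw [lx, lx, duPerp_lexSet hpos hDe]
  congr 2
  have h1 := finrank_homogeneous_eq (K := K) (n := n) le_rfl a D
  have h2 := finrank_homogeneous_eq (K := K) (n := n) le_rfl a e
  have h3 := du_ncard_outside hpos hDe
  rw [degPart_powerIdeal, finrank_restrictSupport _ ((finite_degree_eq _).subset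
    fun _ hm => hm.2)] at h1 h2
  omega

/-- **Duality of the cycle inequalities.** -/
theorem du_iff (a : Fin n → ℕ) (hpos : ∀ i, 1 ≤ a i)
    (f : Fin n → MvPolynomial (Fin n) K) (hf : ∀ i, (f i).IsHomogeneous (a i))
    (hreg : IsRegularSeq f) {Λ : MvPolynomial (Fin n) K →ₗ[K] K}
    (hG : DuGor (Ideal.span (Set.range f)) (∑ i, (a i - 1)) Λ) {d e p q : ℕ}
    (hde : d + 1 + e = ∑ i, (a i - 1)) (hpq : p + 1 + q = n)
    {V : Submodule K (MvPolynomial (Fin n) K)}
    (hV1 : piece (Ideal.span (Set.range f)) (d + 1) ≤ V)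
    (hV : V ≤ homogeneousSubmodule (Fin n) K (d + 1)) :
    finrank K (rc X V (homogeneousSubmodule (Fin n) K d) (p + 1)) ≤
      finrank K (rc X (lx K (n := n) le_rfl a (d + 1) (finrank K V))
        (homogeneousSubmodule (Fin n) K d) (p + 1)) ↔
    finrank K (rc X (piece (Ideal.span (Set.range f)) (e + 1)) (duPerp Λ V e) (q + 1)) ≤
      finrank K (rc X (restrictSupport K (insideP (n := n) le_rfl a (e + 1)))
        (lx K (n := n) le_rfl a e (finrank K (duPerp Λ V e))) (q + 1)) := by
  have hfin : Module.Finite K V := Submodule.finiteDimensional_of_le hV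
  have h1 := du_cycles hG hde hV1 hV hpq
  have h2 := finrank_duPerp hG hde hV1 hV
  have hin := ncard_insideP_le (n := n) le_rfl a hpos f hf hreg (d + 1)
  have hvl : (insideP (n := n) le_rfl a (d + 1)).ncard ≤ finrank K V := by
    rw [hin]
    exact Submodule.finrank_mono hV1
  have hvu : finrank K V ≤ finrank K (homogeneousSubmodule (Fin n) K (d + 1)) :=
    Submodule.finrank_mono hV
  rw [← hin] at h2
  have h3 : duPerp (du_coeff K a) (lx K (n := n) le_rfl a (d + 1) (finrank K V)) e =
      lx K (n := n) le_rfl a e (finrank K (duPerp Λ V e)) := duPerp_lx hpos hde hvl hvu h2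
  have h4 := du_cycles (duGor_powerIdeal (K := K) a hpos) hde (p := p) (q := q)
    (V := lx K (n := n) le_rfl a (d + 1) (finrank K V)) (by
      rw [piece_powerIdeal]
      exact insideP_le_lx a (d + 1) _) (lx_le le_rfl a (d + 1) _) hpq
  have h5 : finrank K (lx K (n := n) le_rfl a e (finrank K (duPerp Λ V e))) =
      finrank K (duPerp Λ V e) := by
    apply finrank_lx
    · rw [ncard_insideP_le (n := n) le_rfl a hpos f hf hreg e]
      have h6 : Module.Finite K (duPerp Λ V e) :=
        Submodule.finiteDimensional_of_le (duPerp_le _ _ _)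
      exact Submodule.finrank_mono (piece_le_duPerp hG hde hV)
    · exact Submodule.finrank_mono (duPerp_le _ _ _)
  rw [h3, h5, piece_powerIdeal] at h4
  omega

/-- **Duality of the cycle inequalities**, for the functional given -/
theorem zAt_iff_rAt_aux (a : Fin n → ℕ) (hpos : ∀ i, 1 ≤ a i)
    (f : Fin n → MvPolynomial (Fin n) K) (hf : ∀ i, (f i).IsHomogeneous (a i))
    (hreg : IsRegularSeq f) {Λ : MvPolynomial (Fin n) K →ₗ[K] K}
    (hG : DuGor (Ideal.span (Set.range f)) (∑ i, (a i - 1)) Λ) {d e p q : ℕ}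
    (hde : d + 1 + e = ∑ i, (a i - 1)) (hpq : p + 1 + q = n) :
    ZAt K (n := n) le_rfl a (p + 1) d f ↔ RAt K (n := n) le_rfl a (q + 1) e f := by
  constructor
  · intro H U hU1 hU2
    have hed : e + (d + 1) = ∑ i, (a i - 1) := by omega
    have h1 := (du_iff a hpos f hf hreg hG hde hpq (piece_le_duPerp hG hed hU2)
      (duPerp_le Λ U (d + 1))).1 (H (duPerp Λ U (d + 1)) (piece_le_duPerp hG hed hU2)
      (duPerp_le Λ U (d + 1)))
    rw [duPerp_duPerp hG hed hU1 hU2] at h1
    exact h1
  · intro H V hV1 hV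
    exact (du_iff a hpos f hf hreg hG hde hpq hV1 hV).2
      (H (duPerp Λ V e) (piece_le_duPerp hG hde hV) (duPerp_le Λ V e))

/-- **Duality**: the cycle inequality in degree `d` for `p`-cycles over `V` and the inequality
for `(n + 1 - p)`-cycles modulo the forms in degree `s - (d + 1)` are equivalent. -/
theorem zAt_iff_rAt [Infinite K] (a : Fin n → ℕ) (hpos : ∀ i, 1 ≤ a i)
    (f : Fin n → MvPolynomial (Fin n) K) (hf : ∀ i, (f i).IsHomogeneous (a i))
    (hreg : IsRegularSeq f) {p d : ℕ} (hp1 : 1 ≤ p) (hpn : p ≤ n)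
    (hd : d + 1 ≤ ∑ i, (a i - 1)) :
    ZAt K (n := n) le_rfl a p d f ↔
      RAt K (n := n) le_rfl a (n + 1 - p) (∑ i, (a i - 1) - (d + 1)) f := by
  obtain ⟨Λ, hG⟩ := exists_duGor a hpos f hf (isMPrimary_of_isRegularSeq a f hf hreg)
  obtain ⟨p, rfl⟩ : ∃ p', p = p' + 1 := ⟨p - 1, by omega⟩
  obtain ⟨q, hq⟩ : ∃ q, p + 1 + q = n := ⟨n - (p + 1), by omega⟩
  rw [show n + 1 - (p + 1) = q + 1 by omega]
  exact zAt_iff_rAt_aux a hpos f hf hreg hG (by omega) hq

/-- beyond the socle degree everything is in the ideal -/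
theorem piece_eq_top (a : Fin n → ℕ) (f : Fin n → MvPolynomial (Fin n) K)
    (hf : ∀ i, (f i).IsHomogeneous (a i)) (hreg : IsRegularSeq f) {D : ℕ}
    (hD : ∑ i, (a i - 1) < D) :
    piece (Ideal.span (Set.range f)) D = homogeneousSubmodule (Fin n) K D := by
  refine le_antisymm (G.piece_le _ D) fun g hg => ⟨?_, hg⟩
  have h1 := hilb_span_regular le_rfl a f hf hreg D
  have h2 : outside (n := n) le_rfl a D = ∅ := by
    rw [Set.eq_empty_iff_forall_notMem]
    rintro m ⟨h2, h3⟩
    have h4 : ∑ i, m i ≤ ∑ i, (a i - 1) := by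
      refine Finset.sum_le_sum fun i _ => ?_
      have h5 : m i < a i := h2 i
      omega
    omega
  rw [h2, Set.ncard_empty, hilb_eq_zero_iff] at h1
  exact h1 g hg

theorem insideP_eq_top (a : Fin n → ℕ) {D : ℕ} (hD : ∑ i, (a i - 1) < D) :
    restrictSupport K (insideP (n := n) le_rfl a D) = homogeneousSubmodule (Fin n) K D := by
  rw [homogeneousSubmodule_eq_restrict]
  congr 1
  ext m
  constructor
  · intro hm
    exact hm.2
  · intro hm
    refine ⟨?_, hm⟩
    by_contra hcon
    push Not at hcon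
    have h4 : ∑ i, m i ≤ ∑ i, (a i - 1) := by
      refine Finset.sum_le_sum fun i _ => ?_
      have h5 : m i < a i := hcon i
      omega
    have h5 : ∑ i, m i = D := hm
    omega

theorem zAt_of_lt (a : Fin n → ℕ) (f : Fin n → MvPolynomial (Fin n) K)
    (hf : ∀ i, (f i).IsHomogeneous (a i)) (hreg : IsRegularSeq f) {p d : ℕ}
    (hd : ∑ i, (a i - 1) < d + 1) : ZAt K (n := n) le_rfl a p d f := by
  intro V hV1 hV
  rw [piece_eq_top a f hf hreg hd] at hV1
  have h1 : V = homogeneousSubmodule (Fin n) K (d + 1) := le_antisymm hV hV1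
  have h2 : lx K (n := n) le_rfl a (d + 1) (finrank K V) =
      homogeneousSubmodule (Fin n) K (d + 1) := by
    refine le_antisymm (lx_le _ _ _ _) ?_
    rw [← insideP_eq_top (K := K) a hd]
    exact insideP_le_lx a (d + 1) _
  rw [h2, h1]

/-- cycles modulo everything -/
theorem rc_top_hom {W : Submodule K (MvPolynomial (Fin n) K)} {e : ℕ}
    (hW : W ≤ homogeneousSubmodule (Fin n) K e) (p : ℕ) :
    rc X (homogeneousSubmodule (Fin n) K (e + 1)) W p = chW n p W :=
  le_antisymm (fun _ h => h.1) fun _ h => ⟨h, fun t => kd_hom (fun s => hW (h.2 s)) t⟩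

theorem rAt_of_le (a : Fin n → ℕ) (hpos : ∀ i, 1 ≤ a i) (f : Fin n → MvPolynomial (Fin n) K)
    (hf : ∀ i, (f i).IsHomogeneous (a i)) (hreg : IsRegularSeq f) {p e : ℕ}
    (he : ∑ i, (a i - 1) ≤ e) : RAt K (n := n) le_rfl a p e f := by
  intro V hV1 hV
  have hfin : Module.Finite K V := Submodule.finiteDimensional_of_le hV
  have hfin' : Module.Finite K (lx K (n := n) le_rfl a e (finrank K V)) :=
    Submodule.finiteDimensional_of_le (lx_le _ _ _ _)
  rw [piece_eq_top a f hf hreg (Nat.lt_succ_of_le he),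
    insideP_eq_top (K := K) a (Nat.lt_succ_of_le he), rc_top_hom hV, rc_top_hom (lx_le _ _ _ _),
    finrank_chW, finrank_chW]
  rw [finrank_lx]
  · rw [ncard_insideP_le (n := n) le_rfl a hpos f hf hreg e]
    exact Submodule.finrank_mono hV1
  · exact Submodule.finrank_mono hV

theorem rle_of_lt {c : ℕ} (h : c ≤ n) (a : Fin c → ℕ) (f : Fin c → MvPolynomial (Fin n) K)
    {p : ℕ} (hp : n < p) : RLE K h a p f := by
  intro e V _ hV
  have hfin : Module.Finite K V := Submodule.finiteDimensional_of_le hV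
  have h1 := finrank_rc_le (X : Fin n → MvPolynomial (Fin n) K)
    (piece (Ideal.span (Set.range f)) (e + 1)) V p
  rw [Nat.choose_eq_zero_of_lt hp, zero_mul] at h1
  exact h1.trans (Nat.zero_le _)

/-- **Duality**: all cycle inequalities imply all inequalities for cycles modulo the forms. -/
theorem rle_of_zle [Infinite K] (a : Fin n → ℕ) (hpos : ∀ i, 1 ≤ a i)
    (f : Fin n → MvPolynomial (Fin n) K) (hf : ∀ i, (f i).IsHomogeneous (a i))
    (hreg : IsRegularSeq f) (H : ∀ p, ZLE K (n := n) le_rfl a p f) (p : ℕ) :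
    RLE K (n := n) le_rfl a p f := by
  rcases Nat.eq_zero_or_pos p with rfl | hp
  · exact rle_zero le_rfl a hpos f hf hreg
  rcases lt_or_ge n p with hpn | hpn
  · exact rle_of_lt le_rfl a f hpn
  rw [rle_iff_rAt]
  intro e
  rcases le_or_gt (∑ i, (a i - 1)) e with he | he
  · exact rAt_of_le a hpos f hf hreg he
  · have h1 := (zAt_iff_rAt a hpos f hf hreg (p := n + 1 - p) (d := ∑ i, (a i - 1) - e - 1)
      (by omega) (by omega) (by omega)).1 (H _ _)
    rw [show n + 1 - (n + 1 - p) = p by omega,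
      show ∑ i, (a i - 1) - (∑ i, (a i - 1) - e - 1 + 1) = e by omega] at h1
    exact h1

/-- **Duality**, converse. -/
theorem zle_of_rle [Infinite K] (a : Fin n → ℕ) (hpos : ∀ i, 1 ≤ a i)
    (f : Fin n → MvPolynomial (Fin n) K) (hf : ∀ i, (f i).IsHomogeneous (a i))
    (hreg : IsRegularSeq f) (H : ∀ p, RLE K (n := n) le_rfl a p f) (p : ℕ) :
    ZLE K (n := n) le_rfl a p f := by
  rcases Nat.eq_zero_or_pos p with rfl | hp
  · exact zle_zero le_rfl a f
  rcases lt_or_ge n p with hpn | hpn
  · exact zle_of_lt le_rfl a f hpn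
  rw [zle_iff_zAt]
  intro d
  rcases lt_or_ge (∑ i, (a i - 1)) (d + 1) with hd | hd
  · exact zAt_of_lt a f hf hreg hd
  · exact (zAt_iff_rAt a hpos f hf hreg hp hpn hd).2 (H _ _)

end main

end Vale.Agent.P200.L
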