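import Vale.Agent.P200.L.Coord
import Vale.Agent.P200.L.Dist

/-! A general linear form. -/

namespace Vale.Agent.P200.L

open MvPolynomial Module
open Vale.Agent.P200.B Vale.Agent.P200.G

variable {K : Type*} [Field K] {n c : ℕ}

/-- substitute a linear form for the last variable -/
noncomputable def rho (cc : Fin n → K) :
    MvPolynomial (Fin (n + 1)) K →ₐ[K] MvPolynomial (Fin n) K :=
  aeval (Fin.snoc (α := fun _ => MvPolynomial (Fin n) K) X (∑ j, MvPolynomial.C (cc j) * X j))

theorem gen_rho_castSucc (cc : Fin n → K) (j : Fin n) : rho cc (X j.castSucc) = X j := by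
  rw [rho, aeval_X]
  exact Fin.snoc_castSucc (α := fun _ => MvPolynomial (Fin n) K) _ _ _

theorem gen_rho_last (cc : Fin n → K) :
    rho cc (X (Fin.last n)) = ∑ j, MvPolynomial.C (cc j) * X j := by
  rw [rho, aeval_X]
  exact Fin.snoc_last (α := fun _ => MvPolynomial (Fin n) K) _ _

theorem gen_lin_isHomogeneous (cc : Fin n → K) :
    (∑ j, MvPolynomial.C (cc j) * X j : MvPolynomial (Fin n) K).IsHomogeneous 1 := by
  refine IsHomogeneous.sum _ _ _ fun j _ => ?_
  have h := (isHomogeneous_C (Fin n) (cc j)).mul (isHomogeneous_X K j)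
  rwa [zero_add] at h

theorem rho_isHomogeneous (cc : Fin n → K) {d : ℕ} {f : MvPolynomial (Fin (n + 1)) K}
    (hf : f.IsHomogeneous d) : (rho cc f).IsHomogeneous d := by
  have h2 := hf.aeval (Fin.snoc (α := fun _ => MvPolynomial (Fin n) K) X
    (∑ j, MvPolynomial.C (cc j) * X j)) (n := 1) (fun i => by
      refine Fin.lastCases ?_ (fun j => ?_) i
      · rw [Fin.snoc_last]
        exact gen_lin_isHomogeneous cc
      · rw [Fin.snoc_castSucc]
        exact isHomogeneous_X K j)
  rwa [one_mul] at h2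

/-- the linear form `X_n - ∑ c_j X_j` -/
noncomputable def gen_l (cc : Fin n → K) : MvPolynomial (Fin (n + 1)) K :=
  X (Fin.last n) - rename Fin.castSucc (∑ j, MvPolynomial.C (cc j) * X j)

theorem gen_rho_rename (cc : Fin n → K) (g : MvPolynomial (Fin n) K) :
    rho cc (rename Fin.castSucc g) = g := by
  rw [rho, aeval_rename]
  have h2 : (Fin.snoc (α := fun _ => MvPolynomial (Fin n) K) X
      (∑ j, MvPolynomial.C (cc j) * X j)) ∘ Fin.castSucc = X := by
    funext j
    exact Fin.snoc_castSucc (α := fun _ => MvPolynomial (Fin n) K) _ _ _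
  rw [h2, aeval_X_left, AlgHom.id_apply]

theorem gen_rho_eliminates (cc : Fin n → K) : Eliminates (rho cc) (gen_l cc) := by
  refine ⟨fun g => ⟨rename Fin.castSucc g, gen_rho_rename cc g⟩,
    fun d f hf => rho_isHomogeneous cc hf, ?_⟩
  apply le_antisymm
  · intro g hg
    rw [RingHom.mem_ker] at hg
    have key : ((Ideal.Quotient.mkₐ K (Ideal.span {gen_l cc})).comp
        ((rename Fin.castSucc : MvPolynomial (Fin n) K →ₐ[K] MvPolynomial (Fin (n + 1)) K).comp
          (rho cc))) = Ideal.Quotient.mkₐ K (Ideal.span {gen_l cc}) := by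
      apply MvPolynomial.algHom_ext
      intro i
      change Ideal.Quotient.mk (Ideal.span {gen_l cc}) (rename Fin.castSucc (rho cc (X i))) =
        Ideal.Quotient.mk (Ideal.span {gen_l cc}) (X i)
      rw [Ideal.Quotient.eq]
      refine Fin.lastCases ?_ (fun j => ?_) i
      · rw [gen_rho_last]
        have h4 : rename Fin.castSucc (∑ j, MvPolynomial.C (cc j) * X j) - X (Fin.last n) =
            - gen_l cc := by
          rw [gen_l]
          ring
        rw [h4]
        exact neg_mem (Ideal.mem_span_singleton_self _)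
      · rw [gen_rho_castSucc, rename_X, sub_self]
        exact Ideal.zero_mem _
    have h6 := DFunLike.congr_fun key g
    change Ideal.Quotient.mk (Ideal.span {gen_l cc}) (rename Fin.castSucc (rho cc g)) =
        Ideal.Quotient.mk (Ideal.span {gen_l cc}) g at h6
    have hg' : rho cc g = 0 := hg
    rw [hg', map_zero, map_zero] at h6
    exact Ideal.Quotient.eq_zero_iff_mem.1 h6.symm
  · rw [Ideal.span_singleton_le_iff_mem, RingHom.mem_ker]
    rw [gen_l, map_sub, gen_rho_last, gen_rho_rename, sub_self]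

/-- adding general linear forms -/
theorem gen_extend {N : ℕ} [Infinite K] (s : Set (MvPolynomial (Fin N) K)) (hs : s.Finite)
    {k : ℕ} (hk : s.ncard ≤ k)
    (hh : ∀ p : Ideal (MvPolynomial (Fin N) K), p.IsPrime → Ideal.span s ≤ p →
      (k : ℕ∞) ≤ p.height) (m : ℕ) (hm : k + m ≤ N) :
    ∃ l : Fin m → MvPolynomial (Fin N) K, (∀ i, (l i).IsHomogeneous 1) ∧
      ∀ p : Ideal (MvPolynomial (Fin N) K), p.IsPrime →
        Ideal.span (s ∪ Set.range l) ≤ p → ((k + m : ℕ) : ℕ∞) ≤ p.height := by
  induction m with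
  | zero =>
    refine ⟨fun i => i.elim0, fun i => i.elim0, fun p hp hle => ?_⟩
    exact hh p hp (le_trans (Ideal.span_mono Set.subset_union_left) hle)
  | succ m ih =>
    obtain ⟨l, hl, hh⟩ := ih (by omega)
    set J := Ideal.span (s ∪ Set.range l) with hJ
    have hfin : (s ∪ Set.range l).Finite := hs.union (Set.finite_range l)
    have hcard : (s ∪ Set.range l).ncard ≤ k + m :=
      (Set.ncard_union_le _ _).trans (add_le_add hk (ncard_range_le l))
    obtain ⟨g, hg, hg2⟩ := exists_linear_avoid J.minimalPrimes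
      J.finite_minimalPrimes_of_isNoetherianRing
      (fun p hp => hp.1.1.ne_top) (by
        intro p hp hpirr
        have h1 := height_le_of_minimal hfin hcard hp
        rw [hpirr, height_irr] at h1
        have h2 : N ≤ k + m := by exact_mod_cast h1
        omega)
    refine ⟨Fin.snoc l g, ?_, ?_⟩
    · intro i
      refine Fin.lastCases ?_ (fun j => ?_) i
      · rw [Fin.snoc_last]; exact hg
      · rw [Fin.snoc_castSucc]; exact hl j
    · intro p hp hle
      have hJp : J ≤ p := by
        refine le_trans (Ideal.span_mono ?_) hle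
        apply Set.union_subset_union_right
        rintro _ ⟨i, rfl⟩
        exact ⟨i.castSucc, Fin.snoc_castSucc (α := fun _ => MvPolynomial (Fin N) K) _ _ _⟩
      have hgp : g ∈ p := by
        apply hle
        apply Ideal.subset_span
        right
        exact ⟨Fin.last m, Fin.snoc_last (α := fun _ => MvPolynomial (Fin N) K) _ _⟩
      obtain ⟨q, hq, hqp⟩ := Ideal.exists_minimalPrimes_le hJp
      have hqprime : q.IsPrime := hq.1.1
      have hlt : q < p := by
        refine lt_of_le_of_ne hqp ?_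
        rintro rfl
        exact hg2 q hq hgp
      have h1 := hh q hqprime hq.1.2
      have h2 := Ideal.height_add_one_le_of_lt_of_isPrime hlt
      have h3 : ((k + (m + 1) : ℕ) : ℕ∞) = ((k + m : ℕ) : ℕ∞) + 1 := by push_cast; ring
      rw [h3]
      exact le_trans (add_le_add h1 le_rfl) h2

/-- a linear form with a nonzero last coefficient is a multiple of some `gen_l` -/
theorem gen_exists_cc {l : MvPolynomial (Fin (n + 1)) K} (hl : l.IsHomogeneous 1)
    (hl2 : l ∉ Ideal.span (Set.range fun j : Fin n => (X j.castSucc : MvPolynomial (Fin (n + 1)) K))) :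
    ∃ cc : Fin n → K, gen_l cc ∣ l := by
  have h1 : l ∈ Submodule.span K (Set.range (X : Fin (n + 1) → MvPolynomial (Fin (n + 1)) K)) := by
    rw [← homogeneousSubmodule_one_eq_span_X]
    exact hl
  rw [Submodule.mem_span_range_iff_exists_fun] at h1
  obtain ⟨u, hu⟩ := h1
  rw [Fin.sum_univ_castSucc] at hu
  have h0 : u (Fin.last n) ≠ 0 := by
    intro h0
    apply hl2
    rw [← hu, h0, zero_smul, add_zero]
    refine Ideal.sum_mem _ fun j _ => ?_
    rw [MvPolynomial.smul_eq_C_mul]
    exact Ideal.mul_mem_left _ _ (Ideal.subset_span ⟨j, rfl⟩)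
  refine ⟨fun j => -(u (Fin.last n))⁻¹ * u j.castSucc, ⟨MvPolynomial.C (u (Fin.last n)), ?_⟩⟩
  have h2 : ∑ j : Fin n, u j.castSucc • (X j.castSucc : MvPolynomial (Fin (n + 1)) K) =
      -(rename Fin.castSucc (∑ j, MvPolynomial.C (-(u (Fin.last n))⁻¹ * u j.castSucc) * X j) *
        MvPolynomial.C (u (Fin.last n))) := by
    rw [map_sum, Finset.sum_mul, ← Finset.sum_neg_distrib]
    refine Finset.sum_congr rfl fun j _ => ?_
    rw [map_mul, rename_C, rename_X, MvPolynomial.smul_eq_C_mul, mul_right_comm, ← C_mul,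
      ← neg_mul, ← C_neg]
    congr 2
    field_simp
  rw [gen_l, sub_mul, ← hu, h2, MvPolynomial.smul_eq_C_mul]
  ring

/-- for a suitable linear form the sequence stays regular -/
theorem exists_rho_regular [Infinite K] (h : c ≤ n) (a : Fin c → ℕ) (hpos : ∀ i, 1 ≤ a i)
    (f : Fin c → MvPolynomial (Fin (n + 1)) K) (hf : ∀ i, (f i).IsHomogeneous (a i))
    (hreg : IsRegularSeq f) : ∃ cc : Fin n → K, IsRegularSeq fun i => rho cc (f i) := by
  classical
  have hreg' : IsRegSeq f := hreg
  set J : Ideal (MvPolynomial (Fin (n + 1)) K) := Ideal.span (Set.range f) with hJ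
  set p0 : Ideal (MvPolynomial (Fin (n + 1)) K) :=
    Ideal.span (Set.range fun j : Fin n => (X j.castSucc : MvPolynomial (Fin (n + 1)) K)) with hp0
  have hX : (X (Fin.last n) : MvPolynomial (Fin (n + 1)) K) ∉ p0 := by
    have h1 : p0 = Ideal.span (X '' (Set.range (Fin.castSucc : Fin n → Fin (n + 1))) :
        Set (MvPolynomial (Fin (n + 1)) K)) := by
      rw [hp0, ← Set.range_comp]
      rfl
    rw [h1, mem_ideal_span_X_image]
    intro h2
    obtain ⟨i, ⟨j, rfl⟩, hj⟩ := h2 (Finsupp.single (Fin.last n) 1) (by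
      rw [MvPolynomial.mem_support_iff, coeff_X_same]
      exact one_ne_zero)
    rw [Finsupp.single_eq_of_ne (Fin.castSucc_lt_last j).ne] at hj
    exact hj rfl
  obtain ⟨l, hl, hl2⟩ := exists_linear_avoid (insert p0 J.minimalPrimes)
    (J.finite_minimalPrimes_of_isNoetherianRing.insert p0) (by
      rintro p (rfl | hp)
      · intro ht
        apply hX
        rw [ht]
        exact Submodule.mem_top
      · exact hp.1.1.ne_top) (by
      rintro p (rfl | hp)
      · intro ht
        apply hX
        rw [ht]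
        exact X_mem_irr _
      · intro hpirr
        have h1 := height_le_of_minimal (Set.finite_range f) (ncard_range_le f) hp
        rw [hpirr, height_irr] at h1
        have h2 : n + 1 ≤ c := by exact_mod_cast h1
        omega)
  obtain ⟨cc, hcc⟩ := gen_exists_cc hl (hl2 p0 (Set.mem_insert _ _))
  refine ⟨cc, ?_⟩
  -- complete to an m-primary ideal
  set s : Set (MvPolynomial (Fin (n + 1)) K) := insert l (Set.range f) with hs
  have hsfin : s.Finite := (Set.finite_range f).insert l
  have hscard : s.ncard ≤ c + 1 := (Set.ncard_insert_le _ _).trans (add_le_add (ncard_range_le f) le_rfl)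
  have hsh : ∀ p : Ideal (MvPolynomial (Fin (n + 1)) K), p.IsPrime → Ideal.span s ≤ p →
      ((c + 1 : ℕ) : ℕ∞) ≤ p.height := by
    intro p hp hle
    have hJp : J ≤ p := (Ideal.span_mono (Set.subset_insert _ _)).trans hle
    have hlp : l ∈ p := hle (Ideal.subset_span (Set.mem_insert _ _))
    obtain ⟨q, hq, hqp⟩ := Ideal.exists_minimalPrimes_le hJp
    have hqprime : q.IsPrime := hq.1.1
    have hlt : q < p := by
      refine lt_of_le_of_ne hqp ?_
      rintro rfl
      exact hl2 q (Set.mem_insert_of_mem _ hq) hlp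
    have h1 := le_height_of_isRegSeq f hreg' q hq.1.2
    have h2 := Ideal.height_add_one_le_of_lt_of_isPrime hlt
    push_cast
    exact le_trans (add_le_add h1 le_rfl) h2
  obtain ⟨l', hl', hh⟩ := gen_extend s hsfin hscard hsh (n - c) (by omega)
  -- the whole sequence
  set F : Fin (n + 1) → MvPolynomial (Fin (n + 1)) K := fun i =>
    if hi : i.1 < c then f ⟨i.1, hi⟩ else if hi2 : i.1 = c then l else
      l' ⟨i.1 - c - 1, by omega⟩ with hF
  set A : Fin (n + 1) → ℕ := fun i => if hi : i.1 < c then a ⟨i.1, hi⟩ else 1 with hA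
  have hApos : ∀ i, 1 ≤ A i := by
    intro i
    rw [hA]
    dsimp only
    split_ifs
    · exact hpos _
    · exact le_rfl
  have hFhom : ∀ i, (F i).IsHomogeneous (A i) := by
    intro i
    rw [hF, hA]
    dsimp only
    split_ifs
    · exact hf _
    · exact hl
    · exact hl' _
  have hrange : Set.range F = s ∪ Set.range l' := by
    ext x
    constructor
    · rintro ⟨i, rfl⟩
      rw [hF]
      dsimp only
      split_ifs
      · exact Or.inl (Set.mem_insert_of_mem _ ⟨_, rfl⟩)
      · exact Or.inl (Set.mem_insert _ _)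
      · exact Or.inr ⟨_, rfl⟩
    · rintro ((rfl | ⟨i, rfl⟩) | ⟨i, rfl⟩)
      · refine ⟨⟨c, by omega⟩, ?_⟩
        rw [hF]
        dsimp only
        rw [dif_neg (lt_irrefl _), dif_pos rfl]
      · refine ⟨⟨i.1, by omega⟩, ?_⟩
        rw [hF]
        dsimp only
        rw [dif_pos i.2]
      · refine ⟨⟨c + 1 + i.1, by omega⟩, ?_⟩
        rw [hF]
        dsimp only
        rw [dif_neg (by omega), dif_neg (by omega)]
        congr 1
        apply Fin.ext
        change c + 1 + i.1 - c - 1 = i.1
        omega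
  have hmp : IsMPrimary (Ideal.span (Set.range F)) := by
    apply isMPrimary_of_height
    · apply homIdeal_span
      rintro g ⟨i, rfl⟩
      exact ⟨A i, hFhom i⟩
    · intro p hp hle
      rw [hrange] at hle
      have h1 := hh p hp hle
      rwa [show c + 1 + (n - c) = n + 1 by omega] at h1
  set k : Fin (n + 1) := ⟨c, by omega⟩ with hk
  have hFk : gen_l cc ∣ F k := by
    have h1 : F k = l := by
      rw [hF]
      dsimp only
      rw [dif_neg (lt_irrefl _), dif_pos rfl]
    rw [h1]
    exact hcc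
  have h3 := (gen_rho_eliminates cc).isMPrimary k F hmp hFk
  have h4 : IsRegularSeq fun i => rho cc (F (k.succAbove i)) :=
    isRegSeq_of_isMPrimary (fun i => A (k.succAbove i)) (fun i => hApos _) _
      (fun i => rho_isHomogeneous cc (hFhom _)) h3
  have h5 := regular_castLE h4 h
  have h6 : (fun i : Fin c => rho cc (F (k.succAbove (Fin.castLE h i)))) =
      fun i => rho cc (f i) := by
    funext i
    have h7 : k.succAbove (Fin.castLE h i) = ⟨i.1, by omega⟩ := by
      rw [Fin.succAbove_of_castSucc_lt]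
      · rfl
      · exact i.2
    rw [h7, hF]
    dsimp only
    rw [dif_pos i.2]
  rw [h6] at h5
  exact h5

/-- the coordinate change `z ↦ z + l` -/
noncomputable def gen_phi (cc : Fin n → K) :
    Polynomial (MvPolynomial (Fin n) K) ≃ₐ[MvPolynomial (Fin n) K]
      Polynomial (MvPolynomial (Fin n) K) :=
  Polynomial.algEquivAevalXAddC (∑ j, MvPolynomial.C (cc j) * X j : MvPolynomial (Fin n) K)

theorem gen_phi_X (cc : Fin n → K) : gen_phi cc Polynomial.X =
    Polynomial.X + Polynomial.C (∑ j, MvPolynomial.C (cc j) * X j : MvPolynomial (Fin n) K) := by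
  rw [gen_phi]
  simp [Polynomial.algEquivAevalXAddC]

theorem gen_phi_C (cc : Fin n → K) (b : MvPolynomial (Fin n) K) :
    gen_phi cc (Polynomial.C b) = Polynomial.C b := (gen_phi cc).commutes b

theorem gen_phi_symm_X (cc : Fin n → K) : (gen_phi cc).symm Polynomial.X =
    Polynomial.X - Polynomial.C (∑ j, MvPolynomial.C (cc j) * X j : MvPolynomial (Fin n) K) := by
  rw [AlgEquiv.symm_apply_eq, map_sub, gen_phi_X, gen_phi_C]
  ring

theorem gen_mem_Bd {e i : ℕ} {b : MvPolynomial (Fin n) K} :
    b ∈ Bd K n e i ↔ (i ≤ e ∧ b.IsHomogeneous (e - i)) ∨ b = 0 := by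
  by_cases h : i ≤ e
  · rw [Bd, if_pos h]
    constructor
    · intro hb
      exact Or.inl ⟨h, hb⟩
    · rintro (hb | rfl)
      · exact hb.2
      · exact Submodule.zero_mem _
  · rw [Bd, if_neg h, Submodule.mem_bot]
    constructor
    · intro hb
      exact Or.inr hb
    · rintro (hb | hb)
      · exact absurd hb.1 h
      · exact hb

/-- products -/
theorem gen_Bd_mul {e e' i i' : ℕ} {b b' : MvPolynomial (Fin n) K} (hb : b ∈ Bd K n e i)
    (hb' : b' ∈ Bd K n e' i') : b * b' ∈ Bd K n (e + e') (i + i') := by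
  rw [gen_mem_Bd] at *
  rcases hb with ⟨h1, h2⟩ | rfl
  · rcases hb' with ⟨h3, h4⟩ | rfl
    · refine Or.inl ⟨by omega, ?_⟩
      have h5 := h2.mul h4
      rwa [show e + e' - (i + i') = e - i + (e' - i') by omega]
    · exact Or.inr (mul_zero _)
  · exact Or.inr (zero_mul _)

theorem gen_Gd_mul {e e' : ℕ} {F G : Polynomial (MvPolynomial (Fin n) K)}
    (hF : F ∈ Gd K n e) (hG : G ∈ Gd K n e') : F * G ∈ Gd K n (e + e') := by
  intro i
  rw [Polynomial.coeff_mul]
  refine Submodule.sum_mem _ fun x hx => ?_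
  have hx' : x.1 + x.2 = i := by simpa using hx
  rw [← hx']
  exact gen_Bd_mul (hF _) (hG _)

theorem gen_C_mem_Gd {e : ℕ} {b : MvPolynomial (Fin n) K} (hb : b.IsHomogeneous e) :
    Polynomial.C b ∈ Gd K n e := by
  intro i
  rw [Polynomial.coeff_C]
  split_ifs with h
  · rw [h, gen_mem_Bd]
    exact Or.inl ⟨Nat.zero_le _, hb⟩
  · exact Submodule.zero_mem _

theorem gen_X_mem_Gd : (Polynomial.X : Polynomial (MvPolynomial (Fin n) K)) ∈ Gd K n 1 := by
  intro i
  rw [Polynomial.coeff_X]
  split_ifs with h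
  · rw [← h, gen_mem_Bd]
    exact Or.inl ⟨le_rfl, isHomogeneous_one _ _⟩
  · exact Submodule.zero_mem _

theorem gen_pow_mem_Gd {F : Polynomial (MvPolynomial (Fin n) K)} (hF : F ∈ Gd K n 1) (i : ℕ) :
    F ^ i ∈ Gd K n i := by
  induction i with
  | zero =>
    rw [pow_zero, ← Polynomial.C_1]
    exact gen_C_mem_Gd (isHomogeneous_one _ _)
  | succ i ih =>
    rw [pow_succ]
    exact gen_Gd_mul ih hF

/-- an automorphism over `B` which maps `z` to a form of degree one preserves the degree -/
theorem gen_aut_mem_Gd (ψ : Polynomial (MvPolynomial (Fin n) K) →ₐ[MvPolynomial (Fin n) K]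
    Polynomial (MvPolynomial (Fin n) K)) (hψ : ψ Polynomial.X ∈ Gd K n 1) {e : ℕ}
    {F : Polynomial (MvPolynomial (Fin n) K)} (hF : F ∈ Gd K n e) : ψ F ∈ Gd K n e := by
  rw [Polynomial.as_sum_range_C_mul_X_pow F, map_sum]
  refine Submodule.sum_mem _ fun i _ => ?_
  rw [map_mul, map_pow]
  have h1 : ψ (Polynomial.C (F.coeff i)) = Polynomial.C (F.coeff i) := ψ.commutes _
  rw [h1]
  rcases gen_mem_Bd.1 (hF i) with ⟨h2, h3⟩ | h2
  · have h4 := gen_Gd_mul (gen_C_mem_Gd h3) (gen_pow_mem_Gd hψ i)
    rwa [show e - i + i = e by omega] at h4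
  · rw [h2, Polynomial.C_0, zero_mul]
    exact Submodule.zero_mem _

theorem gen_phi_mem_Gd (cc : Fin n → K) {e : ℕ} {F : Polynomial (MvPolynomial (Fin n) K)}
    (hF : F ∈ Gd K n e) : gen_phi cc F ∈ Gd K n e := by
  refine gen_aut_mem_Gd (gen_phi cc).toAlgHom ?_ hF
  change gen_phi cc Polynomial.X ∈ _
  rw [gen_phi_X]
  exact Submodule.add_mem _ gen_X_mem_Gd (gen_C_mem_Gd (gen_lin_isHomogeneous cc))

theorem gen_phi_symm_mem_Gd (cc : Fin n → K) {e : ℕ} {F : Polynomial (MvPolynomial (Fin n) K)}
    (hF : F ∈ Gd K n e) : (gen_phi cc).symm F ∈ Gd K n e := by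
  refine gen_aut_mem_Gd (gen_phi cc).symm.toAlgHom ?_ hF
  change (gen_phi cc).symm Polynomial.X ∈ _
  rw [gen_phi_symm_X]
  exact Submodule.sub_mem _ gen_X_mem_Gd (gen_C_mem_Gd (gen_lin_isHomogeneous cc))

/-- the lowest coefficient is the restriction to the hyperplane -/
theorem gen_coeff_zero (cc : Fin n → K) (F : MvPolynomial (Fin (n + 1)) K) :
    (gen_phi cc (eE K n F)).coeff 0 = rho cc F := by
  have key : (((Polynomial.aeval (0 : MvPolynomial (Fin n) K)).restrictScalars K).comp
      (((gen_phi cc).toAlgHom.restrictScalars K).comp (eE K n).toAlgHom)) = rho cc := by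
    apply MvPolynomial.algHom_ext
    intro i
    change Polynomial.aeval (0 : MvPolynomial (Fin n) K) (gen_phi cc (eE K n (X i))) = _
    refine Fin.lastCases ?_ (fun j => ?_) i
    · rw [eE_X_last, gen_phi_X, gen_rho_last, map_add, Polynomial.aeval_X, Polynomial.aeval_C,
        zero_add]
      rfl
    · rw [eE_X_castSucc, gen_phi_C, gen_rho_castSucc]
      simp
  rw [← key]
  change _ = Polynomial.aeval (0 : MvPolynomial (Fin n) K) (gen_phi cc (eE K n F))
  rw [Polynomial.coeff_zero_eq_aeval_zero]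

/-- passage to a layered space -/
theorem exists_layers (cc : Fin n → K) (a : Fin c → ℕ)
    (f : Fin c → MvPolynomial (Fin (n + 1)) K) (hf : ∀ i, (f i).IsHomogeneous (a i)) (p d : ℕ)
    (V : Submodule K (MvPolynomial (Fin (n + 1)) K))
    (hV1 : piece (Ideal.span (Set.range f)) (d + 1) ≤ V)
    (hV2 : V ≤ homogeneousSubmodule (Fin (n + 1)) K (d + 1)) :
    ∃ V' : ℕ → Submodule K (MvPolynomial (Fin n) K),
      Lay (Ideal.span (Set.range fun i => rho cc (f i))) (d + 1) V' ∧
      tot V' (d + 1) = finrank K V ∧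
      finrank K (rc X V (homogeneousSubmodule (Fin (n + 1)) K d) (p + 1)) ≤ zc V' p d := by
  classical
  set V1 : Submodule K (Polynomial (MvPolynomial (Fin n) K)) := V.map (eE K n).toLinearMap with hV1def
  set V2 : Submodule K (Polynomial (MvPolynomial (Fin n) K)) :=
    V1.map ((gen_phi cc).toLinearMap.restrictScalars K) with hV2def
  have hG1 : V1 ≤ Gd K n (d + 1) := by
    rw [← map_eE_homogeneous]
    exact Submodule.map_mono hV2
  have hG2 : V2 ≤ Gd K n (d + 1) := by
    rintro _ ⟨F, hF, rfl⟩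
    exact gen_phi_mem_Gd cc (hG1 hF)
  refine ⟨lay V2, ⟨fun i => lay_le hG2 i, ?_⟩, ?_, ?_⟩
  · intro i hi
    apply piece_span_le
    rintro _ ⟨k, rfl⟩ w
    have hr : (rho cc (f k)).IsHomogeneous (a k) := rho_isHomogeneous cc (hf k)
    by_cases hk : a k ≤ d + 1 - i
    · obtain ⟨t, ht⟩ := Nat.exists_eq_add_of_le' hk
      have h1 := comp_mul_add hr w t
      rw [ht, mul_comm w, h1]
      set b := homogeneousComponent t w with hb
      have hbh : b.IsHomogeneous t := homogeneousComponent_isHomogeneous _ _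
      -- the element
      set H : Polynomial (MvPolynomial (Fin n) K) := Polynomial.C b * Polynomial.X ^ i with hH
      have hHG : H ∈ Gd K n (t + i) := gen_Gd_mul (gen_C_mem_Gd hbh) (gen_pow_mem_Gd gen_X_mem_Gd i)
      have hHG' := gen_phi_symm_mem_Gd cc hHG
      rw [← map_eE_homogeneous] at hHG'
      obtain ⟨g, hg, hgH⟩ := hHG'
      have hg2 : eE K n g = (gen_phi cc).symm H := hgH
      have hmem : f k * g ∈ V := by
        apply hV1
        refine ⟨Ideal.mul_mem_right _ _ (Ideal.subset_span ⟨k, rfl⟩), ?_⟩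
        have h2 : (f k * g).IsHomogeneous (a k + (t + i)) := (hf k).mul hg
        rwa [show a k + (t + i) = d + 1 by omega] at h2
      have hval : gen_phi cc (eE K n (f k * g)) = gen_phi cc (eE K n (f k)) * Polynomial.C b *
          Polynomial.X ^ i := by
        rw [map_mul, map_mul, hg2, AlgEquiv.apply_symm_apply, hH, mul_assoc]
      refine ⟨gen_phi cc (eE K n (f k * g)), ⟨_, ⟨_, hmem, rfl⟩, rfl⟩, ?_, ?_⟩
      · intro j hj
        rw [hval, Polynomial.coeff_mul_X_pow', if_neg (by omega)]
      · rw [hval, Polynomial.coeff_mul_X_pow', if_pos le_rfl, Nat.sub_self, Polynomial.mul_coeff_zero,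
          gen_coeff_zero, Polynomial.coeff_C_zero]
    · rw [mul_comm, comp_mul_of_lt hr w (by omega)]
      exact Submodule.zero_mem _
  · rw [← finrank_eq_tot_lay V2 hG2]
    have e1 : finrank K V2 = finrank K V1 :=
      LinearEquiv.finrank_map_eq ((gen_phi cc).toLinearEquiv.restrictScalars K) V1
    have e2 : finrank K V1 = finrank K V :=
      LinearEquiv.finrank_map_eq (eE K n).toLinearEquiv V
    rw [e1, e2]
  · rw [finrank_rc_succ, ← finrank_pc_map (eE K n), map_eE_homogeneous]
    have h1 : (fun i : Fin n => eE K n (X i.castSucc)) = xB K n := by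
      funext j
      exact eE_X_castSucc j
    rw [h1, eE_X_last]
    exact (coord_pc V1 cc).trans (zc_lay V2 hG2)

end Vale.Agent.P200.L
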