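import Vale.Agent.P200.L.Defs

set_option linter.all false

/-! The Koszul complex in `n + 1` variables as pairs; transport along isomorphisms; the
homotopy given by exterior multiplication. -/

namespace Vale.Agent.P200.L

open MvPolynomial Module
open Vale.Agent.P200.B Vale.Agent.P200.G

variable {K R : Type*} [Field K] [CommRing R] [Algebra K R] {n : ℕ}

/-! ### subsets of `Fin (n + 1)` -/

/-- embedding of subsets -/
def up (s : Finset (Fin n)) : Finset (Fin (n + 1)) := s.map Fin.castSuccEmb

/-- restriction of subsets -/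
def dn (s : Finset (Fin (n + 1))) : Finset (Fin n) := Finset.univ.filter fun i => i.castSucc ∈ s

theorem mem_up_castSucc {s : Finset (Fin n)} {i : Fin n} : i.castSucc ∈ up s ↔ i ∈ s := by
  unfold up
  rw [Finset.mem_map]
  constructor
  · rintro ⟨j, hj, h⟩
    rw [← Fin.castSucc_injective n h]
    exact hj
  · intro h
    exact ⟨i, h, rfl⟩

theorem last_notMem_up (s : Finset (Fin n)) : Fin.last n ∉ up s := by
  unfold up
  rw [Finset.mem_map]
  rintro ⟨j, _, h⟩
  exact (Fin.castSucc_lt_last j).ne h

theorem card_up (s : Finset (Fin n)) : (up s).card = s.card := Finset.card_map _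

theorem card_ins (s : Finset (Fin n)) : (insert (Fin.last n) (up s)).card = s.card + 1 := by
  rw [Finset.card_insert_of_notMem (last_notMem_up s), card_up]

theorem dn_up (s : Finset (Fin n)) : dn (up s) = s := by
  ext i
  rw [dn, Finset.mem_filter, mem_up_castSucc]
  simp

theorem dn_ins (s : Finset (Fin n)) : dn (insert (Fin.last n) (up s)) = s := by
  ext i
  rw [dn, Finset.mem_filter, Finset.mem_insert, mem_up_castSucc]
  simp [(Fin.castSucc_lt_last i).ne]

theorem up_dn {s : Finset (Fin (n + 1))} (h : Fin.last n ∉ s) : up (dn s) = s := by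
  ext i
  induction i using Fin.lastCases with
  | last => exact iff_of_false (last_notMem_up _) h
  | cast i => rw [mem_up_castSucc, dn, Finset.mem_filter]; simp

theorem ins_dn {s : Finset (Fin (n + 1))} (h : Fin.last n ∈ s) :
    insert (Fin.last n) (up (dn s)) = s := by
  ext i
  induction i using Fin.lastCases with
  | last => exact iff_of_true (Finset.mem_insert_self _ _) h
  | cast i =>
    rw [Finset.mem_insert, mem_up_castSucc, dn, Finset.mem_filter]
    simp [(Fin.castSucc_lt_last i).ne]

theorem forall_sets (P : Finset (Fin (n + 1)) → Prop) :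
    (∀ s, P s) ↔ (∀ s, P (up s)) ∧ ∀ s, P (insert (Fin.last n) (up s)) := by
  constructor
  · intro h
    exact ⟨fun s => h _, fun s => h _⟩
  · rintro ⟨h1, h2⟩ s
    by_cases h : Fin.last n ∈ s
    · rw [← ins_dn h]; exact h2 _
    · rw [← up_dn h]; exact h1 _

theorem up_compl (t : Finset (Fin n)) : (up t)ᶜ = insert (Fin.last n) (up tᶜ) := by
  ext i
  induction i using Fin.lastCases with
  | last =>
    exact iff_of_true (Finset.mem_compl.2 (last_notMem_up _)) (Finset.mem_insert_self _ _)
  | cast i =>
    rw [Finset.mem_compl, mem_up_castSucc, Finset.mem_insert, mem_up_castSucc, Finset.mem_compl]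
    simp [(Fin.castSucc_lt_last i).ne]

theorem ins_compl (t : Finset (Fin n)) : (insert (Fin.last n) (up t))ᶜ = up tᶜ := by
  ext i
  induction i using Fin.lastCases with
  | last =>
    exact iff_of_false (fun h => Finset.mem_compl.1 h (Finset.mem_insert_self _ _))
      (last_notMem_up _)
  | cast i =>
    rw [Finset.mem_compl, Finset.mem_insert, mem_up_castSucc, mem_up_castSucc, Finset.mem_compl]
    simp [(Fin.castSucc_lt_last i).ne]

theorem insert_up (t : Finset (Fin n)) (i : Fin n) :
    insert i.castSucc (up t) = up (insert i t) := by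
  unfold up
  rw [Finset.map_insert]
  rfl

theorem filter_up (t : Finset (Fin n)) (i : Fin n) :
    ((up t).filter fun k => k < i.castSucc).card = (t.filter fun k => k < i).card := by
  have : (up t).filter (fun k => k < i.castSucc) = up (t.filter fun k => k < i) := by
    ext k
    induction k using Fin.lastCases with
    | last =>
      refine iff_of_false (fun h => last_notMem_up _ (Finset.mem_filter.1 h).1) (last_notMem_up _)
    | cast k =>
      rw [Finset.mem_filter, mem_up_castSucc, mem_up_castSucc, Finset.mem_filter,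
        Fin.castSucc_lt_castSucc_iff]
  rw [this, card_up]

theorem filter_up_last (t : Finset (Fin n)) :
    ((up t).filter fun k => k < Fin.last n).card = t.card := by
  rw [Finset.filter_true_of_mem, card_up]
  intro k hk
  induction k using Fin.lastCases with
  | last => exact absurd hk (last_notMem_up _)
  | cast k => exact Fin.castSucc_lt_last k

theorem filter_ins (t : Finset (Fin n)) (i : Fin n) :
    ((insert (Fin.last n) (up t)).filter fun k => k < i.castSucc).card =
      (t.filter fun k => k < i).card := by
  rw [Finset.filter_insert, if_neg (not_lt.2 (Fin.le_last _)), filter_up]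

omit [Field K] [Algebra K R] in
theorem kd_up (x : Fin (n + 1) → R) (c : Finset (Fin (n + 1)) → R) (t : Finset (Fin n)) :
    kd x c (up t) = kd (fun i => x i.castSucc) (fun s => c (up s)) t +
      x (Fin.last n) * ((-1) ^ t.card * c (insert (Fin.last n) (up t))) := by
  rw [kd_apply, kd_apply, up_compl, Finset.sum_insert (last_notMem_up _), filter_up_last, add_comm]
  congr 1
  · rw [up, Finset.sum_map]
    refine Finset.sum_congr rfl fun i _ => ?_
    rw [show (Fin.castSuccEmb i : Fin (n + 1)) = i.castSucc from rfl, filter_up, insert_up]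
  · ring

omit [Field K] [Algebra K R] in
theorem kd_ins (x : Fin (n + 1) → R) (c : Finset (Fin (n + 1)) → R) (t : Finset (Fin n)) :
    kd x c (insert (Fin.last n) (up t)) = (-1) ^ (t.card + 1) * kd (fun i => x i.castSucc)
      (fun s => (-1) ^ s.card * c (insert (Fin.last n) (up s))) t := by
  rw [kd_apply, kd_apply, ins_compl, up, Finset.sum_map, Finset.mul_sum]
  refine Finset.sum_congr rfl fun i hi => ?_
  rw [show (Fin.castSuccEmb i : Fin (n + 1)) = i.castSucc from rfl]
  change (-1) ^ ((insert (Fin.last n) (up t)).filter fun k => k < i.castSucc).card *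
    (x i.castSucc * c (insert i.castSucc (insert (Fin.last n) (up t)))) = _
  rw [filter_ins, Finset.insert_comm, insert_up,
    Finset.card_insert_of_notMem (Finset.mem_compl.1 hi)]
  have h : ((-1 : R) ^ (t.card + 1)) * (-1) ^ (t.card + 1) = 1 := by
    rw [← mul_pow]; simp
  linear_combination (-((-1) ^ (t.filter fun k => k < i).card *
    (x i.castSucc * c (insert (Fin.last n) (up (insert i t)))))) * h

theorem sign_mem (U : Submodule K R) (k : ℕ) (y : R) : (-1) ^ k * y ∈ U ↔ y ∈ U := by
  rcases neg_one_pow_eq_or R k with h | h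
  · rw [h, one_mul]
  · rw [h, neg_one_mul, Submodule.neg_mem_iff]

omit [Field K] [Algebra K R] in
theorem sign_zero (k : ℕ) (y : R) : (-1) ^ k * y = 0 ↔ y = 0 := by
  rcases neg_one_pow_eq_or R k with h | h
  · rw [h, one_mul]
  · rw [h, neg_one_mul, neg_eq_zero]

omit [Field K] [Algebra K R] in
theorem sign_sign (k : ℕ) (y : R) : (-1) ^ k * ((-1) ^ k * y) = y := by
  rw [← mul_assoc, ← mul_pow]; simp

/-- families on subsets of `Fin (n + 1)` as pairs of families -/
def Th (K R : Type*) [Field K] [CommRing R] [Algebra K R] (n : ℕ) :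
    (Finset (Fin (n + 1)) → R) ≃ₗ[K] (Finset (Fin n) → R) × (Finset (Fin n) → R) where
  toFun c := (fun s => c (up s), fun s => (-1) ^ s.card * c (insert (Fin.last n) (up s)))
  map_add' a b := by
    refine Prod.ext rfl (funext fun s => ?_)
    change (-1) ^ s.card * (a _ + b _) = (-1) ^ s.card * a _ + (-1) ^ s.card * b _
    rw [mul_add]
  map_smul' k a := by
    refine Prod.ext rfl (funext fun s => ?_)
    change (-1) ^ s.card * (k • a _) = k • ((-1) ^ s.card * a _)
    rw [mul_smul_comm]
  invFun q := fun s => if Fin.last n ∈ s then (-1) ^ (dn s).card * q.2 (dn s) else q.1 (dn s)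
  left_inv c := by
    funext s
    by_cases h : Fin.last n ∈ s
    · simp only [h, if_true]
      rw [sign_sign, ins_dn h]
    · simp only [h, if_false]
      rw [up_dn h]
  right_inv q := by
    refine Prod.ext (funext fun s => ?_) (funext fun s => ?_)
    · simp only [last_notMem_up, if_false]
      rw [dn_up]
    · simp only [Finset.mem_insert_self, if_true]
      rw [dn_ins, sign_sign]

theorem Th_mem (x : Fin (n + 1) → R) (U W : Submodule K R) (p : ℕ)
    (c : Finset (Fin (n + 1)) → R) :
    Th K R n c ∈ pc (fun i => x i.castSucc) (x (Fin.last n)) U W p ↔ c ∈ rc x U W (p + 1) := by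
  rw [mem_rc, mem_pc, mem_chW, mem_chW, mem_chW, forall_sets (fun s => s.card ≠ p + 1 → c s = 0),
    forall_sets (fun s => c s ∈ W), forall_sets (fun s => kd x c s ∈ U)]
  have e1 : (Th K R n c).1 = fun s => c (up s) := rfl
  have e2 : (Th K R n c).2 = fun s => (-1) ^ s.card * c (insert (Fin.last n) (up s)) := rfl
  simp only [e1, e2, kd_up, kd_ins, card_up, card_ins, sign_mem, sign_zero, ne_eq,
    Nat.add_right_cancel_iff]
  tauto

/-- The linear equivalence is `c ↦ (s ↦ c (s.map castSucc), s ↦ (-1)^|s| c (insert last (s.map castSucc)))`. -/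
theorem finrank_rc_succ (x : Fin (n + 1) → R) (U W : Submodule K R) (p : ℕ) :
    finrank K (rc x U W (p + 1)) =
      finrank K (pc (fun i => x i.castSucc) (x (Fin.last n)) U W p) := by
  have h : (rc x U W (p + 1)).map (Th K R n).toLinearMap =
      pc (fun i => x i.castSucc) (x (Fin.last n)) U W p := by
    ext q
    obtain ⟨c, rfl⟩ := (Th K R n).surjective q
    rw [Th_mem]
    constructor
    · rintro ⟨d, hd, h⟩
      rw [← (Th K R n).injective h]
      exact hd
    · intro hc
      exact ⟨c, hc, rfl⟩
  rw [← h]
  exact (LinearEquiv.finrank_map_eq (Th K R n) _).symm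

theorem mem_map_alg {R' : Type*} [CommRing R'] [Algebra K R'] (e : R ≃ₐ[K] R')
    (U : Submodule K R) (y : R) : e y ∈ U.map e.toLinearMap ↔ y ∈ U := by
  constructor
  · rintro ⟨z, hz, h⟩
    rw [← e.injective h]
    exact hz
  · intro h
    exact ⟨y, h, rfl⟩

theorem finrank_pc_map {R' : Type*} [CommRing R'] [Algebra K R'] (e : R ≃ₐ[K] R')
    (x : Fin n → R) (z : R) (U W : Submodule K R) (p : ℕ) :
    finrank K (pc (fun i => e (x i)) (e z) (U.map e.toLinearMap) (W.map e.toLinearMap) p) =
      finrank K (pc x z U W p) := by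
  let e0 : (Finset (Fin n) → R) ≃ₗ[K] (Finset (Fin n) → R') :=
    LinearEquiv.piCongrRight fun _ => e.toLinearEquiv
  let E : ((Finset (Fin n) → R) × (Finset (Fin n) → R)) ≃ₗ[K]
    ((Finset (Fin n) → R') × (Finset (Fin n) → R')) := e0.prodCongr e0
  have hE1 : ∀ q, (E q).1 = fun s => e (q.1 s) := fun _ => rfl
  have hE2 : ∀ q, (E q).2 = fun s => e (q.2 s) := fun _ => rfl
  have key : ∀ q, E q ∈ pc (fun i => e (x i)) (e z) (U.map e.toLinearMap)
      (W.map e.toLinearMap) p ↔ q ∈ pc x z U W p := by
    intro q
    have hk : ∀ (c : Finset (Fin n) → R) (t : Finset (Fin n)),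
        kd (fun i => e (x i)) (fun s => e (c s)) t = e (kd x c t) := fun c t =>
      (kd_map (e : R →+* R') x c t).symm
    rw [mem_pc, mem_pc, mem_chW, mem_chW, mem_chW, mem_chW, hE1, hE2]
    simp only [hk, ← map_mul, ← map_add, mem_map_alg, EmbeddingLike.map_eq_zero_iff]
  have h : (pc x z U W p).map E.toLinearMap =
      pc (fun i => e (x i)) (e z) (U.map e.toLinearMap) (W.map e.toLinearMap) p := by
    ext q
    obtain ⟨c, rfl⟩ := E.surjective q
    rw [key]
    constructor
    · rintro ⟨d, hd, h⟩
      rw [← E.injective h]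
      exact hd
    · intro hc
      exact ⟨c, hc, rfl⟩
  rw [← h]
  exact LinearEquiv.finrank_map_eq E _

/-- exterior multiplication with `ε = ∑ c_i e_i` -/
def eps (c : Fin n → R) (g : Finset (Fin n) → R) : Finset (Fin n) → R := fun s =>
  ∑ i ∈ s, (-1 : R) ^ (s.filter fun k => k < i).card * (c i * g (s.erase i))

/-- the homotopy formula -/
theorem kd_eps (x c : Fin n → R) (g : Finset (Fin n) → R) (t : Finset (Fin n)) :
    kd x (eps c g) t + eps c (kd x g) t = (∑ i, c i * x i) * g t := by
  classical
  have A : kd x (eps c g) t = ∑ i ∈ tᶜ, (c i * x i * g t + ∑ j ∈ t, (-1 : R) ^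
      ((t.filter fun k => k < i).card + ((insert i t).filter fun k => k < j).card) *
        (x i * c j * g ((insert i t).erase j))) := by
    rw [kd_apply]
    refine Finset.sum_congr rfl fun i hi => ?_
    have hi' := Finset.mem_compl.1 hi
    rw [eps, Finset.sum_insert hi', Finset.erase_insert hi', Finset.filter_insert,
      if_neg (lt_irrefl i), mul_add, mul_add]
    congr 1
    · have := sign_sign (t.filter fun k => k < i).card (c i * x i * g t)
      linear_combination this
    · rw [Finset.mul_sum, Finset.mul_sum]
      refine Finset.sum_congr rfl fun j _ => ?_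
      rw [pow_add]
      ring
  have B : eps c (kd x g) t = ∑ j ∈ t, (c j * x j * g t + ∑ i ∈ tᶜ, (-1 : R) ^
      ((t.filter fun k => k < j).card + ((t.erase j).filter fun k => k < i).card) *
        (x i * c j * g (insert i (t.erase j)))) := by
    rw [eps]
    refine Finset.sum_congr rfl fun j hj => ?_
    have h1 : (t.erase j)ᶜ = insert j tᶜ := Finset.compl_erase
    have h2 : j ∉ tᶜ := fun h => Finset.mem_compl.1 h hj
    have h3 : (t.erase j).filter (fun k => k < j) = t.filter fun k => k < j := by
      ext k
      simp only [Finset.mem_filter, Finset.mem_erase]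
      constructor
      · rintro ⟨⟨_, h5⟩, h6⟩; exact ⟨h5, h6⟩
      · rintro ⟨h5, h6⟩; exact ⟨⟨h6.ne, h5⟩, h6⟩
    rw [kd_apply, h1, Finset.sum_insert h2, h3, Finset.insert_erase hj, mul_add, mul_add]
    congr 1
    · have := sign_sign (t.filter fun k => k < j).card (c j * x j * g t)
      linear_combination this
    · rw [Finset.mul_sum, Finset.mul_sum]
      refine Finset.sum_congr rfl fun i _ => ?_
      rw [pow_add]
      ring
  rw [A, B, Finset.sum_add_distrib, Finset.sum_add_distrib,
    Finset.sum_comm (s := t) (t := tᶜ)]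
  have C : (∑ i ∈ tᶜ, ∑ j ∈ t, (-1 : R) ^
      ((t.filter fun k => k < i).card + ((insert i t).filter fun k => k < j).card) *
        (x i * c j * g ((insert i t).erase j))) + (∑ i ∈ tᶜ, ∑ j ∈ t, (-1 : R) ^
      ((t.filter fun k => k < j).card + ((t.erase j).filter fun k => k < i).card) *
        (x i * c j * g (insert i (t.erase j)))) = 0 := by
    rw [← Finset.sum_add_distrib]
    refine Finset.sum_eq_zero fun i hi => ?_
    rw [← Finset.sum_add_distrib]
    refine Finset.sum_eq_zero fun j hj => ?_
    have hi' := Finset.mem_compl.1 hi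
    have hij : i ≠ j := fun h => hi' (h ▸ hj)
    rw [Finset.erase_insert_of_ne hij]
    rcases lt_or_gt_of_ne hij with hlt | hlt
    · have h1 : ((insert i t).filter fun k => k < j).card =
          (t.filter fun k => k < j).card + 1 := by
        rw [Finset.filter_insert, if_pos hlt, Finset.card_insert_of_notMem]
        simp [hi']
      have h2 : (t.erase j).filter (fun k => k < i) = t.filter fun k => k < i := by
        ext k
        simp only [Finset.mem_filter, Finset.mem_erase]
        constructor
        · rintro ⟨⟨_, h5⟩, h6⟩; exact ⟨h5, h6⟩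
        · rintro ⟨h5, h6⟩; exact ⟨⟨(h6.trans hlt).ne, h5⟩, h6⟩
      rw [h1, h2]
      ring
    · have h1 : ((insert i t).filter fun k => k < j).card =
          (t.filter fun k => k < j).card := by
        rw [Finset.filter_insert, if_neg (not_lt.2 hlt.le)]
      have h2 : (t.filter fun k => k < i).card =
          ((t.erase j).filter fun k => k < i).card + 1 := by
        have : t.filter (fun k => k < i) = insert j ((t.erase j).filter fun k => k < i) := by
          ext k
          simp only [Finset.mem_filter, Finset.mem_erase, Finset.mem_insert]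
          constructor
          · rintro ⟨h5, h6⟩
            by_cases hkj : k = j
            · exact Or.inl hkj
            · exact Or.inr ⟨⟨hkj, h5⟩, h6⟩
          · rintro (rfl | ⟨⟨_, h5⟩, h6⟩)
            · exact ⟨hj, hlt⟩
            · exact ⟨h5, h6⟩
        rw [this, Finset.card_insert_of_notMem]
        simp
      rw [h1, h2]
      ring
  have D : (∑ i, c i * x i) * g t = (∑ i ∈ tᶜ, c i * x i * g t) + ∑ i ∈ t, c i * x i * g t := by
    rw [Finset.sum_mul, ← Finset.sum_compl_add_sum t]
  rw [D]
  linear_combination C

theorem eps_mem {p : ℕ} {W : Submodule K R} (c : Fin n → K) {g : Finset (Fin n) → R}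
    (hg : ∀ s, g s ∈ W) (s : Finset (Fin n)) :
    eps (fun i => algebraMap K R (c i)) g s ∈ W := by
  unfold eps
  refine W.sum_mem fun i _ => ?_
  rw [sign_mem, ← Algebra.smul_def]
  exact W.smul_mem _ (hg _)

theorem eps_mem_chW {p : ℕ} {W : Submodule K R} (c : Fin n → K) {g : Finset (Fin n) → R}
    (hg : g ∈ chW n p W) : eps (fun i => algebraMap K R (c i)) g ∈ chW n (p + 1) W := by
  rw [mem_chW] at hg ⊢
  refine ⟨fun s hs => ?_, fun s => eps_mem (p := p) c hg.2 s⟩
  unfold eps
  refine Finset.sum_eq_zero fun i hi => ?_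
  rw [hg.1, mul_zero, mul_zero]
  rw [Finset.card_erase_of_mem hi]
  have := Finset.card_pos.2 ⟨i, hi⟩
  omega

end Vale.Agent.P200.L
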