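import Vale.Agent.P200.L.Pair

/-! The model `B[z]`. -/

namespace Vale.Agent.P200.L

open MvPolynomial Module
open Vale.Agent.P200.B Vale.Agent.P200.G

variable {K : Type*} [Field K] {n : ℕ}

/-- the graded pieces of `B[z]` -/
noncomputable def Gd (K : Type*) [Field K] (n e : ℕ) :
    Submodule K (Polynomial (MvPolynomial (Fin n) K)) where
  carrier := {F | ∀ i, F.coeff i ∈ Bd K n e i}
  add_mem' ha hb i := by
    rw [Polynomial.coeff_add]
    exact Submodule.add_mem _ (ha i) (hb i)
  zero_mem' i := by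
    rw [Polynomial.coeff_zero]
    exact Submodule.zero_mem _
  smul_mem' k F hF i := by
    rw [Polynomial.coeff_smul]
    exact Submodule.smul_mem _ _ (hF i)

/-- the layers (lowest coefficients) of a space -/
noncomputable def lay (V : Submodule K (Polynomial (MvPolynomial (Fin n) K))) (i : ℕ) :
    Submodule K (MvPolynomial (Fin n) K) where
  carrier := {b | ∃ F ∈ V, (∀ j < i, F.coeff j = 0) ∧ F.coeff i = b}
  add_mem' := by
    rintro a b ⟨F, hF, hF0, rfl⟩ ⟨G, hG, hG0, rfl⟩
    refine ⟨F + G, V.add_mem hF hG, fun j hj => ?_, ?_⟩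
    · rw [Polynomial.coeff_add, hF0 j hj, hG0 j hj, add_zero]
    · rw [Polynomial.coeff_add]
  zero_mem' := ⟨0, V.zero_mem, fun j _ => Polynomial.coeff_zero j, Polynomial.coeff_zero i⟩
  smul_mem' := by
    rintro k a ⟨F, hF, hF0, rfl⟩
    refine ⟨k • F, V.smul_mem k hF, fun j hj => ?_, ?_⟩
    · rw [Polynomial.coeff_smul, hF0 j hj, smul_zero]
    · rw [Polynomial.coeff_smul]

/-- the graded space with given layers -/
noncomputable def grs (V : ℕ → Submodule K (MvPolynomial (Fin n) K)) :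
    Submodule K (Polynomial (MvPolynomial (Fin n) K)) where
  carrier := {F | ∀ i, F.coeff i ∈ V i}
  add_mem' ha hb i := by
    rw [Polynomial.coeff_add]
    exact Submodule.add_mem _ (ha i) (hb i)
  zero_mem' i := by
    rw [Polynomial.coeff_zero]
    exact Submodule.zero_mem _
  smul_mem' k F hF i := by
    rw [Polynomial.coeff_smul]
    exact Submodule.smul_mem _ _ (hF i)

/-- the variables of `B` in `B[z]` -/
noncomputable abbrev xB (K : Type*) [Field K] (n : ℕ) :
    Fin n → Polynomial (MvPolynomial (Fin n) K) := fun i => Polynomial.C (X i)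

/-! ### Auxiliary lemmas -/

section cut
variable {M W : Type*} [AddCommGroup M] [Module K M] [AddCommGroup W] [Module K W]

/-- the part of `C` killed by `π 0, …, π (i - 1)` -/
def cut (C : Submodule K M) (π : ℕ → M →ₗ[K] W) (i : ℕ) : Submodule K M where
  carrier := {F | F ∈ C ∧ ∀ j < i, π j F = 0}
  add_mem' := by
    rintro a b ⟨ha, ha'⟩ ⟨hb, hb'⟩
    refine ⟨C.add_mem ha hb, fun j hj => ?_⟩
    rw [map_add, ha' j hj, hb' j hj, add_zero]
  zero_mem' := ⟨C.zero_mem, fun j _ => map_zero _⟩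
  smul_mem' := by
    rintro k a ⟨ha, ha'⟩
    refine ⟨C.smul_mem k ha, fun j hj => ?_⟩
    rw [map_smul, ha' j hj, smul_zero]

theorem mem_cut {C : Submodule K M} {π : ℕ → M →ₗ[K] W} {i : ℕ} {F : M} :
    F ∈ cut C π i ↔ F ∈ C ∧ ∀ j < i, π j F = 0 := Iff.rfl

theorem cut_succ (C : Submodule K M) (π : ℕ → M →ₗ[K] W) (i : ℕ) :
    cut C π (i + 1) = cut C π i ⊓ LinearMap.ker (π i) := by
  ext F
  rw [Submodule.mem_inf, mem_cut, mem_cut, LinearMap.mem_ker]
  constructor
  · rintro ⟨h1, h2⟩
    exact ⟨⟨h1, fun j hj => h2 j (by omega)⟩, h2 i (by omega)⟩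
  · rintro ⟨⟨h1, h2⟩, h3⟩
    refine ⟨h1, fun j hj => ?_⟩
    rcases Nat.lt_succ_iff_lt_or_eq.1 hj with h | h
    · exact h2 j h
    · rw [h]
      exact h3

theorem cut_le (C : Submodule K M) (π : ℕ → M →ₗ[K] W) (i : ℕ) : cut C π i ≤ C :=
  fun _ h => h.1

theorem cut_zero (C : Submodule K M) (π : ℕ → M →ₗ[K] W) : cut C π 0 = C :=
  le_antisymm (cut_le C π 0) fun _ h => ⟨h, fun _ hj => absurd hj (Nat.not_lt_zero _)⟩

theorem finrank_cut (C : Submodule K M) (π : ℕ → M →ₗ[K] W) [Module.Finite K C] (N : ℕ) :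
    finrank K C = ∑ i ∈ Finset.range N, finrank K ((cut C π i).map (π i)) +
      finrank K (cut C π N) := by
  induction N with
  | zero => rw [Finset.sum_range_zero, zero_add, cut_zero]
  | succ N ih =>
    have h0 : Module.Finite K (cut C π N) := Submodule.finiteDimensional_of_le (cut_le C π N)
    rw [ih, Finset.sum_range_succ, cut_succ, add_assoc, finrank_map_add]

theorem finrank_cut' (C : Submodule K M) (π : ℕ → M →ₗ[K] W) [Module.Finite K C] (N : ℕ)
    (hN : cut C π N = ⊥) :
    finrank K C = ∑ i ∈ Finset.range N, finrank K ((cut C π i).map (π i)) := by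
  rw [finrank_cut C π N, hN, finrank_bot, add_zero]

end cut

theorem bd_zero {e i : ℕ} {b : MvPolynomial (Fin n) K} (hb : b ∈ Bd K n e i) (h : e < i) :
    b = 0 := by
  rw [Bd, if_neg (by omega)] at hb
  exact (Submodule.mem_bot K).1 hb

/-- the coefficients as linear maps over `K` -/
noncomputable def cfL (K : Type*) [Field K] (n i : ℕ) :
    Polynomial (MvPolynomial (Fin n) K) →ₗ[K] MvPolynomial (Fin n) K where
  toFun F := F.coeff i
  map_add' _ _ := Polynomial.coeff_add _ _ _
  map_smul' _ _ := Polynomial.coeff_smul _ _ _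

instance finite_Gd (e : ℕ) : Module.Finite K (Gd K n e) := by
  let f : Gd K n e →ₗ[K] ((i : Fin (e + 1)) → Bd K n e i) :=
    { toFun := fun F i => ⟨F.1.coeff i, F.2 i⟩
      map_add' := fun F G => by
        funext i
        apply Subtype.ext
        exact Polynomial.coeff_add _ _ _
      map_smul' := fun k F => by
        funext i
        apply Subtype.ext
        exact Polynomial.coeff_smul _ _ _ }
  refine Module.Finite.of_injective f fun F G h => ?_
  apply Subtype.ext
  apply Polynomial.ext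
  intro i
  by_cases hi : i < e + 1
  · exact congrArg Subtype.val (congrFun h ⟨i, hi⟩)
  · rw [bd_zero (F.2 i) (by omega), bd_zero (G.2 i) (by omega)]

theorem gd_ext {e : ℕ} {F : Polynomial (MvPolynomial (Fin n) K)} (hF : F ∈ Gd K n e)
    (h : ∀ j < e + 1, F.coeff j = 0) : F = 0 := by
  apply Polynomial.ext
  intro i
  rw [Polynomial.coeff_zero]
  by_cases hi : i < e + 1
  · exact h i hi
  · exact bd_zero (hF i) (by omega)

theorem map_cut_coeff (V : Submodule K (Polynomial (MvPolynomial (Fin n) K))) (i : ℕ) :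
    (cut V (cfL K n) i).map (cfL K n i) = lay V i := by
  ext b
  constructor
  · rintro ⟨F, ⟨hF, hF'⟩, rfl⟩
    exact ⟨F, hF, hF', rfl⟩
  · rintro ⟨F, hF, hF', rfl⟩
    exact ⟨F, ⟨hF, hF'⟩, rfl⟩

theorem finrank_eq_tot_lay {D : ℕ} (V : Submodule K (Polynomial (MvPolynomial (Fin n) K)))
    (hV : V ≤ Gd K n D) : finrank K V = tot (lay V) D := by
  have h0 : Module.Finite K V := Submodule.finiteDimensional_of_le hV
  rw [finrank_cut' V (cfL K n) (D + 1), tot]
  · exact Finset.sum_congr rfl fun i _ => by rw [map_cut_coeff]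
  · rw [eq_bot_iff]
    rintro F ⟨hF, hF'⟩
    rw [Submodule.mem_bot]
    exact gd_ext (hV hF) hF'

theorem lay_le {D : ℕ} {V : Submodule K (Polynomial (MvPolynomial (Fin n) K))}
    (hV : V ≤ Gd K n D) (i : ℕ) : lay V i ≤ Bd K n D i := by
  rintro _ ⟨F, hF, -, rfl⟩
  exact hV hF i

theorem kd_coeff (α : Finset (Fin n) → Polynomial (MvPolynomial (Fin n) K))
    (t : Finset (Fin n)) (i : ℕ) :
    (kd (xB K n) α t).coeff i = kd X (fun s => (α s).coeff i) t := by
  rw [kd_apply, kd_apply, Polynomial.finsetSum_coeff]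
  refine Finset.sum_congr rfl fun j _ => ?_
  have h : (-1 : Polynomial (MvPolynomial (Fin n) K)) ^ (t.filter fun k => k < j).card *
      (xB K n j * α (insert j t)) =
      Polynomial.C ((-1) ^ (t.filter fun k => k < j).card * X j) * α (insert j t) := by
    rw [Polynomial.C_mul, Polynomial.C_pow, Polynomial.C_neg, Polynomial.C_1, mul_assoc]
  rw [h, Polynomial.coeff_C_mul, mul_assoc]

/-- the coefficients of a pair -/
noncomputable def lpi (K : Type*) [Field K] (n i : ℕ) :
    (Finset (Fin n) → Polynomial (MvPolynomial (Fin n) K)) ×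
      (Finset (Fin n) → Polynomial (MvPolynomial (Fin n) K)) →ₗ[K]
    (Finset (Fin n) → MvPolynomial (Fin n) K) × (Finset (Fin n) → MvPolynomial (Fin n) K) where
  toFun q := (fun s => (q.1 s).coeff i, fun s => (Polynomial.X * q.2 s).coeff i)
  map_add' a b := by
    apply Prod.ext
    · funext s
      exact Polynomial.coeff_add _ _ _
    · funext s
      change (Polynomial.X * (a.2 s + b.2 s)).coeff i = _
      rw [mul_add, Polynomial.coeff_add]
      rfl
  map_smul' k a := by
    apply Prod.ext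
    · funext s
      exact Polynomial.coeff_smul _ _ _
    · funext s
      change (Polynomial.X * (k • a.2 s)).coeff i = _
      rw [mul_smul_comm, Polynomial.coeff_smul]
      rfl

theorem lpi_eq_zero {i : ℕ} {q : (Finset (Fin n) → Polynomial (MvPolynomial (Fin n) K)) ×
      (Finset (Fin n) → Polynomial (MvPolynomial (Fin n) K))} (h : lpi K n i q = 0)
      (s : Finset (Fin n)) : (q.1 s).coeff i = 0 ∧ (Polynomial.X * q.2 s).coeff i = 0 :=
  ⟨congrFun (congrArg Prod.fst h) s, congrFun (congrArg Prod.snd h) s⟩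

instance finite_pc (x : Fin n → Polynomial (MvPolynomial (Fin n) K))
    (z : Polynomial (MvPolynomial (Fin n) K))
    (U : Submodule K (Polynomial (MvPolynomial (Fin n) K))) (d p : ℕ) :
    Module.Finite K (pc x z U (Gd K n d) p) := by
  have h1 : (chW n (p + 1) (Gd K n d)).FG := Module.Finite.iff_fg.1 inferInstance
  have h2 : (chW n p (Gd K n d)).FG := Module.Finite.iff_fg.1 inferInstance
  have h3 : Module.Finite K ((chW n (p + 1) (Gd K n d)).prod (chW n p (Gd K n d))) :=
    Module.Finite.iff_fg.2 (h1.prod h2)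
  exact Submodule.finiteDimensional_of_le
    (S₂ := (chW n (p + 1) (Gd K n d)).prod (chW n p (Gd K n d))) fun q hq => ⟨hq.1, hq.2.1⟩

/-- `(a, h) ↦ (a, h - ∂ a)` -/
noncomputable def lpsi (A R' : Submodule K (Finset (Fin n) → MvPolynomial (Fin n) K)) :
    (A × R') →ₗ[K]
      (Finset (Fin n) → MvPolynomial (Fin n) K) × (Finset (Fin n) → MvPolynomial (Fin n) K) :=
  (A.subtype ∘ₗ LinearMap.fst K A R').prod
    (R'.subtype ∘ₗ LinearMap.snd K A R' - kdL K X ∘ₗ A.subtype ∘ₗ LinearMap.fst K A R')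

theorem lpsi_apply (A R' : Submodule K (Finset (Fin n) → MvPolynomial (Fin n) K)) (q : A × R') :
    lpsi A R' q = (q.1.1, q.2.1 - kd X q.1.1) := rfl

theorem finrank_range_lpsi (A R' : Submodule K (Finset (Fin n) → MvPolynomial (Fin n) K))
    [Module.Finite K A] [Module.Finite K R'] :
    finrank K (LinearMap.range (lpsi A R')) = finrank K A + finrank K R' := by
  rw [LinearMap.finrank_range_of_inj, Module.finrank_prod]
  intro q q' h
  rw [lpsi_apply, lpsi_apply, Prod.mk.injEq] at h
  obtain ⟨h1, h2⟩ := h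
  rw [h1] at h2
  apply Prod.ext
  · exact Subtype.ext h1
  · exact Subtype.ext (sub_left_injective h2)

theorem Bd_shift (d i : ℕ) : Bd K n (d + 1) (i + 1) = Bd K n d i := by
  rw [Bd, Bd]
  by_cases h : i ≤ d
  · rw [if_pos h, if_pos (by omega), show d + 1 - (i + 1) = d - i by omega]
  · rw [if_neg h, if_neg (by omega)]

theorem kd_X_mem {d i : ℕ} {a : Finset (Fin n) → MvPolynomial (Fin n) K}
    (ha : ∀ s, a s ∈ Bd K n d i) (t : Finset (Fin n)) : kd X a t ∈ Bd K n (d + 1) i := by
  rw [kd_apply]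
  refine Submodule.sum_mem _ fun j _ => ?_
  have h1 := ha (insert j t)
  have h2 : X j * a (insert j t) ∈ Bd K n (d + 1) i := by
    by_cases h : i ≤ d
    · rw [Bd, if_pos h, mem_homogeneousSubmodule] at h1
      rw [Bd, if_pos (by omega), mem_homogeneousSubmodule,
        show d + 1 - i = 1 + (d - i) by omega]
      exact (isHomogeneous_X K j).mul h1
    · rw [bd_zero h1 (by omega), mul_zero]
      exact Submodule.zero_mem _
  rcases neg_one_pow_eq_or (MvPolynomial (Fin n) K) (t.filter fun k => k < j).card with h | h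
  · rw [h, one_mul]
    exact h2
  · rw [h, neg_one_mul]
    exact Submodule.neg_mem _ h2

/-- the part of degree `0` -/
theorem map_cut_zero_le {d p : ℕ} (V : Submodule K (Polynomial (MvPolynomial (Fin n) K))) :
    (cut (pc (xB K n) Polynomial.X V (Gd K n d) p) (lpi K n) 0).map (lpi K n 0) ≤
      (rc X (lay V 0) (homogeneousSubmodule (Fin n) K d) (p + 1)).map
        (LinearMap.inl K _ (Finset (Fin n) → MvPolynomial (Fin n) K)) := by
  rintro _ ⟨⟨α, γ⟩, ⟨⟨h1, h2, h3, h4⟩, -⟩, rfl⟩
  refine ⟨fun s => (α s).coeff 0, ⟨⟨fun s hs => ?_, fun s => ?_⟩, fun t => ?_⟩, ?_⟩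
  · change (α s).coeff 0 = 0
    have e : α s = 0 := h1.1 s hs
    rw [e, Polynomial.coeff_zero]
  · have h5 := h1.2 s 0
    rw [Bd, if_pos (Nat.zero_le d), Nat.sub_zero] at h5
    exact h5
  · refine ⟨_, h4 t, fun j hj => absurd hj (Nat.not_lt_zero _), ?_⟩
    rw [Polynomial.coeff_add, kd_coeff, Polynomial.coeff_X_mul_zero, add_zero]
  · apply Prod.ext
    · rfl
    · funext s
      exact (Polynomial.coeff_X_mul_zero _).symm

/-- the parts of positive degree -/
theorem map_cut_succ_le {d p : ℕ} (V : Submodule K (Polynomial (MvPolynomial (Fin n) K)))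
    (i : ℕ) :
    (cut (pc (xB K n) Polynomial.X V (Gd K n d) p) (lpi K n) (i + 1)).map (lpi K n (i + 1)) ≤
      LinearMap.range (lpsi (chW n (p + 1) (Bd K n d (i + 1)))
        (rc X (lay V i) (lay V (i + 1)) p)) := by
  rintro _ ⟨⟨α, γ⟩, ⟨⟨h1, h2, h3, h4⟩, h5⟩, rfl⟩
  have h6 : ∀ j < i + 1, ∀ s, (α s).coeff j = 0 := fun j hj s => (lpi_eq_zero (h5 j hj) s).1
  have h7 : ∀ j < i, ∀ s, (γ s).coeff j = 0 := by
    intro j hj s
    have h := (lpi_eq_zero (h5 (j + 1) (by omega)) s).2
    rw [Polynomial.coeff_X_mul] at h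
    exact h
  have hz : ∀ t, kd X (fun _ : Finset (Fin n) => (0 : MvPolynomial (Fin n) K)) t = 0 := by
    intro t
    exact congrFun (kdL K (X : Fin n → MvPolynomial (Fin n) K)).map_zero t
  set a : Finset (Fin n) → MvPolynomial (Fin n) K := fun s => (α s).coeff (i + 1) with ha
  set g : Finset (Fin n) → MvPolynomial (Fin n) K := fun s => (γ s).coeff i with hg
  have ha1 : a ∈ chW n (p + 1) (Bd K n d (i + 1)) :=
    ⟨fun s hs => by
      have e : α s = 0 := h1.1 s hs
      rw [ha]; simp only; rw [e, Polynomial.coeff_zero],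
      fun s => h1.2 s (i + 1)⟩
  have hg1 : ∀ s, s.card ≠ p → g s = 0 := fun s hs => by
    have e : γ s = 0 := h2.1 s hs
    rw [hg]; simp only; rw [e, Polynomial.coeff_zero]
  have hh1 : ∀ t, kd X a t + g t ∈ lay V (i + 1) := by
    intro t
    refine ⟨_, h4 t, fun j hj => ?_, ?_⟩
    · rw [Polynomial.coeff_add, kd_coeff]
      have h8 : (fun s => (α s).coeff j) = fun _ => 0 := funext fun s => h6 j hj s
      rw [h8, hz, zero_add]
      cases j with
      | zero => exact Polynomial.coeff_X_mul_zero _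
      | succ j =>
        rw [Polynomial.coeff_X_mul]
        exact h7 j (by omega) t
    · rw [Polynomial.coeff_add, kd_coeff, Polynomial.coeff_X_mul]
  have hk1 : ∀ t, kd X g t ∈ lay V i := by
    intro t
    refine ⟨_, h3 t, fun j hj => ?_, ?_⟩
    · rw [kd_coeff]
      have h8 : (fun s => (γ s).coeff j) = fun _ => 0 := funext fun s => h7 j hj s
      rw [h8, hz]
    · rw [kd_coeff]
  have hr : kd X a + g ∈ rc X (lay V i) (lay V (i + 1)) p := by
    refine ⟨⟨fun s hs => ?_, hh1⟩, fun t => ?_⟩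
    · rw [Pi.add_apply, hg1 s hs, kd_card ha1.1 s hs, add_zero]
    · rw [kd_add, kd_sq, zero_add]
      exact hk1 t
  refine ⟨(⟨a, ha1⟩, ⟨kd X a + g, hr⟩), ?_⟩
  rw [lpsi_apply]
  apply Prod.ext
  · rfl
  · change kd X a + g - kd X a = _
    rw [add_sub_cancel_left]
    funext s
    exact (Polynomial.coeff_X_mul _ _).symm

theorem cut_top {d p : ℕ} (V : Submodule K (Polynomial (MvPolynomial (Fin n) K))) :
    cut (pc (xB K n) Polynomial.X V (Gd K n d) p) (lpi K n) (d + 2) = ⊥ := by
  rw [eq_bot_iff]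
  rintro ⟨α, γ⟩ ⟨⟨h1, h2, h3, h4⟩, h5⟩
  rw [Submodule.mem_bot]
  apply Prod.ext
  · funext s
    exact gd_ext (h1.2 s) fun j hj => (lpi_eq_zero (h5 j (by omega)) s).1
  · funext s
    refine gd_ext (h2.2 s) fun j hj => ?_
    have h := (lpi_eq_zero (h5 (j + 1) (by omega)) s).2
    rw [Polynomial.coeff_X_mul] at h
    exact h

theorem finrank_pc_eq {d p : ℕ} (V : Submodule K (Polynomial (MvPolynomial (Fin n) K))) :
    finrank K (pc (xB K n) Polynomial.X V (Gd K n d) p) =
      finrank K ((cut (pc (xB K n) Polynomial.X V (Gd K n d) p) (lpi K n) 0).map (lpi K n 0)) +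
      ∑ i ∈ Finset.range (d + 1), finrank K
        ((cut (pc (xB K n) Polynomial.X V (Gd K n d) p) (lpi K n) (i + 1)).map
          (lpi K n (i + 1))) := by
  rw [finrank_cut' _ (lpi K n) (d + 2) (cut_top V), Finset.sum_range_succ', add_comm]

theorem finrank_map_inl (R' : Submodule K (Finset (Fin n) → MvPolynomial (Fin n) K)) :
    finrank K (R'.map (LinearMap.inl K _ (Finset (Fin n) → MvPolynomial (Fin n) K))) =
      finrank K R' :=
  (Submodule.equivMapOfInjective _ LinearMap.inl_injective R').finrank_eq.symm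

theorem finrank_lpsi_rc {d p i : ℕ} (V : ℕ → Submodule K (MvPolynomial (Fin n) K))
    (hV : ∀ i, V i ≤ Bd K n (d + 1) i) :
    finrank K (LinearMap.range (lpsi (chW n (p + 1) (Bd K n d (i + 1)))
        (rc X (V i) (V (i + 1)) p))) =
      n.choose (p + 1) * finrank K (Bd K n d (i + 1)) + finrank K (rc X (V i) (V (i + 1)) p) := by
  have h : Module.Finite K (V (i + 1)) := Submodule.finiteDimensional_of_le (hV (i + 1))
  rw [finrank_range_lpsi, finrank_chW]

theorem zc_lay {d p : ℕ} (V : Submodule K (Polynomial (MvPolynomial (Fin n) K)))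
    (hV : V ≤ Gd K n (d + 1)) :
    finrank K (pc (xB K n) Polynomial.X V (Gd K n d) p) ≤ zc (lay V) p d := by
  rw [finrank_pc_eq, zc]
  refine Nat.add_le_add ?_ (Finset.sum_le_sum fun i _ => ?_)
  · rw [← finrank_map_inl]
    exact Submodule.finrank_mono (map_cut_zero_le V)
  · rw [← finrank_lpsi_rc (lay V) (lay_le hV)]
    have h : Module.Finite K (lay V (i + 1)) :=
      Submodule.finiteDimensional_of_le (lay_le hV (i + 1))
    exact Submodule.finrank_mono (map_cut_succ_le V i)

theorem lay_grs (V : ℕ → Submodule K (MvPolynomial (Fin n) K)) (i : ℕ) :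
    lay (grs V) i = V i := by
  ext b
  constructor
  · rintro ⟨F, hF, -, rfl⟩
    exact hF i
  · intro hb
    refine ⟨Polynomial.C b * Polynomial.X ^ i, fun j => ?_, fun j hj => ?_, ?_⟩
    · rw [Polynomial.coeff_C_mul_X_pow]
      split_ifs with h
      · rw [h]
        exact hb
      · exact Submodule.zero_mem _
    · rw [Polynomial.coeff_C_mul_X_pow, if_neg (by omega)]
    · rw [Polynomial.coeff_C_mul_X_pow, if_pos rfl]

theorem kd_CX (a : Finset (Fin n) → MvPolynomial (Fin n) K) (i : ℕ) (t : Finset (Fin n)) :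
    kd (xB K n) (fun s => Polynomial.X ^ i * Polynomial.C (a s)) t =
      Polynomial.X ^ i * Polynomial.C (kd X a t) := by
  rw [kd_mul, kd_map]

theorem coeff_XC (b : MvPolynomial (Fin n) K) (i j : ℕ) :
    (Polynomial.X ^ i * Polynomial.C b).coeff j = if j = i then b else 0 := by
  rw [mul_comm, Polynomial.coeff_C_mul_X_pow]

theorem XC_mem_grs {V : ℕ → Submodule K (MvPolynomial (Fin n) K)}
    {b : MvPolynomial (Fin n) K} {i : ℕ} (hb : b ∈ V i) :
    Polynomial.X ^ i * Polynomial.C b ∈ grs V := by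
  intro j
  rw [coeff_XC]
  split_ifs with h
  · rw [h]
    exact hb
  · exact Submodule.zero_mem _

theorem XC_mem_Gd {b : MvPolynomial (Fin n) K} {d i : ℕ} (hb : b ∈ Bd K n d i) :
    Polynomial.X ^ i * Polynomial.C b ∈ Gd K n d := by
  intro j
  rw [coeff_XC]
  split_ifs with h
  · rw [h]
    exact hb
  · exact Submodule.zero_mem _

theorem le_map_cut_zero {d p : ℕ} (V : ℕ → Submodule K (MvPolynomial (Fin n) K)) :
    (rc X (V 0) (homogeneousSubmodule (Fin n) K d) (p + 1)).map
        (LinearMap.inl K _ (Finset (Fin n) → MvPolynomial (Fin n) K)) ≤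
    (cut (pc (xB K n) Polynomial.X (grs V) (Gd K n d) p) (lpi K n) 0).map (lpi K n 0) := by
  rintro _ ⟨a, ⟨h1, h2⟩, rfl⟩
  refine ⟨(fun s => Polynomial.X ^ 0 * Polynomial.C (a s), 0), ⟨⟨⟨fun s hs => ?_, fun s => ?_⟩,
    Submodule.zero_mem _, fun t => ?_, fun t => ?_⟩, fun j hj => absurd hj (Nat.not_lt_zero _)⟩,
    ?_⟩
  · change Polynomial.X ^ 0 * Polynomial.C (a s) = 0
    rw [h1.1 s hs, Polynomial.C_0, mul_zero]
  · refine XC_mem_Gd ?_
    rw [Bd, if_pos (Nat.zero_le d), Nat.sub_zero]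
    exact h1.2 s
  · have h : kd (xB K n) (0 : Finset (Fin n) → Polynomial (MvPolynomial (Fin n) K)) = 0 :=
      (kdL K (xB K n)).map_zero
    change kd (xB K n) (0 : Finset (Fin n) → Polynomial (MvPolynomial (Fin n) K)) t ∈ grs V
    rw [h]
    exact Submodule.zero_mem _
  · change kd (xB K n) (fun s => Polynomial.X ^ 0 * Polynomial.C (a s)) t +
      Polynomial.X * (0 : Polynomial (MvPolynomial (Fin n) K)) ∈ grs V
    rw [mul_zero, add_zero, kd_CX]
    exact XC_mem_grs (h2 t)
  · apply Prod.ext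
    · funext s
      change (Polynomial.X ^ 0 * Polynomial.C (a s)).coeff 0 = a s
      rw [coeff_XC, if_pos rfl]
    · funext s
      exact Polynomial.coeff_X_mul_zero _

theorem le_map_cut_succ {d p : ℕ} (V : ℕ → Submodule K (MvPolynomial (Fin n) K))
    (hV : ∀ i, V i ≤ Bd K n (d + 1) i) (i : ℕ) :
    LinearMap.range (lpsi (chW n (p + 1) (Bd K n d (i + 1))) (rc X (V i) (V (i + 1)) p)) ≤
    (cut (pc (xB K n) Polynomial.X (grs V) (Gd K n d) p) (lpi K n) (i + 1)).map
      (lpi K n (i + 1)) := by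
  rintro _ ⟨⟨⟨a, ha⟩, ⟨h, hh⟩⟩, rfl⟩
  rw [lpsi_apply]
  set g : Finset (Fin n) → MvPolynomial (Fin n) K := h - kd X a with hg
  have hg1 : ∀ s, g s ∈ Bd K n d i := by
    intro s
    rw [hg, Pi.sub_apply, ← Bd_shift]
    exact Submodule.sub_mem _ (hV _ (hh.1.2 s)) (kd_X_mem ha.2 s)
  have hg0 : ∀ s, s.card ≠ p → g s = 0 := by
    intro s hs
    rw [hg, Pi.sub_apply, hh.1.1 s hs, kd_card ha.1 s hs, sub_zero]
  have hkg : ∀ t, kd X g t ∈ V i := by
    intro t
    rw [hg, kd_sub, kd_sq, sub_zero]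
    exact hh.2 t
  have hag : ∀ t, kd X a t + g t ∈ V (i + 1) := by
    intro t
    rw [hg, Pi.sub_apply, add_sub_cancel]
    exact hh.1.2 t
  refine ⟨(fun s => Polynomial.X ^ (i + 1) * Polynomial.C (a s),
    fun s => Polynomial.X ^ i * Polynomial.C (g s)), ⟨⟨⟨fun s hs => ?_, fun s => ?_⟩,
    ⟨fun s hs => ?_, fun s => ?_⟩, fun t => ?_, fun t => ?_⟩, fun j hj => ?_⟩, ?_⟩
  · change Polynomial.X ^ (i + 1) * Polynomial.C (a s) = 0
    rw [ha.1 s hs, Polynomial.C_0, mul_zero]
  · exact XC_mem_Gd (ha.2 s)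
  · change Polynomial.X ^ i * Polynomial.C (g s) = 0
    rw [hg0 s hs, Polynomial.C_0, mul_zero]
  · exact XC_mem_Gd (hg1 s)
  · change kd (xB K n) (fun s => Polynomial.X ^ i * Polynomial.C (g s)) t ∈ grs V
    rw [kd_CX]
    exact XC_mem_grs (hkg t)
  · change kd (xB K n) (fun s => Polynomial.X ^ (i + 1) * Polynomial.C (a s)) t +
      Polynomial.X * (Polynomial.X ^ i * Polynomial.C (g t)) ∈ grs V
    rw [kd_CX, ← mul_assoc, ← pow_succ', ← mul_add, ← Polynomial.C_add]
    exact XC_mem_grs (hag t)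
  · apply Prod.ext
    · funext s
      change (Polynomial.X ^ (i + 1) * Polynomial.C (a s)).coeff j = 0
      rw [coeff_XC, if_neg (by omega)]
    · funext s
      change (Polynomial.X * (Polynomial.X ^ i * Polynomial.C (g s))).coeff j = 0
      rw [← mul_assoc, ← pow_succ', coeff_XC, if_neg (by omega)]
  · apply Prod.ext
    · funext s
      change (Polynomial.X ^ (i + 1) * Polynomial.C (a s)).coeff (i + 1) = a s
      rw [coeff_XC, if_pos rfl]
    · funext s
      change (Polynomial.X * (Polynomial.X ^ i * Polynomial.C (g s))).coeff (i + 1) = g s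
      rw [← mul_assoc, ← pow_succ', coeff_XC, if_pos rfl]

theorem grs_le {D : ℕ} (V : ℕ → Submodule K (MvPolynomial (Fin n) K))
    (hV : ∀ i, V i ≤ Bd K n D i) : grs V ≤ Gd K n D := fun _ hF i => hV i (hF i)

theorem zc_grs {d p : ℕ} (V : ℕ → Submodule K (MvPolynomial (Fin n) K))
    (hV : ∀ i, V i ≤ Bd K n (d + 1) i) :
    finrank K (pc (xB K n) Polynomial.X (grs V) (Gd K n d) p) = zc V p d := by
  have hl : lay (grs V) = V := funext (lay_grs V)
  refine le_antisymm ?_ ?_
  · have h := zc_lay (p := p) (grs V) (grs_le V hV)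
    rw [hl] at h
    exact h
  · rw [finrank_pc_eq, zc]
    refine Nat.add_le_add ?_ (Finset.sum_le_sum fun i _ => ?_)
    · rw [← finrank_map_inl]
      have h : Module.Finite K (cut (pc (xB K n) Polynomial.X (grs V) (Gd K n d) p)
          (lpi K n) 0) := Submodule.finiteDimensional_of_le (cut_le _ _ _)
      exact Submodule.finrank_mono (le_map_cut_zero V)
    · rw [← finrank_lpsi_rc V hV]
      have h : Module.Finite K (cut (pc (xB K n) Polynomial.X (grs V) (Gd K n d) p)
          (lpi K n) (i + 1)) := Submodule.finiteDimensional_of_le (cut_le _ _ _)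
      exact Submodule.finrank_mono (le_map_cut_succ V hV i)

theorem finrank_grs {D : ℕ} (V : ℕ → Submodule K (MvPolynomial (Fin n) K))
    (hV : ∀ i, V i ≤ Bd K n D i) : finrank K (grs V) = tot V D := by
  rw [finrank_eq_tot_lay (grs V) (grs_le V hV), funext (lay_grs V)]

end Vale.Agent.P200.L
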