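import Vale.Agent.P200.L.Dist

/-! Stable layered spaces. -/

namespace Vale.Agent.P200.L

open MvPolynomial Module
open Vale.Agent.P200.B Vale.Agent.P200.G

variable {K : Type*} [Field K] {n : ℕ}

/-- the potential -/
noncomputable def pot (W D : ℕ) (V : ℕ → Submodule K (MvPolynomial (Fin n) K)) : ℕ :=
  ∑ i ∈ Finset.range (D + 1), W ^ (D - i) * finrank K (V i)

theorem pot_le {W D : ℕ} (hW : 1 ≤ W) (V : ℕ → Submodule K (MvPolynomial (Fin n) K)) :
    pot W D V ≤ W ^ D * tot V D := by
  rw [pot, tot, Finset.mul_sum]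
  refine Finset.sum_le_sum fun i _ => Nat.mul_le_mul_right _ (Nat.pow_le_pow_right hW ?_)
  omega

theorem pot_lt {W D k : ℕ} (hk : k < D) {V V' : ℕ → Submodule K (MvPolynomial (Fin n) K)}
    (hfin : ∀ i, Module.Finite K (V' i)) (hW : tot V D < W)
    (h1 : ∀ i < k, V i ≤ V' i) (h2 : V k < V' k) : pot W D V < pot W D V' := by
  have hsplit : ∀ V : ℕ → Submodule K (MvPolynomial (Fin n) K), pot W D V =
      ∑ i ∈ Finset.range k, W ^ (D - i) * finrank K (V i) + W ^ (D - k) * finrank K (V k) +
        ∑ i ∈ Finset.Ico (k + 1) (D + 1), W ^ (D - i) * finrank K (V i) := by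
    intro V
    rw [pot, ← Finset.sum_range_succ, Finset.range_eq_Ico, Finset.range_eq_Ico,
      Finset.sum_Ico_consecutive _ (Nat.zero_le _) (by omega)]
  rw [hsplit V, hsplit V']
  have e1 : ∑ i ∈ Finset.range k, W ^ (D - i) * finrank K (V i) ≤
      ∑ i ∈ Finset.range k, W ^ (D - i) * finrank K (V' i) :=
    Finset.sum_le_sum fun i hi => Nat.mul_le_mul_left _ (by
      have := hfin i
      exact Submodule.finrank_mono (h1 i (Finset.mem_range.1 hi)))
  have e2 : W ^ (D - k) * (finrank K (V k) + 1) ≤ W ^ (D - k) * finrank K (V' k) :=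
    Nat.mul_le_mul_left _ (by
      have := hfin k
      exact Submodule.finrank_lt_finrank_of_lt h2)
  have e3 : ∑ i ∈ Finset.Ico (k + 1) (D + 1), W ^ (D - i) * finrank K (V i) ≤
      W ^ (D - k - 1) * tot V D := by
    rw [tot, Finset.mul_sum]
    refine le_trans (Finset.sum_le_sum (g := fun i => W ^ (D - k - 1) * finrank K (V i)) ?_) ?_
    · intro i hi
      rw [Finset.mem_Ico] at hi
      exact Nat.mul_le_mul_right _ (Nat.pow_le_pow_right (by omega) (by omega))
    · refine Finset.sum_le_sum_of_subset ?_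
      intro i hi
      rw [Finset.mem_Ico] at hi
      exact Finset.mem_range.2 hi.2
  have e4 : W ^ (D - k - 1) * tot V D < W ^ (D - k) := by
    have h3 : D - k = D - k - 1 + 1 := by omega
    have h4 : 0 < W ^ (D - k - 1) := Nat.pow_pos (by omega)
    calc W ^ (D - k - 1) * tot V D < W ^ (D - k - 1) * W := Nat.mul_lt_mul_of_pos_left hW h4
      _ = W ^ (D - k) := by rw [← pow_succ, ← h3]
  have e5 : W ^ (D - k) * (finrank K (V k) + 1) = W ^ (D - k) * finrank K (V k) + W ^ (D - k) := by
    ring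
  omega

/-- every layered space can be made stable, keeping any property that survives distractions -/
theorem exists_stable_gen {J : Ideal (MvPolynomial (Fin n) K)} {D : ℕ}
    (P : (ℕ → Submodule K (MvPolynomial (Fin n) K)) → Prop)
    (hP : ∀ V, Lay J D V → P V → ∀ k j, P (disl k j V))
    {V : ℕ → Submodule K (MvPolynomial (Fin n) K)} (hV : Lay J D V) (hPV : P V) :
    ∃ V' : ℕ → Submodule K (MvPolynomial (Fin n) K), Lay J D V' ∧
      tot V' D = tot V D ∧ P V' ∧
      ∀ k < D, ∀ j : Fin n, ∀ b ∈ V' (k + 1), X j * b ∈ V' k := by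
  classical
  set W := tot V D + 1 with hW
  have key : ∀ N, ∀ V' : ℕ → Submodule K (MvPolynomial (Fin n) K), Lay J D V' → P V' →
      tot V' D = tot V D → W ^ D * tot V D - pot W D V' ≤ N →
      ∃ V' : ℕ → Submodule K (MvPolynomial (Fin n) K), Lay J D V' ∧
        tot V' D = tot V D ∧ P V' ∧
        ∀ k < D, ∀ j : Fin n, ∀ b ∈ V' (k + 1), X j * b ∈ V' k := by
    intro N
    induction N with
    | zero =>
      intro V' hL hPV' ht hN
      refine ⟨V', hL, ht, hPV', fun k hk j b hb => ?_⟩
      by_contra hjb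
      have h1 : pot W D V' < pot W D (disl k j V') :=
        pot_lt hk (fun i => Submodule.finiteDimensional_of_le ((disl_lay hL k j).le i))
          (by omega) (fun i hi => le_disl V' k j hi.le) (lt_disl hb hjb)
      have h2 := pot_le (W := W) (D := D) (by omega) (disl k j V')
      rw [disl_tot hL.le k j, ht] at h2
      omega
    | succ N ih =>
      intro V' hL hPV' ht hN
      by_cases hst : ∀ k < D, ∀ j : Fin n, ∀ b ∈ V' (k + 1), X j * b ∈ V' k
      · exact ⟨V', hL, ht, hPV', hst⟩
      · push Not at hst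
        obtain ⟨k, hk, j, b, hb, hjb⟩ := hst
        have h1 : pot W D V' < pot W D (disl k j V') :=
          pot_lt hk (fun i => Submodule.finiteDimensional_of_le ((disl_lay hL k j).le i))
            (by omega) (fun i hi => le_disl V' k j hi.le) (lt_disl hb hjb)
        have h2 := pot_le (W := W) (D := D) (by omega) (disl k j V')
        have h3 := disl_tot hL.le k j
        rw [h3, ht] at h2
        exact ih (disl k j V') (disl_lay hL k j) (hP V' hL hPV' k j) (h3.trans ht) (by omega)
  exact key _ V hV hPV rfl le_rfl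

theorem exists_stable {J : Ideal (MvPolynomial (Fin n) K)} {d : ℕ} (p : ℕ)
    {V : ℕ → Submodule K (MvPolynomial (Fin n) K)} (hV : Lay J (d + 1) V) :
    ∃ V' : ℕ → Submodule K (MvPolynomial (Fin n) K), Lay J (d + 1) V' ∧
      tot V' (d + 1) = tot V (d + 1) ∧ zc V p d ≤ zc V' p d ∧
      ∀ k ≤ d, ∀ j : Fin n, ∀ b ∈ V' (k + 1), X j * b ∈ V' k := by
  obtain ⟨V', h1, h2, h3, h4⟩ := exists_stable_gen (J := J) (D := d + 1)
    (fun V' => zc V p d ≤ zc V' p d) (fun V' hL hPV' k j => hPV'.trans (zc_disl hL.le k j)) hV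
    le_rfl
  exact ⟨V', h1, h2, h3, fun k hk => h4 k (by omega)⟩

end Vale.Agent.P200.L
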