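import Vale.Agent.P200.L.Gen
import Vale.Agent.P200.L.Stab
import Vale.Agent.P200.L.Base

/-! The induction on the number of variables. -/

namespace Vale.Agent.P200.L

open MvPolynomial Module
open Vale.Agent.P200.B Vale.Agent.P200.G

variable {K : Type*} [Field K] {n c : ℕ}

/-- closure of lex layers under multiplication by the variables -/
theorem lexSet_closure (h : c ≤ n) (a : Fin c → ℕ) (hpos : ∀ i, 1 ≤ a i)
    (f : Fin c → MvPolynomial (Fin n) K) (hf : ∀ i, (f i).IsHomogeneous (a i))
    (hreg : IsRegularSeq f) (hE : EGHfor h a f) (D : ℕ)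
    (V W : Submodule K (MvPolynomial (Fin n) K))
    (hV1 : piece (Ideal.span (Set.range f)) D ≤ V)
    (hV2 : V ≤ homogeneousSubmodule (Fin n) K D)
    (hW1 : piece (Ideal.span (Set.range f)) (D + 1) ≤ W)
    (hW2 : W ≤ homogeneousSubmodule (Fin n) K (D + 1))
    (hVW : ∀ j : Fin n, ∀ b ∈ V, X j * b ∈ W) (m : Fin n →₀ ℕ)
    (hm : m ∈ lexSet h a D (finrank K V - (insideP h a D).ncard)) (j : Fin n) :
    m + Finsupp.single j 1 ∈ lexSet h a (D + 1) (finrank K W - (insideP h a (D + 1)).ncard) := by
  obtain ⟨I, hI, hfI, hID, hI2⟩ := piece_span_space f a hf V hV1 hV2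
  obtain ⟨J, hJ⟩ := hE I hI hfI
  obtain ⟨-, hJ2, -⟩ := lexPlusPowers_spec h a hpos f hf hreg I hI hfI J hJ
  have h1 : monomial m (1 : K) ∈ piece J D := by
    rw [hJ2, lexPart_eq_lx, hID]
    exact (monomial_mem_restrictSupport K).2 (Or.inl hm)
  have h2 : monomial (m + Finsupp.single j 1) (1 : K) ∈ piece J (D + 1) := by
    have h3 : monomial (m + Finsupp.single j 1) (1 : K) = X j * monomial m 1 := by
      rw [X, monomial_mul, one_mul, add_comm]
    rw [h3]
    apply shd_piece_le J D
    exact Submodule.mem_iSup_of_mem j ⟨_, h1, rfl⟩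
  rw [hJ2, lexPart_eq_lx] at h2
  have h3 := ((monomial_mem_restrictSupport K).1 h2).resolve_right one_ne_zero
  refine lexSet_mono h a (D + 1) ?_ h3
  have : Module.Finite K W := Submodule.finiteDimensional_of_le hW2
  exact Nat.sub_le_sub_right (Submodule.finrank_mono (hI2 W hW1 hVW)) _

theorem eE_X_fun : (fun i : Fin n => eE K n (X i.castSucc)) = xB K n := by
  funext i
  rw [eE_X_castSucc]

/-- the cycles of the lex space are counted by its layers -/
theorem finrank_rc_lx (h' : c ≤ n + 1) (a : Fin c → ℕ) (d v p : ℕ) :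
    finrank K (rc X (lx K h' a (d + 1) v) (homogeneousSubmodule (Fin (n + 1)) K d) (p + 1)) =
      zc (lxl K h' a (d + 1) v) p d := by
  have e2 : eE K n (X (Fin.last n)) = Polynomial.X := eE_X_last
  have e3 := finrank_pc_map (K := K) (R := MvPolynomial (Fin (n + 1)) K)
    (R' := Polynomial (MvPolynomial (Fin n) K)) (eE K n) (fun i : Fin n => (X i.castSucc))
    (X (Fin.last n)) (lx K h' a (d + 1) v) (homogeneousSubmodule (Fin (n + 1)) K d) p
  rw [eE_X_fun, e2, map_eE_lx, map_eE_homogeneous] at e3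
  rw [finrank_rc_succ, ← e3]
  exact zc_grs _ fun i => lxl_le h' a (d + 1) v i

theorem tot_lxl (h' : c ≤ n + 1) (a : Fin c → ℕ) (d v : ℕ)
    (h1 : (insideP h' a (d + 1)).ncard ≤ v)
    (h2 : v ≤ finrank K (homogeneousSubmodule (Fin (n + 1)) K (d + 1))) :
    tot (lxl K h' a (d + 1) v) (d + 1) = v := by
  rw [← finrank_grs _ (fun i => lxl_le h' a (d + 1) v i), ← map_eE_lx]
  rw [LinearEquiv.finrank_map_eq (eE K n).toLinearEquiv, finrank_lx h' a (d + 1) v h1 h2]

/-- all families with entries in a lex layer are cycles modulo the previous one -/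
theorem finrank_rc_lxl (h : c ≤ n) (h' : c ≤ n + 1) (a : Fin c → ℕ) (d v p i : ℕ) :
    finrank K (rc X (lxl K h' a (d + 1) v i) (lxl K h' a (d + 1) v (i + 1)) p) =
      n.choose p * finrank K (lxl K h' a (d + 1) v (i + 1)) := by
  have : Module.Finite K (lxl K h' a (d + 1) v (i + 1)) :=
    Submodule.finiteDimensional_of_le (lxl_le h' a (d + 1) v (i + 1))
  have h0 : rc X (lxl K h' a (d + 1) v i) (lxl K h' a (d + 1) v (i + 1)) p =
      chW n p (lxl K h' a (d + 1) v (i + 1)) := by
    refine le_antisymm (fun u hu => hu.1) fun u hu => ⟨hu, fun t => ?_⟩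
    rw [kd_apply]
    refine Submodule.sum_mem _ fun j _ => sign_mul_mem' _ _ ?_
    have h2 := hu.2 (insert j t)
    -- multiplication by a variable
    have h3 : (lxl K h' a (d + 1) v (i + 1)).map (LinearMap.mulLeft K (X j)) ≤
        lxl K h' a (d + 1) v i := by
      rw [lxl, restrictSupport_eq_span, Submodule.map_span, Submodule.span_le]
      rintro _ ⟨_, ⟨m, hm, rfl⟩, rfl⟩
      show X j * monomial m (1 : K) ∈ lxl K h' a (d + 1) v i
      have h4 : X j * monomial m (1 : K) = monomial (m + Finsupp.single j 1) 1 := by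
        rw [X, monomial_mul, one_mul, add_comm]
      rw [h4]
      exact (monomial_mem_restrictSupport K).2 (Or.inl (lexSet_stable h' h a _ _ i m hm j))
    exact h3 ⟨_, h2, rfl⟩
  rw [h0, finrank_chW]

/-- **the induction step** -/
theorem zle_succ [Infinite K] (h : c ≤ n) (h' : c ≤ n + 1) (a : Fin c → ℕ)
    (hpos : ∀ i, 1 ≤ a i) (f : Fin c → MvPolynomial (Fin (n + 1)) K)
    (hf : ∀ i, (f i).IsHomogeneous (a i)) (hreg : IsRegularSeq f) (p : ℕ)
    (hE : ∀ cc : Fin n → K, IsRegularSeq (fun i => rho cc (f i)) →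
      EGHfor h a fun i => rho cc (f i))
    (hZ : ∀ cc : Fin n → K, IsRegularSeq (fun i => rho cc (f i)) →
      ZLE K h a (p + 1) fun i => rho cc (f i)) :
    ZLE K h' a (p + 1) f := by
  intro d V hV1 hV2
  obtain ⟨cc, hcc⟩ := exists_rho_regular h a hpos f hf hreg
  specialize hE cc hcc
  specialize hZ cc hcc
  set fb : Fin c → MvPolynomial (Fin n) K := fun i => rho cc (f i) with hfb
  have hfbh : ∀ i, (fb i).IsHomogeneous (a i) := fun i => rho_isHomogeneous cc (hf i)
  obtain ⟨V1, hL1, ht1, hz1⟩ := exists_layers cc a f hf p d V hV1 hV2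
  obtain ⟨V2, hL2, ht2, hz2, hs2⟩ := exists_stable p hL1
  have hV2h : ∀ i ≤ d + 1, V2 i ≤ homogeneousSubmodule (Fin n) K (d + 1 - i) := by
    intro i hi
    have := hL2.le i
    rwa [Bd, if_pos hi] at this
  have hfin : ∀ i, Module.Finite K (V2 i) := fun i =>
    Submodule.finiteDimensional_of_le (hL2.le i)
  -- the lex layers
  set q : ℕ → ℕ := fun i => finrank K (V2 i) - (insideP h a (d + 1 - i)).ncard with hq
  have hins : ∀ D, (insideP h a D).ncard = finrank K (piece (Ideal.span (Set.range fb)) D) :=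
    fun D => ncard_insideP_le h a hpos fb hfbh hcc D
  have hins' : (insideP h' a (d + 1)).ncard =
      finrank K (piece (Ideal.span (Set.range f)) (d + 1)) :=
    ncard_insideP_le h' a hpos f hf hreg _
  have hfinV : Module.Finite K V := Submodule.finiteDimensional_of_le hV2
  have hv1 : (insideP h' a (d + 1)).ncard ≤ finrank K V := by
    rw [hins']
    exact Submodule.finrank_mono hV1
  have hv2 : finrank K V ≤ finrank K (homogeneousSubmodule (Fin (n + 1)) K (d + 1)) :=
    Submodule.finrank_mono hV2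
  set v := finrank K V with hv
  have hlxv : finrank K (lx K h' a (d + 1) v) = v := finrank_lx h' a (d + 1) v hv1 hv2
  have hcardi : ∀ i ≤ d + 1, (lexSet h a (d + 1 - i) (q i)).ncard = finrank K (V2 i) := by
    intro i hi
    have h1 : (insideP h a (d + 1 - i)).ncard ≤ finrank K (V2 i) := by
      rw [hins]
      have := hfin i
      exact Submodule.finrank_mono (hL2.ge i hi)
    have h2 : finrank K (V2 i) ≤ finrank K (homogeneousSubmodule (Fin n) K (d + 1 - i)) :=
      Submodule.finrank_mono (hV2h i hi)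
    have h3 := finrank_lx (K := K) h a (d + 1 - i) (finrank K (V2 i)) h1 h2
    rwa [lx, finrank_restrictSupport _ (lexSet_finite _ _ _ _)] at h3
  have hcl : ∀ i < d + 1, ∀ m ∈ lexSet h a (d + 1 - (i + 1)) (q (i + 1)), ∀ j : Fin n,
      m + Finsupp.single j 1 ∈ lexSet h a (d + 1 - i) (q i) := by
    intro i hi m hm j
    have e1 : d + 1 - i = d + 1 - (i + 1) + 1 := by omega
    have h1 := lexSet_closure h a hpos fb hfbh hcc hE (d + 1 - (i + 1)) (V2 (i + 1)) (V2 i)
      (hL2.ge _ (by omega)) (hV2h _ (by omega)) (by rw [← e1]; exact hL2.ge i (by omega))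
      (by rw [← e1]; exact hV2h i (by omega)) (fun j b hb => hs2 i (by omega) j b hb) m hm j
    rw [← e1] at h1
    exact h1
  have hcard : (lexSet h' a (d + 1) (v - (insideP h' a (d + 1)).ncard)).ncard ≤
      ∑ i ∈ Finset.range (d + 1 + 1), (lexSet h a (d + 1 - i) (q i)).ncard := by
    have h1 : (lexSet h' a (d + 1) (v - (insideP h' a (d + 1)).ncard)).ncard = v := by
      have h2 := hlxv
      rwa [lx, finrank_restrictSupport _ (lexSet_finite _ _ _ _)] at h2
    rw [h1, ← ht1, ← ht2, tot]
    exact Finset.sum_le_sum fun i hi => (hcardi i (by rw [Finset.mem_range] at hi; omega)).ge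
  have hlay := lex_layer h h' a (d + 1) q (v - (insideP h' a (d + 1)).ncard) hcl hcard
  -- the layers of the lex space
  set L := lxl K h' a (d + 1) v with hL
  have hLle : ∀ i, L i ≤ Bd K n (d + 1) i := fun i => lxl_le h' a (d + 1) v i
  have hLfin : ∀ i, Module.Finite K (L i) := fun i =>
    Submodule.finiteDimensional_of_le (hLle i)
  have hLtot : tot L (d + 1) = v := tot_lxl h' a d v hv1 hv2
  have hzL : finrank K (rc X (lx K h' a (d + 1) v) (homogeneousSubmodule (Fin (n + 1)) K d)
      (p + 1)) = zc L p d := finrank_rc_lx h' a d v p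
  have hL0 : L 0 ≤ lx K h a (d + 1) (finrank K (V2 0)) := by
    refine restrictSupport_mono K fun m hm => ?_
    exact hlay m hm
  -- the inequalities
  have hV20 := hZ d (V2 0) (by simpa using hL2.ge 0 (by omega)) (by simpa using hV2h 0 (by omega))
  have hM : finrank K (lx K h a (d + 1) (finrank K (V2 0))) = finrank K (V2 0) := by
    have h3 := hcardi 0 (by omega)
    rw [lx, finrank_restrictSupport _ (lexSet_finite _ _ _ _)]
    exact h3
  have hfinM : Module.Finite K (lx K h a (d + 1) (finrank K (V2 0))) := by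
    have h1 : lx K h a (d + 1) (finrank K (V2 0)) ≤ homogeneousSubmodule (Fin n) K (d + 1) := by
      rw [homogeneousSubmodule_eq_restrict]
      refine restrictSupport_mono K ?_
      rintro m (hm | hm)
      · exact hm.2
      · exact hm.1.2
    exact Submodule.finiteDimensional_of_le h1
  have hmono := finrank_rc_mono (K := K) (X : Fin n → MvPolynomial (Fin n) K) hL0
    (homogeneousSubmodule (Fin n) K d) p
  rw [hM] at hmono
  have hup : ∀ i, finrank K (rc X (V2 i) (V2 (i + 1)) p) ≤ n.choose p * finrank K (V2 (i + 1)) :=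
    fun i => by
      have := hfin (i + 1)
      exact finrank_rc_le X _ _ p
  have hrcL : ∑ i ∈ Finset.range (d + 1), finrank K (rc X (L i) (L (i + 1)) p) =
      n.choose p * ∑ i ∈ Finset.range (d + 1), finrank K (L (i + 1)) := by
    rw [Finset.mul_sum]
    exact Finset.sum_congr rfl fun i _ => finrank_rc_lxl h h' a d v p i
  rw [hzL]
  refine hz1.trans (hz2.trans ?_)
  rw [zc, zc, Finset.sum_add_distrib, Finset.sum_add_distrib, hrcL]
  have e1 : ∑ i ∈ Finset.range (d + 1), finrank K (rc X (V2 i) (V2 (i + 1)) p) ≤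
      n.choose p * ∑ i ∈ Finset.range (d + 1), finrank K (V2 (i + 1)) := by
    rw [Finset.mul_sum]
    exact Finset.sum_le_sum fun i _ => hup i
  have e2 : tot V2 (d + 1) = ∑ i ∈ Finset.range (d + 1), finrank K (V2 (i + 1)) +
      finrank K (V2 0) := by
    rw [tot, Finset.sum_range_succ']
  have e3 : tot L (d + 1) = ∑ i ∈ Finset.range (d + 1), finrank K (L (i + 1)) +
      finrank K (L 0) := by
    rw [tot, Finset.sum_range_succ']
  rw [← Finset.mul_sum]
  have e4 : n.choose p * ∑ i ∈ Finset.range (d + 1), finrank K (V2 (i + 1)) +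
      n.choose p * finrank K (V2 0) = n.choose p * v := by
    rw [← mul_add, ← e2, ht2, ht1]
  have e5 : n.choose p * ∑ i ∈ Finset.range (d + 1), finrank K (L (i + 1)) +
      n.choose p * finrank K (L 0) = n.choose p * v := by
    rw [← mul_add, ← e3, hLtot]
  omega

end Vale.Agent.P200.L
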